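import Vale.Agent.P247M.Int
import Vale.Agent.P247X.Base

/-!
# P247, block L exports: pull-back of forms by parametrisations, integrals in parametrisations
-/

set_option linter.unusedSectionVars false

open scoped Manifold ContDiff Topology
open Set Filter MeasureTheory

noncomputable section

namespace Vale.Agent.P247M

open Vale.Agent.P247.SCY Vale.Agent.P247.SCY.HS
open Vale.Agent.P267.H175 (SmAt dF)
open Vale.Agent.P267
open Vale.Agent.P247X (SC Cont SmoothOn DOn Coh)

variable {X : Type} [TopologicalSpace X] [ChartedSpace E4 X] {k : ℕ}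
variable {V : Type*} [NormedAddCommGroup V] [NormedSpace ℝ V]

/-- the differential of a parametrisation -/
def dP (P : V → X) (y : V) : V →L[ℝ] E4 := mfderiv 𝓘(ℝ, V) (𝓡 4) P y

/-- the pull-back of a form by a parametrisation -/
def pb (P : V → X) (α : Form X k) (y : V) : V [⋀^Fin k]→L[ℝ] ℝ :=
  (rf α (P y)).compContinuousLinearMap (dP P y)

theorem pb_apply (P : V → X) (α : Form X k) (y : V) (v : Fin k → V) :
    pb P α y v = α (P y) fun i => mfderiv 𝓘(ℝ, V) (𝓡 4) P y (v i) := rfl

theorem pb_one (P : V → X) (α : Form X 1) (y a : V) :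
    pb P α y ![a] = α (P y) ![mfderiv 𝓘(ℝ, V) (𝓡 4) P y a] := by
  rw [pb_apply]
  congr 1
  funext i
  fin_cases i
  rfl

theorem pb_two (P : V → X) (α : Form X 2) (y a b : V) : pb P α y ![a, b] =
    α (P y) ![mfderiv 𝓘(ℝ, V) (𝓡 4) P y a, mfderiv 𝓘(ℝ, V) (𝓡 4) P y b] := by
  rw [pb_apply]
  congr 1
  funext i
  fin_cases i <;> rfl

theorem pb_add (P : V → X) (α β : Form X k) (y : V) :
    pb P (fun x => α x + β x) y = pb P α y + pb P β y := rfl

theorem pb_sub (P : V → X) (α β : Form X k) (y : V) :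
    pb P (fun x => α x - β x) y = pb P α y - pb P β y := rfl

theorem pb_smul (P : V → X) (c : ℝ) (α : Form X k) (y : V) :
    pb P (fun x => c • α x) y = c • pb P α y := rfl

theorem pb_fsmul (P : V → X) (f : X → ℝ) (α : Form X k) (y : V) :
    pb P (fun x => f x • α x) y = f (P y) • pb P α y := rfl

theorem pb_of_zero {P : V → X} {α : Form X k} {y : V} (h : α (P y) = 0) : pb P α y = 0 := by
  ext v
  rw [pb_apply, h]
  rfl

theorem dP_eq {P : V → X} {y : V} (h : MDifferentiableAt 𝓘(ℝ, V) (𝓡 4) P y) :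
    dP P y = fderiv ℝ (fun z => chartAt E4 (P y) (P z)) y := by
  unfold dP
  rw [h.mfderiv]
  simp [writtenInExtChartAt, Function.comp_def, fderivWithin_univ, chartAt_self_eq]

variable [IsManifold (𝓡 4) ∞ X]

theorem contDiffAt_chart {n : WithTop ℕ∞} (hn : n ≤ ∞) {e : Ch X} (he : e ∈ atlas E4 X)
    {P : V → X} {y : V} (hP : ContMDiffAt 𝓘(ℝ, V) (𝓡 4) n P y) (hy : P y ∈ e.source) :
    ContDiffAt ℝ n (fun z => e (P z)) y :=
  contMDiffAt_iff_contDiffAt.1
    (((contMDiffAt_of_mem_maximalAtlas (IsManifold.subset_maximalAtlas he) hy).of_le hn).comp y hP)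

theorem differentiableAt_chart {e : Ch X} (he : e ∈ atlas E4 X)
    {P : V → X} {y : V} (hP : MDifferentiableAt 𝓘(ℝ, V) (𝓡 4) P y) (hy : P y ∈ e.source) :
    DifferentiableAt ℝ (fun z => e (P z)) y :=
  mdifferentiableAt_iff_differentiableAt.1 ((mdifferentiableAt_atlas he hy).comp y hP)

/-- the pull-back in a chart -/
theorem pb_chart {e : Ch X} (he : e ∈ atlas E4 X) {P : V → X} {y : V}
    (hP : MDifferentiableAt 𝓘(ℝ, V) (𝓡 4) P y) (hy : P y ∈ e.source) (α : Form X k) :
    pb P α y = (H175.loc e (rf α) (e (P y))).compContinuousLinearMap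
      (fderiv ℝ (fun z => e (P z)) y) := by
  rw [pb, H175.eq_of_loc he (rf α) hy, H175.comp_comp_alt, dP_eq hP]
  congr 1
  set c := chartAt E4 (P y)
  have hc : c ∈ atlas E4 X := chart_mem_atlas E4 _
  have hcy : P y ∈ c.source := mem_chart_source E4 _
  have h1 : c.symm (c (P y)) = P y := c.left_inv hcy
  have h2 : DifferentiableAt ℝ (fun z => e (c.symm z)) (c (P y)) :=
    (H175.trR hc he (c.map_source hcy) (by rw [h1]; exact hy)).differentiableAt (by simp)
  rw [← fderiv_comp (𝕜 := ℝ) (g := fun z => e (c.symm z)) (f := fun z => c (P z)) y h2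
    (differentiableAt_chart hc hP hcy)]
  apply Filter.EventuallyEq.fderiv_eq
  filter_upwards [hP.continuousAt.eventually (c.open_source.mem_nhds hcy)] with z hz
  show e (c.symm (c (P z))) = e (P z)
  rw [c.left_inv hz]

theorem pb_chart' {e : Ch X} (he : e ∈ atlas E4 X) {P : V → X} {y : V}
    (hP : MDifferentiableAt 𝓘(ℝ, V) (𝓡 4) P y) (hy : P y ∈ e.source) (α : Form X k) :
    pb P α y = (HS.loc e α (e (P y))).compContinuousLinearMap
      (fderiv ℝ (fun z => e (P z)) y) := by
  rw [pb_chart he hP hy, loc_eq he α (e.map_source hy)]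

section smooth

variable {P : V → X} {U : Set V} (hU : IsOpen U) (hP : ContMDiffOn 𝓘(ℝ, V) (𝓡 4) ∞ P U)
include hU hP

omit [IsManifold (𝓡 4) ∞ X] in
theorem param_at {y : V} (hy : y ∈ U) : ContMDiffAt 𝓘(ℝ, V) (𝓡 4) ∞ P y :=
  hP.contMDiffAt (hU.mem_nhds hy)

omit [IsManifold (𝓡 4) ∞ X] in
theorem param_diff {y : V} (hy : y ∈ U) : MDifferentiableAt 𝓘(ℝ, V) (𝓡 4) P y :=
  (param_at hU hP hy).mdifferentiableAt (by simp)

theorem pb_ev {e : Ch X} (he : e ∈ atlas E4 X) {y : V} (hy : y ∈ U) (hy' : P y ∈ e.source)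
    (α : Form X k) : pb P α =ᶠ[𝓝 y] fun z => (H175.loc e (rf α) (e (P z))).compContinuousLinearMap
      (fderiv ℝ (fun z => e (P z)) z) := by
  filter_upwards [hU.mem_nhds hy, (param_at hU hP hy).continuousAt.eventually
    (e.open_source.mem_nhds hy')] with z hz hz'
  exact pb_chart he (param_diff hU hP hz) hz' α

/-- the exterior derivative commutes with pull-backs -/
theorem extDeriv_pb {α : Form X k} {y : V} (hy : y ∈ U) (hα : SmAt (rf α) (P y)) :
    extDeriv (pb P α) y = pb P (hs (dF (rf α))) y := by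
  have hc := chart_mem_atlas E4 (P y)
  have hcy := mem_chart_source E4 (P y)
  rw [(pb_ev hU hP hc hy hcy α).extDeriv_eq, extDeriv_pullback (r := ∞)
    (f := fun z => chartAt E4 (P y) (P z)) hα.diff
    (contDiffAt_chart le_rfl hc (param_at hU hP hy) hcy) H175.minS, pb,
    dP_eq (param_diff hU hP hy)]
  rfl

/-- **PB**: pull-backs of closed forms are closed -/
theorem extDeriv_pb_sc {α : Form X k} (hα : SC α) {y : V} (hy : y ∈ U) :
    extDeriv (pb P α) y = 0 := by
  rw [extDeriv_pb hU hP hy (smooth_iff.1 hα.1 _)]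
  exact pb_of_zero ((closed_iff hα.1).1 hα.2 _)

variable [FiniteDimensional ℝ V]

theorem contDiffAt_pb {α : Form X k} {y : V} (hy : y ∈ U) (hα : SmAt (rf α) (P y)) :
    ContDiffAt ℝ ∞ (pb P α) y := by
  have hc := chart_mem_atlas E4 (P y)
  have hcy := mem_chart_source E4 (P y)
  exact (H175.contDiffAt_pullback (c := fun z => chartAt E4 (P y) (P z)) (contDiffAt_chart le_rfl hc (param_at hU hP hy) hcy)
    hα).congr_of_eventuallyEq (pb_ev hU hP hc hy hcy α)

/-- **PB**: pull-backs of smooth forms are smooth -/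
theorem contDiffOn_pb {α : Form X k} (hα : HS.Smooth α) : ContDiffOn ℝ ∞ (pb P α) U :=
  fun _ hy => (contDiffAt_pb hU hP hy (smooth_iff.1 hα _)).contDiffWithinAt

/-- pull-backs of continuous forms are continuous -/
theorem continuousOn_pb {α : Form X k} (hα : Cont α) : ContinuousOn (pb P α) U := by
  intro y hy
  have hc := chart_mem_atlas E4 (P y)
  have hcy := mem_chart_source E4 (P y)
  have h1 := contDiffAt_chart le_rfl hc (param_at hU hP hy) hcy
  have h2 : ContinuousAt (H175.loc (chartAt E4 (P y)) (rf α)) (chartAt E4 (P y) (P y)) :=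
    ((hα _ hc).continuousAt ((chartAt E4 (P y)).open_target.mem_nhds
      (mem_chart_target E4 _))).congr (loc_ev hc α (mem_chart_target E4 _))
  have h3 : ContinuousAt (fun z => H175.loc (chartAt E4 (P y)) (rf α) (chartAt E4 (P y) (P z))) y :=
    ContinuousAt.comp (f := fun z => chartAt E4 (P y) (P z)) h2 h1.continuousAt
  have h4 := H175.contDiffAt_comp_alt (n := 0) (contDiffAt_zero.2 ?_)
    ((h1.fderiv_right (m := 0) (by simp)))
    (f := fun z => H175.loc (chartAt E4 (P y)) (rf α) (chartAt E4 (P y) (P z)))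
  · exact (h4.continuousAt.congr (pb_ev hU hP hc hy hcy α).symm).continuousWithinAt
  · refine ⟨U ∩ P ⁻¹' (chartAt E4 (P y)).source, inter_mem (hU.mem_nhds hy)
      ((param_at hU hP hy).continuousAt.preimage_mem_nhds
        ((chartAt E4 (P y)).open_source.mem_nhds hcy)), fun z hz => ?_⟩
    have h5 := contDiffAt_chart le_rfl hc (param_at hU hP hz.1) hz.2
    have hz' := (chartAt E4 (P y)).map_source hz.2
    have h6 : ContinuousAt (H175.loc (chartAt E4 (P y)) (rf α)) (chartAt E4 (P y) (P z)) :=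
      ((hα _ hc).continuousAt ((chartAt E4 (P y)).open_target.mem_nhds hz')).congr
        (loc_ev hc α hz')
    exact (ContinuousAt.comp (f := fun z => chartAt E4 (P y) (P z)) h6
      h5.continuousAt).continuousWithinAt

end smooth

/-! ### the statement layer on open sets -/

theorem smoothOn_iff {U : Set X} (hU : IsOpen U) {α : Form X k} :
    SmoothOn U α ↔ ∀ x ∈ U, SmAt (rf α) x := by
  constructor
  · intro h x hx
    have h1 := (h _ (chart_mem_atlas E4 x)).contDiffAt
      (((chartAt E4 x).symm.isOpen_inter_preimage hU).mem_nhds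
        ⟨mem_chart_target E4 x, by rw [mem_preimage, symm_self]; exact hx⟩)
    exact h1.congr_of_eventuallyEq
      (loc_ev (chart_mem_atlas E4 x) α (mem_chart_target E4 x)).symm
  · intro h e he z hz
    have h1 := (H175.smAt_iff he (e.map_target hz.1)).1 (h (e.symm z) hz.2)
    rw [e.right_inv hz.1] at h1
    exact (h1.congr_of_eventuallyEq (loc_ev he α hz.1)).contDiffWithinAt

theorem dOn_iff {U : Set X} {η : Form X 1} {α : Form X 2} (hη : ∀ x ∈ U, SmAt (rf η) x) :
    DOn U η α ↔ ∀ x ∈ U, dF (rf η) x = rf α x := by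
  constructor
  · intro h x hx
    have h3 := h _ (chart_mem_atlas E4 x) _ (mem_chart_target E4 x) (by rw [symm_self]; exact hx)
    rw [extDeriv_loc (chart_mem_atlas E4 x) (mem_chart_target E4 x)
      (hη _ (by rw [symm_self]; exact hx)), loc_self, H175.loc_self] at h3
    exact h3
  · intro h e he z hz hz'
    rw [extDeriv_loc he hz (hη _ hz'), loc_eq he α hz, H175.loc, H175.loc, h _ hz']

theorem sc_iff {α : Form X k} : SC α ↔ (∀ x, SmAt (rf α) x) ∧ ∀ x, dF (rf α) x = 0 :=
  ⟨fun h => ⟨smooth_iff.1 h.1, (closed_iff h.1).1 h.2⟩,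
    fun h => ⟨smooth_iff.2 h.1, (closed_iff (smooth_iff.2 h.1)).2 h.2⟩⟩

theorem coh_iff {α β : Form X 2} :
    Coh α β ↔ ∃ η : RF X 1, (∀ x, SmAt η x) ∧ dF η = rf α - rf β := exact_iff

/-- a primitive on an open set pulls back to a primitive -/
theorem extDeriv_pb_dOn {P : V → X} {U : Set V} (hU : IsOpen U)
    (hP : ContMDiffOn 𝓘(ℝ, V) (𝓡 4) ∞ P U) {W : Set X} (hW : IsOpen W) {η : Form X 1}
    {α : Form X 2} (hη : SmoothOn W η) (h : DOn W η α) {y : V} (hy : y ∈ U) (hy' : P y ∈ W) :
    extDeriv (pb P η) y = pb P α y := by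
  have h1 := (smoothOn_iff hW).1 hη
  rw [extDeriv_pb hU hP hy (h1 _ hy'), pb, pb, rf_hs, (dOn_iff h1).1 h _ hy']

/-- exact forms pull back to exact forms -/
theorem exact_pb [FiniteDimensional ℝ V] {P : V → X} {U : Set V} (hU : IsOpen U)
    (hP : ContMDiffOn 𝓘(ℝ, V) (𝓡 4) ∞ P U) {α : Form X 2} (h : HS.Exact α) :
    ∃ η : Form X 1, HS.Smooth η ∧ ContDiffOn ℝ ∞ (pb P η) U ∧
      ∀ y ∈ U, extDeriv (pb P η) y = pb P α y := by
  obtain ⟨η, h1, h2⟩ := exact_iff.1 h
  refine ⟨hs η, smooth_iff.2 h1, contDiffOn_pb hU hP (smooth_iff.2 h1), fun y hy => ?_⟩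
  rw [extDeriv_pb hU hP (α := hs η) hy (h1 _), rf_hs, h2]
  rfl

theorem continuous_quot_of_cont {μ : Form X 4} (hμ : Volume μ) {α β : Form X 2} (hα : Cont α)
    (hβ : Cont β) : Continuous (quot μ α β) := by
  refine continuous_iff_continuousAt.2 fun x => ?_
  have hc := chart_mem_atlas E4 x
  have hx := mem_chart_source E4 x
  have hz := mem_chart_target E4 x
  have h1 : ∀ γ : Form X 2, Cont γ → ∀ v, ContinuousAt
      (fun z => HS.loc (chartAt E4 x) γ z v) (chartAt E4 x x) := fun γ hγ v =>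
    (H175.evL v).continuous.continuousAt.comp
      ((hγ _ hc).continuousAt ((chartAt E4 x).open_target.mem_nhds hz))
  have h2 : ContinuousAt (fun z => wedge (HS.loc (chartAt E4 x) α z) (HS.loc (chartAt E4 x) β z) bas
      / mC (chartAt E4 x) μ z) (chartAt E4 x x) := by
    refine ContinuousAt.div ?_ (contDiffAt_mC hμ.smooth hc hz).continuousAt (mC_ne hμ hc hz)
    have a := h1 α hα
    have b := h1 β hβ
    unfold wedge
    exact ((((((a _).mul (b _)).sub ((a _).mul (b _))).add ((a _).mul (b _))).add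
      ((a _).mul (b _))).sub ((a _).mul (b _))).add ((a _).mul (b _))
  refine (h2.comp ((chartAt E4 x).continuousAt hx)).congr ?_
  filter_upwards [(chartAt E4 x).open_source.mem_nhds hx] with y hy
  have hy' := (chartAt E4 x).map_source hy
  have h3 := q4_chart hμ hc (W22 (rf α) (rf β)) hy'
  rw [(chartAt E4 x).left_inv hy, loc_W22, w22_apply, ← loc_eq hc α hy', ← loc_eq hc β hy'] at h3
  rw [quot_eq, h3]
  rfl

end Vale.Agent.P247M
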