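import Vale.Agent.P247M.H1a
import Vale.Agent.P267.H175.Nerve1

/-!
# P247, stage two: the lattice of circle valued functions in the first cohomology
-/

set_option linter.unusedSectionVars false

open scoped Manifold ContDiff Topology
open Set Filter TopologicalSpace

noncomputable section

namespace Vale.Agent.P247M

open Vale.Agent.P247.SCY Vale.Agent.P247.SCY.HS
open Vale.Agent.P267.H175 (SmAt dF N0 N1 dlt0 dlt1 intKer)
open Vale.Agent.P267
open Vale.Agent.P247X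
open Vale.Agent.P247C (dArg dArg_apply smAt_dArg dF_dArg)

variable {X : Type} [Cl4 X]

theorem exists_good2 (X : Type) [Cl4 X] : ∃ (n : ℕ) (P : Pt X (Fin n)), Good2 P.U := by
  obtain ⟨G, -⟩ := H368.exists_goodCover_manifold (𝕜 := ℝ) (n := ∞) (X := X) ENat.LEInfty.out
    (ContinuousLinearEquiv.refl ℝ E4) (fun _ : Unit => univ) (fun _ => isOpen_univ)
    fun x => ⟨(), mem_univ x⟩
  obtain ⟨S, hS⟩ := exists_pt G.U G.isOpen_U G.exists_mem_U
  refine ⟨G.n, S, fun a b => ?_⟩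
  rw [hS]
  exact ⟨G.e a, G.e_mem a, inter_subset_left.trans (G.U_sub_source a), conv2 G a b⟩

theorem const_of_d0 {f : X → ℝ} (h1 : ∀ x, SmF f x) (h2 : ∀ x, d0 f x = 0) (x y : X) :
    f x = f y := by
  obtain ⟨n, P, hg⟩ := exists_good2 X
  exact hg.const_univ h1 h2 x y

/-- a circle valued function with exact argument differential has a logarithm -/
theorem lift_univ {g : X → ℂ} (hg : ∀ x, SmC g x) (n : ∀ x, ‖g x‖ = 1) (h : Ex1 (dArg g)) :
    ∃ f : X → ℝ, (∀ x, SmF f x) ∧ ∀ x, g x = eI f x := by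
  obtain ⟨f, h1, h2⟩ := h
  obtain ⟨p⟩ : Nonempty X := inferInstance
  obtain ⟨c, hc⟩ := lift_of_const isOpen_univ (fun x _ => hg x) (fun x _ => n x) (fun x _ => h1 x)
    (fun x _ => congrFun h2 x) fun k h3 h4 =>
      ⟨k p, fun x _ => const_of_d0 (fun y => h3 y trivial) (fun y => h4 y trivial) x p⟩
  exact ⟨fun y => f y + c, fun x => (h1 x).add contMDiffAt_const, fun x => hc x trivial⟩

/-- a basis of the first cohomology given by circle valued functions -/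
structure H1B (X : Type) [Cl4 X] where
  b : ℕ
  g : Fin b → X → ℂ
  a : Fin b → RF X 1
  sm : ∀ i x, SmC (g i) x
  nm : ∀ i x, ‖g i x‖ = 1
  da : ∀ i, dArg (g i) = (2 * Real.pi) • a i
  span : ∀ θ : RF X 1, (∀ x, SmAt θ x) → (∀ x, dF θ x = 0) →
    ∃ t : Fin b → ℝ, Ex1 (θ - ∑ i, t i • a i)
  ind : ∀ t : Fin b → ℝ, Ex1 (∑ i, t i • a i) → t = 0
  int : ∀ G : X → ℂ, (∀ x, SmC G x) → (∀ x, ‖G x‖ = 1) →
    ∃ n : Fin b → ℤ, Ex1 ((2 * Real.pi)⁻¹ • dArg G - ∑ i, (n i : ℝ) • a i)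

theorem exists_h1b (X : Type) [Cl4 X] : Nonempty (H1B X) := by
  obtain ⟨N, P, hg⟩ := exists_good2 X
  let U : Fin N → Opens X := fun a => ⟨P.U a, P.opn a⟩
  have hne : ∀ {a b x}, x ∈ P.U a → x ∈ P.U b → U a ⊓ U b ≠ ⊥ := fun {a b x} ha hb =>
    H994.ne_bot_iff_nonempty.2 ⟨x, ha, hb⟩
  have hco : ∀ z : N1 U → ℝ, (dlt1 U).app z = 0 → IsCoc1 P.U (H175.ext1 z) := by
    intro z hz a b c x ha hb hc
    have h1 := congrFun hz ⟨(a, b, c), inf_ne_bot (U := U) ha hb hc⟩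
    rw [H175.dlt1_app] at h1
    rw [H175.ext1_of_ne _ (hne hb hc), H175.ext1_of_ne _ (hne ha hc), H175.ext1_of_ne _ (hne ha hb)]
    exact h1
  have hrs : ∀ r, IsCoc1 P.U r → (dlt1 U).app (H175.rst1 (U := U) r) = 0 ∧
      P.W1 (H175.ext1 (H175.rst1 (U := U) r)) = P.W1 r := by
    refine fun r hr => ⟨funext fun p => ?_, P.W1_congr fun a b x ha hb => ?_⟩
    · obtain ⟨⟨a, b, c⟩, h⟩ := p
      rw [H175.dlt1_app]
      obtain ⟨x, ⟨ha, hb⟩, hc⟩ := H994.ne_bot_iff_nonempty.1 h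
      exact hr a b c x ha hb hc
    · exact H175.ext1_of_ne _ (hne ha hb)
  let q := (ex1Sub X).mkQ
  have hq : ∀ F F' : RF X 1, q F = q F' ↔ Ex1 (F - F') := fun F F' => Submodule.Quotient.eq _
  have hq0 : ∀ F : RF X 1, q F = 0 ↔ Ex1 F := fun F => Submodule.Quotient.mk_eq_zero _
  let p0 : LinearMap.ker ((dlt1 U).lin ℝ) →ₗ[ℝ] (RF X 1 ⧸ ex1Sub X) :=
    q ∘ₗ P.W1L ∘ₗ H175.ext1 ∘ₗ (LinearMap.ker ((dlt1 U).lin ℝ)).subtype
  have hp0 : ∀ z, p0 z = q (P.W1 (H175.ext1 z.1)) := fun _ => rfl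
  obtain ⟨b, B, z, hB, hz⟩ := H175.exists_basis (M1 := dlt0 U) p0.rangeRestrict
    p0.surjective_rangeRestrict fun z => by
      rw [Subtype.ext_iff]
      show p0 z = 0 ↔ _
      rw [hp0, hq0]
      constructor
      · intro h
        obtain ⟨u, hu⟩ := hg.cob (hco z.1 z.2) h
        refine ⟨fun p => u p.1, funext fun p => ?_⟩
        obtain ⟨⟨a, b⟩, h⟩ := p
        obtain ⟨x, ha, hb⟩ := H994.ne_bot_iff_nonempty.1 h
        rw [H175.dlt0_app, ← hu a b x ha hb, H175.ext1_of_ne _ h]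
      · rintro ⟨u, hu⟩
        classical
        refine Pt.ex1_cob (fun a => if h : U a ≠ ⊥ then u ⟨a, h⟩ else 0) fun a b x ha hb => ?_
        rw [H175.ext1_of_ne _ (hne ha hb), ← hu, H175.dlt0_app,
          dif_pos (H175.ne_bot_mono inf_le_right (hne ha hb)),
          dif_pos (H175.ne_bot_mono inf_le_left (hne ha hb))]
  let r : Fin b → Fin N → Fin N → ℝ := fun i => H175.ext1 (H175.intToReal (dlt1 U) (z i)).1
  have hr : ∀ i, P.W1 (r i) = P.W1 fun a b => (ext1 U (z i).1 a b : ℝ) := fun i =>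
    P.W1_congr fun a b x ha hb => by
      rw [ext1_of_ne _ (hne ha hb)]
      exact H175.ext1_of_ne _ (hne ha hb)
  have hc : ∀ i, IsCoc1 P.U fun a b => (ext1 U (z i).1 a b : ℝ) := by
    intro i a b c x ha hb hc
    have h1 := congrFun (z i).2 ⟨(a, b, c), inf_ne_bot (U := U) ha hb hc⟩
    rw [H175.dlt1_app] at h1
    beta_reduce
    rw [ext1_of_ne _ (hne hb hc), ext1_of_ne _ (hne ha hc), ext1_of_ne _ (hne ha hb)]
    exact_mod_cast h1
  choose g g1 g2 g3 using fun i => exists_circ (hc i)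
  have hBq : ∀ i, (B i).1 = q (P.W1 (r i)) := fun i => by rw [hB]; rfl
  have hsum : ∀ t : Fin b → ℝ, q (∑ i, t i • P.W1 (r i)) = (∑ i, t i • B i).1 := fun t => by
    rw [map_sum, Submodule.coe_sum]
    exact Finset.sum_congr rfl fun i _ => by rw [map_smul, ← hBq]; rfl
  refine ⟨⟨b, g, fun i => P.W1 (r i), g1, g2, fun i => by rw [g3, hr], fun θ h1 h2 => ?_,
    fun t ht => ?_, fun G h1 h2 => ?_⟩⟩
  · obtain ⟨s, h3, h4⟩ := hg.span h1 h2
    refine ⟨B.repr (p0.rangeRestrict ⟨_, (hrs s h3).1⟩), ?_⟩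
    rw [← hq, hsum, B.sum_repr, (hq _ _).2 h4]
    exact congrArg q (hrs s h3).2.symm
  · rw [← hq0, hsum] at ht
    exact funext (Fintype.linearIndependent_iff.1 B.linearIndependent t (Subtype.ext ht))
  · obtain ⟨m, h3, h4⟩ := hg.of_circ h1 h2
    have h5 : (dlt1 U).app (fun p : N1 U => m p.1.1 p.1.2) = 0 := by
      have h6 := ((dlt1 U).app_intCast fun p : N1 U => m p.1.1 p.1.2).symm.trans (hrs _ h3).1
      funext p
      exact Int.cast_eq_zero.1 (congrFun h6 p)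
    obtain ⟨n, hn, -⟩ := hz _ (H175.intCl_mem_Lam p0.rangeRestrict ⟨_, h5⟩)
    refine ⟨n, ?_⟩
    rw [← hq, hsum, (hq _ _).2 h4, ← (hrs _ h3).2,
      Finset.sum_congr rfl fun i _ => Int.cast_smul_eq_zsmul ℝ (n i) (B i), ← hn]
    rfl

namespace H1B

variable (B : H1B X)

theorem a_eq (i : Fin B.b) : B.a i = (2 * Real.pi)⁻¹ • dArg (B.g i) := by
  rw [B.da, smul_smul, inv_mul_cancel₀ Real.two_pi_pos.ne', one_smul]

theorem smAt_a (i : Fin B.b) (x : X) : SmAt (B.a i) x := by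
  rw [a_eq]
  exact (smAt_dArg isOpen_univ (fun y _ => B.sm i y) (mem_univ x)).smul _

theorem dF_a (i : Fin B.b) (x : X) : dF (B.a i) x = 0 := by
  rw [a_eq, H175.dF_smul, dF_dArg isOpen_univ (fun y _ => B.sm i y) (fun y _ => B.nm i y)
    (mem_univ x), smul_zero]

theorem sc_a (i : Fin B.b) : SC (hs (B.a i)) := sc_iff.2 ⟨B.smAt_a i, B.dF_a i⟩

end H1B

/-- products of circle valued functions -/
theorem circ_prod {ι : Type} (s : Finset ι) {g : ι → X → ℂ} (h1 : ∀ i x, SmC (g i) x)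
    (h2 : ∀ i x, ‖g i x‖ = 1) : (∀ x, SmC (fun y => ∏ i ∈ s, g i y) x) ∧
      (∀ x, ‖∏ i ∈ s, g i x‖ = 1) ∧ dArg (fun y => ∏ i ∈ s, g i y) = ∑ i ∈ s, dArg (g i) := by
  classical
  induction s using Finset.induction_on with
  | empty =>
    refine ⟨fun _ => contMDiffAt_const, fun _ => norm_one, funext fun x => alt1_ext fun v => ?_⟩
    simp only [Finset.prod_empty]
    rw [dArg_apply contMDiffAt_const, dfc_const]
    simp
  | insert a s ha ih =>
    simp only [Finset.prod_insert ha, Finset.sum_insert ha]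
    refine ⟨fun x => (h1 a x).mul (ih.1 x), fun x => by rw [norm_mul, h2, ih.2.1, one_mul],
      funext fun x => ?_⟩
    rw [dArg_mul (h1 a x) (ih.1 x) (h2 a x) (ih.2.1 x), ih.2.2]
    rfl

theorem circ_conj {g : X → ℂ} (h1 : ∀ x, SmC g x) :
    dArg (fun y => (starRingEnd ℂ) (g y)) = -dArg g := by
  funext x
  refine alt1_ext fun v => ?_
  rw [dArg_apply (h1 x).conj, dfc_conj (h1 x), ← map_mul, Complex.conj_im, ← dArg_apply (h1 x)]
  rfl

theorem circ_zpow {g : X → ℂ} (h1 : ∀ x, SmC g x) (h2 : ∀ x, ‖g x‖ = 1) (n : ℤ) :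
    (∀ x, SmC (fun y => g y ^ n) x) ∧ (∀ x, ‖g x ^ n‖ = 1) ∧
      dArg (fun y => g y ^ n) = (n : ℝ) • dArg g := by
  have h3 : ∀ {g : X → ℂ}, (∀ x, SmC g x) → (∀ x, ‖g x‖ = 1) → ∀ n : ℕ,
      (∀ x, SmC (fun y => g y ^ n) x) ∧ (∀ x, ‖g x ^ n‖ = 1) ∧
      dArg (fun y => g y ^ n) = (n : ℝ) • dArg g := fun {g} h1 h2 n => by
    have := circ_prod (Finset.range n) (g := fun _ => g) (fun _ => h1) fun _ => h2
    simpa only [Finset.prod_const, Finset.card_range, Finset.sum_const,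
      Nat.cast_smul_eq_nsmul] using this
  obtain ⟨m, rfl | rfl⟩ := n.eq_nat_or_neg
  · simpa only [zpow_natCast, Int.cast_natCast] using h3 h1 h2 m
  · have h4 := h3 (fun x => (h1 x).conj) (fun x => by rw [Complex.norm_conj, h2]) m
    have h5 : ∀ y, g y ^ (-(m : ℤ)) = (starRingEnd ℂ) (g y) ^ m := fun y => by
      rw [zpow_neg, zpow_natCast, ← inv_pow, Complex.inv_eq_conj (h2 y)]
    simp only [h5]
    refine ⟨h4.1, h4.2.1, ?_⟩
    rw [h4.2.2, circ_conj h1, Int.cast_neg, Int.cast_natCast, smul_neg]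
    exact (neg_smul _ _).symm

/-- every circle valued function is a monomial in the basis, up to an exponential -/
theorem H1B.gen (B : H1B X) {G : X → ℂ} (h1 : ∀ x, SmC G x) (h2 : ∀ x, ‖G x‖ = 1) :
    ∃ (n : Fin B.b → ℤ) (f : X → ℝ), (∀ x, SmF f x) ∧ ∀ x, G x = eI f x * ∏ i, B.g i x ^ n i := by
  obtain ⟨n, hn⟩ := B.int G h1 h2
  have h3 := fun i => circ_zpow (B.sm i) (B.nm i) (n i)
  obtain ⟨k1, k2, k3⟩ := circ_prod Finset.univ (fun i => (h3 i).1) fun i => (h3 i).2.1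
  have k4 : ∀ x, ‖(starRingEnd ℂ) (∏ i, B.g i x ^ n i)‖ = 1 := fun x => by
    rw [Complex.norm_conj, k2]
  obtain ⟨f, f1, f2⟩ := lift_univ (g := fun y => G y * (starRingEnd ℂ) (∏ i, B.g i y ^ n i))
    (fun x => (h1 x).mul (k1 x).conj) (fun x => by rw [norm_mul, h2, k4, one_mul]) (by
      have h4 := (ex1Sub X).smul_mem (2 * Real.pi) hn
      have h5 : dArg (fun y => G y * (starRingEnd ℂ) (∏ i, B.g i y ^ n i)) =
          dArg G + dArg fun y => (starRingEnd ℂ) (∏ i, B.g i y ^ n i) :=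
        funext fun x => dArg_mul (h1 x) (k1 x).conj (h2 x) (k4 x)
      rw [smul_sub, smul_smul, mul_inv_cancel₀ Real.two_pi_pos.ne', one_smul, Finset.smul_sum] at h4
      rw [h5, circ_conj k1, k3, ← sub_eq_add_neg]
      show _ ∈ ex1Sub X
      simpa only [fun i => (h3 i).2.2, B.da, smul_comm (2 * Real.pi)] using h4)
  refine ⟨n, f, f1, fun x => ?_⟩
  rw [← f2, mul_assoc, conj_mul_self (k2 x), mul_one]

end Vale.Agent.P247M
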