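import Vale.Agent.P247M.PB

/-!
# P247, block L exports: operations on line bundles
-/

set_option linter.unusedSectionVars false

open scoped Manifold ContDiff Topology
open Set Filter

noncomputable section

namespace Vale.Agent.P247M

open Vale.Agent.P247.SCY Vale.Agent.P247.SCY.HS
open Vale.Agent.P267.H175 (SmAt dF)
open Vale.Agent.P267
open Vale.Agent.P247X

variable {X : Type} [TopologicalSpace X] [ChartedSpace E4 X]

/-! ### differentials of complex functions -/

section dfc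

variable {g g' : X → ℂ} {x : X}

/-- smooth complex functions at a point -/
abbrev SmC (g : X → ℂ) (x : X) : Prop := ContMDiffAt (𝓡 4) 𝓘(ℝ, ℂ) ∞ g x

theorem SmC.cd (h : SmC g x) :
    ContDiffAt ℝ ∞ (fun z => g ((chartAt E4 x).symm z)) (chartAt E4 x x) := by
  rw [SmC, contMDiffAt_iff] at h
  simpa [contDiffWithinAt_univ, Function.comp_def, chartAt_self_eq] using h.2

theorem SmC.diff (h : SmC g x) :
    DifferentiableAt ℝ (fun z => g ((chartAt E4 x).symm z)) (chartAt E4 x x) :=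
  h.cd.differentiableAt (by simp)

theorem dfc_eq (h : SmC g x) (v : E4) :
    dfc g x v = fderiv ℝ (fun z => g ((chartAt E4 x).symm z)) (chartAt E4 x x) v := by
  unfold dfc
  rw [(h.mdifferentiableAt (by simp)).mfderiv]
  simp [writtenInExtChartAt, Function.comp_def, fderivWithin_univ, chartAt_self_eq]
  rfl

theorem mfderiv_eq_Df {f : X → ℝ} (h : SmF f x) (v : E4) :
    mfderiv (𝓡 4) 𝓘(ℝ, ℝ) f x v = Df f x v := by
  rw [(h.mdifferentiableAt (by simp)).mfderiv]
  simp [writtenInExtChartAt, Function.comp_def, fderivWithin_univ, chartAt_self_eq]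
  rfl

theorem dfc_congr (h : g =ᶠ[𝓝 x] g') (v : E4) : dfc g x v = dfc g' x v := by
  unfold dfc
  rw [h.mfderiv_eq]
  rfl

theorem dfc_const (c : ℂ) (x : X) (v : E4) : dfc (fun _ => c) x v = 0 := by
  rw [dfc_eq contMDiffAt_const]
  simp

theorem SmC.mul (h : SmC g x) (h' : SmC g' x) : SmC (fun y => g y * g' y) x :=
  (contDiff_mul (𝕜 := ℝ)).contDiffAt.comp_contMDiffAt (h.prodMk_space h')

theorem SmC.add (h : SmC g x) (h' : SmC g' x) : SmC (fun y => g y + g' y) x :=
  (contDiff_add (𝕜 := ℝ)).contDiffAt.comp_contMDiffAt (h.prodMk_space h')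

theorem SmC.conj (h : SmC g x) : SmC (fun y => (starRingEnd ℂ) (g y)) x :=
  Complex.conjCLE.contDiff.contDiffAt.comp_contMDiffAt h

theorem SmC.exp (h : SmC g x) : SmC (fun y => Complex.exp (g y)) x :=
  (Complex.contDiff_exp (𝕜 := ℝ)).contDiffAt.comp_contMDiffAt h

theorem SmC.ofReal {f : X → ℝ} (h : SmF f x) : SmC (fun y => (f y : ℂ)) x :=
  Complex.ofRealCLM.contDiff.contDiffAt.comp_contMDiffAt h

theorem SmC.re (h : SmC g x) : SmF (fun y => (g y).re) x :=
  Complex.reCLM.contDiff.contDiffAt.comp_contMDiffAt h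

theorem SmC.im (h : SmC g x) : SmF (fun y => (g y).im) x :=
  Complex.imCLM.contDiff.contDiffAt.comp_contMDiffAt h

theorem dfc_mul (h : SmC g x) (h' : SmC g' x) (v : E4) :
    dfc (fun y => g y * g' y) x v = g x * dfc g' x v + g' x * dfc g x v := by
  rw [dfc_eq (h.mul h'), dfc_eq h, dfc_eq h', fderiv_fun_mul h.diff h'.diff]
  simp only [symm_self, ContinuousLinearMap.add_apply, ContinuousLinearMap.smul_apply, smul_eq_mul]

theorem dfc_add (h : SmC g x) (h' : SmC g' x) (v : E4) :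
    dfc (fun y => g y + g' y) x v = dfc g x v + dfc g' x v := by
  rw [dfc_eq (h.add h'), dfc_eq h, dfc_eq h', fderiv_fun_add h.diff h'.diff]
  rfl

theorem dfc_conj (h : SmC g x) (v : E4) :
    dfc (fun y => (starRingEnd ℂ) (g y)) x v = (starRingEnd ℂ) (dfc g x v) := by
  rw [dfc_eq h.conj, dfc_eq h]
  have h1 := (Complex.conjCLE.hasFDerivAt.comp _ h.diff.hasFDerivAt).fderiv
  exact congrArg (fun L : E4 →L[ℝ] ℂ => L v) h1

theorem dfc_exp (h : SmC g x) (v : E4) :
    dfc (fun y => Complex.exp (g y)) x v = Complex.exp (g x) * dfc g x v := by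
  rw [dfc_eq h.exp, dfc_eq h, h.diff.hasFDerivAt.cexp.fderiv]
  simp only [symm_self, ContinuousLinearMap.smul_apply, smul_eq_mul]

theorem dfc_ofReal {f : X → ℝ} (h : SmF f x) (v : E4) :
    dfc (fun y => (f y : ℂ)) x v = (Df f x v : ℂ) := by
  rw [dfc_eq (SmC.ofReal h)]
  have h1 := (Complex.ofRealCLM.hasFDerivAt.comp _ h.diff.hasFDerivAt).fderiv
  exact congrArg (fun L : E4 →L[ℝ] ℂ => L v) h1

theorem Df_re (h : SmC g x) (v : E4) : Df (fun y => (g y).re) x v = (dfc g x v).re := by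
  rw [dfc_eq h]
  have h1 := (Complex.reCLM.hasFDerivAt.comp _ h.diff.hasFDerivAt).fderiv
  exact congrArg (fun L : E4 →L[ℝ] ℝ => L v) h1

theorem Df_im (h : SmC g x) (v : E4) : Df (fun y => (g y).im) x v = (dfc g x v).im := by
  rw [dfc_eq h]
  have h1 := (Complex.imCLM.hasFDerivAt.comp _ h.diff.hasFDerivAt).fderiv
  exact congrArg (fun L : E4 →L[ℝ] ℝ => L v) h1

theorem conj_mul_self {z : ℂ} (h : ‖z‖ = 1) : (starRingEnd ℂ) z * z = 1 := by
  rw [Complex.conj_mul', h]
  simp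

/-- the logarithmic derivative of a product of unit functions -/
theorem dlog_mul (h : SmC g x) (h' : SmC g' x) (n : ‖g x‖ = 1) (n' : ‖g' x‖ = 1) (v : E4) :
    (starRingEnd ℂ) (g x * g' x) * dfc (fun y => g y * g' y) x v =
      (starRingEnd ℂ) (g x) * dfc g x v + (starRingEnd ℂ) (g' x) * dfc g' x v := by
  rw [dfc_mul h h', map_mul]
  linear_combination ((starRingEnd ℂ) (g' x) * dfc g' x v) * conj_mul_self n +
    ((starRingEnd ℂ) (g x) * dfc g x v) * conj_mul_self n'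

/-- the logarithmic derivative of `exp (I f)` -/
theorem dlog_exp {f : X → ℝ} (h : SmF f x) (v : E4) :
    ((starRingEnd ℂ) (Complex.exp ((f x : ℂ) * Complex.I)) *
      dfc (fun y => Complex.exp ((f y : ℂ) * Complex.I)) x v).im = Df f x v := by
  have h1 : SmC (fun _ => Complex.I) x := contMDiffAt_const
  rw [dfc_exp ((SmC.ofReal h).mul h1), dfc_mul (SmC.ofReal h) h1, dfc_const, dfc_ofReal h,
    ← mul_assoc, conj_mul_self (Complex.norm_exp_ofReal_mul_I _)]
  simp

end dfc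

variable [IsManifold (𝓡 4) ∞ X]

theorem _root_.Vale.Agent.P247X.LB.smC (L : LB X) {i j : Fin L.n} {x : X}
    (hx : x ∈ L.U i ∩ L.U j) : SmC (L.g i j) x :=
  (L.g_smooth i j).contMDiffAt (((L.opn i).inter (L.opn j)).mem_nhds hx)

theorem _root_.Vale.Agent.P247X.LB.smA (L : LB X) {i : Fin L.n} {x : X}
    (hx : x ∈ L.U i) : SmAt (rf (L.A i)) x := (smoothOn_iff (L.opn i)).1 (L.A_smooth i) x hx

theorem _root_.Vale.Agent.P247X.LB.dFA (L : LB X) {i : Fin L.n} {x : X}
    (hx : x ∈ L.U i) : dF (rf (L.A i)) x = (2 * Real.pi) • rf L.F x :=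
  (dOn_iff fun _ hy => L.smA hy).1 (L.dA i) x hx

theorem _root_.Vale.Agent.P247X.LB.trA (L : LB X) {i j : Fin L.n} {x : X}
    (hx : x ∈ L.U i ∩ L.U j) (v : E4) : rf (L.A i) x ![v] - rf (L.A j) x ![v] =
      ((starRingEnd ℂ) (L.g i j x) * dfc (L.g i j) x v).im := L.A_tr i j x hx v

/-- a line bundle given on a cover with an arbitrary finite index type -/
def mkLB {ι : Type} {n : ℕ} (q : Fin n ≃ ι) (U : ι → Set X) (opn : ∀ i, IsOpen (U i))
    (cov : ∀ x, ∃ i, x ∈ U i) (g : ι → ι → X → ℂ) (g_sm : ∀ i j, ∀ x ∈ U i ∩ U j, SmC (g i j) x)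
    (g_norm : ∀ i j, ∀ x ∈ U i ∩ U j, ‖g i j x‖ = 1)
    (g_co : ∀ i j k, ∀ x ∈ U i ∩ U j ∩ U k, g i j x * g j k x = g i k x)
    (A : ι → RF X 1) (A_sm : ∀ i, ∀ x ∈ U i, SmAt (A i) x)
    (A_tr : ∀ i j, ∀ x ∈ U i ∩ U j, ∀ v : E4, A i x ![v] - A j x ![v] =
      ((starRingEnd ℂ) (g i j x) * dfc (g i j) x v).im)
    (F : Form X 2) (F_sc : SC F) (dA : ∀ i, ∀ x ∈ U i, dF (A i) x = (2 * Real.pi) • rf F x) :
    LB X where
  n := n
  U i := U (q i)
  opn i := opn (q i)
  cov x := by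
    obtain ⟨i, hi⟩ := cov x
    exact ⟨q.symm i, by rwa [q.apply_symm_apply]⟩
  g i j := g (q i) (q j)
  g_smooth i j x hx := (g_sm _ _ x hx).contMDiffWithinAt
  g_norm i j := g_norm _ _
  g_co i j k := g_co _ _ _
  A i := hs (A (q i))
  A_smooth i := (smoothOn_iff (opn _)).2 (A_sm _)
  A_tr i j := A_tr _ _
  F := F
  F_sc := F_sc
  dA i := (dOn_iff (η := hs (A (q i))) (A_sm _)).2 (dA _)

/-- the tensor product; the index `k` stands for the pair `finProdFinEquiv.symm k` -/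
def _root_.Vale.Agent.P247X.LB.tensor (L L' : LB X) : LB X :=
  mkLB (ι := Fin L.n × Fin L'.n) finProdFinEquiv.symm (fun p => L.U p.1 ∩ L'.U p.2)
    (fun p => (L.opn _).inter (L'.opn _))
    (fun x => by
      obtain ⟨i, hi⟩ := L.cov x
      obtain ⟨j, hj⟩ := L'.cov x
      exact ⟨(i, j), hi, hj⟩)
    (fun p p' x => L.g p.1 p'.1 x * L'.g p.2 p'.2 x)
    (fun _ _ _ hx => (L.smC ⟨hx.1.1, hx.2.1⟩).mul (L'.smC ⟨hx.1.2, hx.2.2⟩))
    (fun _ _ x hx => by
      rw [norm_mul, L.g_norm _ _ x ⟨hx.1.1, hx.2.1⟩, L'.g_norm _ _ x ⟨hx.1.2, hx.2.2⟩, mul_one])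
    (fun a b c x hx => by
      rw [← L.g_co a.1 b.1 c.1 x ⟨⟨hx.1.1.1, hx.1.2.1⟩, hx.2.1⟩,
        ← L'.g_co a.2 b.2 c.2 x ⟨⟨hx.1.1.2, hx.1.2.2⟩, hx.2.2⟩]
      ring)
    (fun p => rf (L.A p.1) + rf (L'.A p.2))
    (fun _ _ hx => (L.smA hx.1).add (L'.smA hx.2))
    (fun a b x hx v => by
      rw [dlog_mul (L.smC ⟨hx.1.1, hx.2.1⟩) (L'.smC ⟨hx.1.2, hx.2.2⟩)
        (L.g_norm _ _ x ⟨hx.1.1, hx.2.1⟩) (L'.g_norm _ _ x ⟨hx.1.2, hx.2.2⟩), Complex.add_im,
        ← L.trA ⟨hx.1.1, hx.2.1⟩, ← L'.trA ⟨hx.1.2, hx.2.2⟩]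
      show rf (L.A a.1) x ![v] + rf (L'.A a.2) x ![v] -
        (rf (L.A b.1) x ![v] + rf (L'.A b.2) x ![v]) = _
      ring)
    (fun x => L.F x + L'.F x) (L.F_sc.add L'.F_sc)
    (fun _ _ hx => by
      rw [H175.dF_add (L.smA hx.1) (L'.smA hx.2), L.dFA hx.1, L'.dFA hx.2, ← smul_add]
      rfl)

theorem tensor_F (L L' : LB X) : (L.tensor L').F = fun x => L.F x + L'.F x := rfl

theorem tensor_n (L L' : LB X) : (L.tensor L').n = L.n * L'.n := rfl

/-- the dual bundle -/
def _root_.Vale.Agent.P247X.LB.dual (L : LB X) : LB X :=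
  mkLB (Equiv.refl (Fin L.n)) L.U L.opn L.cov (fun i j x => (starRingEnd ℂ) (L.g i j x))
    (fun _ _ _ hx => (L.smC hx).conj)
    (fun _ _ x hx => by rw [Complex.norm_conj, L.g_norm _ _ x hx])
    (fun a b c x hx => by rw [← map_mul, L.g_co a b c x hx])
    (fun i => -rf (L.A i)) (fun _ _ hx => smAt_neg (L.smA hx))
    (fun a b x hx v => by
      rw [dfc_conj (L.smC hx), ← map_mul, Complex.conj_im, ← L.trA hx]
      show -rf (L.A a) x ![v] - -rf (L.A b) x ![v] = _
      ring)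
    (fun x => (-1 : ℝ) • L.F x) (L.F_sc.smul _)
    (fun _ x hx => by
      rw [dF_neg, L.dFA hx]
      ext v
      show -(2 * Real.pi * rf L.F x v) = 2 * Real.pi * (-1 * rf L.F x v)
      ring)

theorem dual_F (L : LB X) : L.dual.F = fun x => (-1 : ℝ) • L.F x := rfl

/-- adding a global one-form to the connection -/
def _root_.Vale.Agent.P247X.LB.addForm (L : LB X) (η : RF X 1) (hη : ∀ x, SmAt η x) : LB X :=
  mkLB (Equiv.refl (Fin L.n)) L.U L.opn L.cov L.g (fun _ _ _ hx => L.smC hx) L.g_norm L.g_co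
    (fun i => rf (L.A i) + (2 * Real.pi) • η) (fun _ x hx => (L.smA hx).add ((hη x).smul _))
    (fun a b x hx v => by
      rw [← L.trA hx]
      show rf (L.A a) x ![v] + 2 * Real.pi * η x ![v] -
        (rf (L.A b) x ![v] + 2 * Real.pi * η x ![v]) = _
      ring)
    (fun x => L.F x + hs (dF η) x)
    (L.F_sc.add (sc_iff.2 ⟨smAt_dF' hη, dF_dF' hη⟩))
    (fun _ x hx => by
      rw [H175.dF_add (L.smA hx) ((hη x).smul _), L.dFA hx, H175.dF_smul, ← smul_add]
      rfl)

theorem addForm_F (L : LB X) (η : RF X 1) (hη : ∀ x, SmAt η x) :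
    (L.addForm η hη).F = fun x => L.F x + hs (dF η) x := rfl

/-- the same bundle with a connection whose Chern form is a given cohomologous form -/
def _root_.Vale.Agent.P247X.LB.addExact (L : LB X) {α : Form X 2} (h : Coh α L.F) : LB X :=
  L.addForm (coh_iff.1 h).choose (coh_iff.1 h).choose_spec.1

theorem addExact_F (L : LB X) {α : Form X 2} (h : Coh α L.F) : (L.addExact h).F = α := by
  rw [LB.addExact, addForm_F, (coh_iff.1 h).choose_spec.2]
  funext x
  exact add_sub_cancel (L.F x) (α x)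

theorem addExact_triv (L : LB X) {α : Form X 2} (h : Coh α L.F) :
    (L.addExact h).Triv ↔ L.Triv := Iff.rfl

/-- the trivial bundle -/
def trivLB (X : Type) [TopologicalSpace X] [ChartedSpace E4 X] [IsManifold (𝓡 4) ∞ X] : LB X :=
  mkLB (Equiv.refl (Fin 1)) (fun _ => univ) (fun _ => isOpen_univ) (fun _ => ⟨0, trivial⟩)
    (fun _ _ _ => 1) (fun _ _ _ _ => contMDiffAt_const) (fun _ _ _ _ => norm_one)
    (fun _ _ _ _ _ => mul_one _) (fun _ => 0) (fun _ x _ => H175.smAt_zero x)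
    (fun _ _ x _ v => by
      rw [dfc_const]
      simp)
    (fun _ => 0) sc_zero
    (fun _ x _ => by
      rw [dF_zero]
      exact (smul_zero _).symm)

theorem trivLB_F : (trivLB X).F = fun _ => 0 := rfl

/-- forms which are Chern forms of line bundles -/
def IsChern (α : Form X 2) : Prop := ∃ L : LB X, L.F = α

theorem IsChern.sc {α : Form X 2} (h : IsChern α) : SC α := by
  obtain ⟨L, rfl⟩ := h
  exact L.F_sc

theorem isChern_zero : IsChern (fun _ => 0 : Form X 2) := ⟨trivLB X, rfl⟩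

theorem IsChern.add {α β : Form X 2} (h : IsChern α) (h' : IsChern β) :
    IsChern fun x => α x + β x := by
  obtain ⟨L, rfl⟩ := h
  obtain ⟨L', rfl⟩ := h'
  exact ⟨L.tensor L', rfl⟩

theorem IsChern.neg {α : Form X 2} (h : IsChern α) : IsChern fun x => (-1 : ℝ) • α x := by
  obtain ⟨L, rfl⟩ := h
  exact ⟨L.dual, rfl⟩

theorem IsChern.coh {α β : Form X 2} (h : IsChern α) (h' : Coh β α) : IsChern β := by
  obtain ⟨L, rfl⟩ := h
  exact ⟨L.addExact h', addExact_F L h'⟩

theorem IsChern.zsmul {α : Form X 2} (h : IsChern α) (n : ℤ) : IsChern fun x => (n : ℝ) • α x := by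
  induction n using Int.induction_on with
  | zero =>
    have e : (fun x => ((0 : ℤ) : ℝ) • α x) = fun _ => 0 := by
      funext x
      rw [Int.cast_zero, zero_smul ℝ (α x)]
    rw [e]
    exact isChern_zero
  | succ n ih =>
    have e : (fun x => (((n : ℤ) + 1 : ℤ) : ℝ) • α x) = fun x => ((n : ℤ) : ℝ) • α x + α x := by
      funext x
      rw [Int.cast_add, Int.cast_one, add_smul, one_smul ℝ (α x)]
    rw [e]
    exact ih.add h
  | pred n ih =>
    have e : (fun x => ((-(n : ℤ) - 1 : ℤ) : ℝ) • α x) =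
        fun x => ((-(n : ℤ) : ℤ) : ℝ) • α x + (-1 : ℝ) • α x := by
      funext x
      rw [← add_smul, Int.cast_sub, Int.cast_one, sub_eq_add_neg]
    rw [e]
    exact ih.add h.neg

theorem isChern_sum {ι : Type} (s : Finset ι) {α : ι → Form X 2} (h : ∀ i, IsChern (α i)) :
    IsChern fun x => ∑ i ∈ s, α i x := by
  classical
  induction s using Finset.induction_on with
  | empty => simpa using isChern_zero
  | insert a s ha ih => simpa only [Finset.sum_insert ha] using (h a).add ih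

/-- integral combinations of Chern forms are Chern forms -/
theorem isChern_lc {n : ℕ} {c : Fin n → Form X 2} (h : ∀ i, IsChern (c i)) (v : Fin n → ℤ) :
    IsChern (lc c fun i => (v i : ℝ)) :=
  isChern_sum _ fun i => (h i).zsmul (v i)

end Vale.Agent.P247M
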