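import Vale.Agent.P247M.PB

/-!
# P247, block L exports: integrals in parametrisations (PARAM-INT)

`V` is a four-dimensional normed space with a measure `ν`, identified with the model space by a
measure preserving linear map `T`; `fr T` is the corresponding frame.
-/

set_option linter.unusedSectionVars false

open scoped Manifold ContDiff Topology
open Set Filter MeasureTheory

noncomputable section

namespace Vale.Agent.P247M

open Vale.Agent.P247.SCY Vale.Agent.P247.SCY.HS
open Vale.Agent.P267.H175 (SmAt dF)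
open Vale.Agent.P267
open Vale.Agent.P247X (SC Cont SmoothOn DOn Coh)

section param

variable {X : Type} [TopologicalSpace X] [ChartedSpace E4 X]
variable {V : Type*} [NormedAddCommGroup V] [NormedSpace ℝ V]

/-- the frame of an identification with the model space -/
def fr (T : E4 ≃L[ℝ] V) : Fin 4 → V := fun i => T (bas i)

theorem pb_fr (T : E4 ≃L[ℝ] V) (P : V → X) (A : Form X 4) (y : V) :
    pb P A y (fr T) = ((dP P y).comp (T : E4 →L[ℝ] V)).det * rf A (P y) bas := by
  rw [← top_comp]
  rfl

theorem wedge_pb (P : V → X) (α β : Form X 2) (y : V) (b : Fin 4 → V) :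
    wedge (pb P α y) (pb P β y) b = pb P (hs (W22 (rf α) (rf β))) y b := by
  have h : pb P (hs (W22 (rf α) (rf β))) y b =
      w22 (rf α (P y)) (rf β (P y)) fun i => dP P y (b i) := rfl
  rw [h, w22_apply]
  simp only [wedge, pb_two]
  rfl

theorem abs_mul_q4 {μ : Form X 4} (hμ : Volume μ) (T : E4 ≃L[ℝ] V) (P : V → X) (A : RF X 4)
    {y : V} {σ : ℝ} (hσ : |pb P μ y (fr T)| = σ * pb P μ y (fr T)) :
    |pb P μ y (fr T)| * q4 μ A (P y) = σ * pb P (hs A) y (fr T) := by
  have h : rf μ (P y) bas ≠ 0 := top_ne (hμ.ne_zero _)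
  rw [hσ, pb_fr, pb_fr, q4, rf_hs]
  field_simp

variable [IsManifold (𝓡 4) ∞ X] [MeasurableSpace X] [BorelSpace X] [T2Space X] [CompactSpace X]
variable [FiniteDimensional ℝ V] [MeasurableSpace V] [BorelSpace V] {ν : Measure V}
variable {T : E4 ≃L[ℝ] V} {P : V → X} {U : Set V} {μ : Form X 4}

omit [IsManifold (𝓡 4) ∞ X] [CompactSpace X] in
theorem measurableSet_param (hP : ContinuousOn P U) {S : Set V} (hS : MeasurableSet S)
    (hSU : S ⊆ U) (hinj : InjOn P S) : MeasurableSet (P '' S) := by
  haveI := FiniteDimensional.complete ℝ V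
  haveI := FiniteDimensional.proper_real V
  exact hS.image_of_continuousOn_injOn (hP.mono hSU) hinj

omit [ChartedSpace E4 X] [IsManifold (𝓡 4) ∞ X] [CompactSpace X] [T2Space X]
  [FiniteDimensional ℝ V] in
theorem measurableSet_param_preimage (hU : IsOpen U) (hP : ContinuousOn P U) {S : Set V}
    (hS : MeasurableSet S) (hSU : S ⊆ U) {E : Set X} (hE : MeasurableSet E) :
    MeasurableSet (P ⁻¹' E ∩ S) := by
  classical
  have h1 : Measurable (U.piecewise P (fun _ => P 0)) :=
    ContinuousOn.measurable_piecewise hP continuousOn_const hU.measurableSet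
  have h2 : P ⁻¹' E ∩ S = (U.piecewise P (fun _ => P 0)) ⁻¹' E ∩ S := by
    ext z
    constructor
    · rintro ⟨h3, h4⟩
      exact ⟨by rw [mem_preimage, Set.piecewise_eq_of_mem _ _ _ (hSU h4)]; exact h3, h4⟩
    · rintro ⟨h3, h4⟩
      rw [mem_preimage, Set.piecewise_eq_of_mem _ _ _ (hSU h4)] at h3
      exact ⟨h3, h4⟩
  rw [h2]
  exact (h1 hE).inter hS

variable (hT : MeasurePreserving T volume ν) (hU : IsOpen U)
  (hP : ContMDiffOn 𝓘(ℝ, V) (𝓡 4) ∞ P U)
include hT hU hP

omit [CompactSpace X] in
theorem vol_param_chart {e : Ch X} (he : e ∈ atlas E4 X) {S : Set V} (hS : MeasurableSet S)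
    (hSU : S ⊆ U) (hinj : InjOn P S) (hSe : P '' S ⊆ e.source) :
    vol μ (P '' S) = ∫⁻ y in S, ENNReal.ofReal |pb P μ y (fr T)| ∂ν := by
  have hm := measurableSet_param hP.continuousOn hS hSU hinj
  rw [vol_apply he μ hm hSe, volC_apply μ e hm]
  have himg : e.symm ⁻¹' (P '' S) ∩ e.target = (fun w => e (P (T w))) '' (T ⁻¹' S) := by
    ext z
    constructor
    · rintro ⟨⟨y, hy, h1⟩, h2⟩
      refine ⟨T.symm y, by simpa using hy, ?_⟩
      show e (P (T (T.symm y))) = z
      rw [T.apply_symm_apply, h1, e.right_inv h2]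
    · rintro ⟨w, hw, rfl⟩
      have h1 : P (T w) ∈ e.source := hSe (mem_image_of_mem P hw)
      refine ⟨?_, e.map_source h1⟩
      rw [mem_preimage, e.left_inv h1]
      exact mem_image_of_mem P hw
  have hinj' : InjOn (fun w => e (P (T w))) (T ⁻¹' S) := by
    intro w hw w' hw' h
    exact T.injective (hinj hw hw'
      (e.injOn (hSe (mem_image_of_mem P hw)) (hSe (mem_image_of_mem P hw')) h))
  have hder : ∀ w ∈ T ⁻¹' S, HasFDerivWithinAt (fun w => e (P (T w)))
      ((fderiv ℝ (fun z => e (P z)) (T w)).comp (T : E4 →L[ℝ] V)) (T ⁻¹' S) w := fun w hw =>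
    ((differentiableAt_chart he (param_diff hU hP (hSU hw))
      (hSe (mem_image_of_mem P hw))).hasFDerivAt.comp w T.hasFDerivAt).hasFDerivWithinAt
  have hSm : MeasurableSet (T ⁻¹' S) := T.continuous.measurable hS
  rw [himg, lintegral_image_eq_lintegral_abs_det_fderiv_mul volume hSm hder hinj',
    ← hT.setLIntegral_comp_preimage_emb T.toHomeomorph.measurableEmbedding]
  refine setLIntegral_congr_fun hSm fun w hw => ?_
  have h1 : P (T w) ∈ e.source := hSe (mem_image_of_mem P hw)
  have h2 : pb P μ (T w) (fr T) = ((fderiv ℝ (fun z => e (P z)) (T w)).comp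
      (T : E4 →L[ℝ] V)).det * mC e μ (e (P (T w))) := by
    rw [pb_chart he (param_diff hU hP (hSU hw)) h1, mC_eq he μ (e.map_source h1), ← top_comp]
    rfl
  show _ = ENNReal.ofReal |pb P μ (T w) (fr T)|
  rw [h2, abs_mul, ENNReal.ofReal_mul (abs_nonneg _)]

/-- the volume of a parametrised set -/
theorem vol_param {S : Set V} (hS : MeasurableSet S) (hSU : S ⊆ U) (hinj : InjOn P S) :
    vol μ (P '' S) = ∫⁻ y in S, ENNReal.ofReal |pb P μ y (fr T)| ∂ν := by
  obtain ⟨t, ht⟩ := isCompact_univ.elim_finite_subcover (fun x : X => (chartAt E4 x).source)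
    (fun x => (chartAt E4 x).open_source) (fun x _ => mem_iUnion.2 ⟨x, mem_chart_source E4 x⟩)
  let n := t.card
  let p : Fin n → X := fun i => (t.equivFin.symm i : X)
  let D : Fin n → Set X := disjointed fun i => (chartAt E4 (p i)).source
  have hDm : ∀ i, MeasurableSet (D i) := by
    intro i
    show MeasurableSet (disjointed _ i)
    rw [disjointed_apply, Finset.sup_set_eq_biUnion]
    exact (chartAt E4 (p i)).open_source.measurableSet.diff
      (Finset.measurableSet_biUnion _ fun j _ => (chartAt E4 (p j)).open_source.measurableSet)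
  have hDd : Pairwise (Function.onFun Disjoint D) := disjoint_disjointed _
  have hDu : ⋃ i, D i = univ := by
    show ⋃ i, disjointed _ i = univ
    rw [iUnion_disjointed]
    refine eq_univ_of_forall fun x => ?_
    obtain ⟨y, hy, hx⟩ := mem_iUnion₂.1 (ht (mem_univ x))
    refine mem_iUnion.2 ⟨t.equivFin ⟨y, hy⟩, ?_⟩
    simpa [p] using hx
  have hSm : ∀ i, MeasurableSet (P ⁻¹' D i ∩ S) := fun i =>
    measurableSet_param_preimage hU hP.continuousOn hS hSU (hDm i)
  have hSu : S = ⋃ i, P ⁻¹' D i ∩ S := by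
    rw [← iUnion_inter, ← preimage_iUnion, hDu, preimage_univ, univ_inter]
  have hSd : Pairwise (Function.onFun Disjoint fun i => P ⁻¹' D i ∩ S) := fun i j hij =>
    ((hDd hij).preimage P).mono inter_subset_left inter_subset_left
  have hsub : ∀ i, P '' (P ⁻¹' D i ∩ S) ⊆ D i := by
    rintro i _ ⟨y, hy, rfl⟩
    exact hy.1
  conv_lhs => rw [hSu, image_iUnion]
  conv_rhs => rw [hSu]
  rw [lintegral_iUnion hSm hSd, measure_iUnion (fun i j hij => (hDd hij).mono (hsub i) (hsub j))
    fun i => measurableSet_param hP.continuousOn (hSm i) (inter_subset_right.trans hSU)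
      (hinj.mono inter_subset_right)]
  refine tsum_congr fun i => vol_param_chart hT hU hP (chart_mem_atlas E4 (p i)) (hSm i)
    (inter_subset_right.trans hSU) (hinj.mono inter_subset_right)
    ((hsub i).trans (disjointed_subset _ i))

theorem vol_restrict_param {S : Set V} (hS : MeasurableSet S) (hSU : S ⊆ U) (hinj : InjOn P S) :
    (vol μ).restrict (P '' S) = Measure.map P
      ((ν.restrict S).withDensity fun y => ENNReal.ofReal |pb P μ y (fr T)|) := by
  have h1 : AEMeasurable P ((ν.restrict S).withDensity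
      fun y => ENNReal.ofReal |pb P μ y (fr T)|) :=
    ((hP.continuousOn.mono hSU).aemeasurable hS).mono_ac (withDensity_absolutelyContinuous _ _)
  haveI : SFinite ν := by
    rw [← hT.map_eq]
    infer_instance
  ext E hE
  rw [Measure.restrict_apply hE, Measure.map_apply_of_aemeasurable h1 hE, withDensity_apply',
    Measure.restrict_restrict' hS, ← image_preimage_inter]
  exact vol_param hT hU hP (measurableSet_param_preimage hU hP.continuousOn hS hSU hE)
    (inter_subset_right.trans hSU) (hinj.mono inter_subset_right)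

/-- **PARAM-INT**, for functions -/
theorem setIntegral_param (hμ : HS.Smooth μ) {S : Set V} (hS : MeasurableSet S) (hSU : S ⊆ U)
    (hinj : InjOn P S) {f : X → ℝ} (hf : AEStronglyMeasurable f ((vol μ).restrict (P '' S))) :
    ∫ x in P '' S, f x ∂(vol μ) = ∫ y in S, |pb P μ y (fr T)| * f (P y) ∂ν := by
  have h1 : AEMeasurable P ((ν.restrict S).withDensity
      fun y => ENNReal.ofReal |pb P μ y (fr T)|) :=
    ((hP.continuousOn.mono hSU).aemeasurable hS).mono_ac (withDensity_absolutelyContinuous _ _)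
  rw [vol_restrict_param hT hU hP hS hSU hinj] at hf ⊢
  rw [integral_map h1 hf, integral_withDensity_eq_integral_toReal_smul₀]
  · refine integral_congr_ae (Eventually.of_forall fun z => ?_)
    simp only [ENNReal.toReal_ofReal (abs_nonneg _), smul_eq_mul]
  · have h2 : ContinuousOn (fun y => pb P μ y (fr T)) S :=
      (H175.evL (fr T)).continuous.comp_continuousOn
        ((contDiffOn_pb hU hP hμ).continuousOn.mono hSU)
    exact ENNReal.measurable_ofReal.comp_aemeasurable (h2.abs.aemeasurable hS)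
  · exact Eventually.of_forall fun z => ENNReal.ofReal_lt_top

theorem integral_param (hμ : HS.Smooth μ) {S : Set V} (hS : MeasurableSet S) (hSU : S ⊆ U)
    (hinj : InjOn P S) {f : X → ℝ} (hf : Continuous f)
    (h0 : ∀ᵐ x ∂(vol μ), x ∉ P '' S → f x = 0) :
    ∫ x, f x ∂(vol μ) = ∫ y in S, |pb P μ y (fr T)| * f (P y) ∂ν := by
  rw [← setIntegral_param hT hU hP hμ hS hSU hinj hf.aestronglyMeasurable]
  exact (setIntegral_eq_integral_of_ae_compl_eq_zero h0).symm

/-- **PARAM-INT**: the pairing is the integral of the pulled-back product; `σ` is the orientation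
sign of the parametrisation. -/
theorem pair_param (hμ : Volume μ) {S : Set V} (hS : MeasurableSet S) (hSU : S ⊆ U)
    (hinj : InjOn P S) {σ : ℝ} (hσ : ∀ y ∈ S, |pb P μ y (fr T)| = σ * pb P μ y (fr T))
    {α β : Form X 2} (hα : Cont α) (hβ : Cont β)
    (h0 : ∀ᵐ x ∂(vol μ), x ∉ P '' S → α x = 0 ∨ β x = 0) :
    pair μ α β = σ * ∫ y in S, wedge (pb P α y) (pb P β y) (fr T) ∂ν := by
  rw [pair, integral_param hT hU hP hμ.smooth hS hSU hinj (continuous_quot_of_cont hμ hα hβ),
    ← integral_const_mul]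
  · refine setIntegral_congr_fun hS fun y hy => ?_
    show |pb P μ y (fr T)| * quot μ α β (P y) = σ * wedge (pb P α y) (pb P β y) (fr T)
    rw [quot_eq, abs_mul_q4 hμ T P _ (hσ y hy), wedge_pb]
  · filter_upwards [h0] with x hx hx'
    rw [quot_eq]
    refine q4_of_zero μ ?_
    rcases hx hx' with h | h
    · exact (congrArg (fun a => w22 a (rf β x)) h).trans (w22_zero_left _)
    · exact (congrArg (fun a => w22 (rf α x) a) h).trans (w22_zero_right _)

omit hT [MeasurableSpace X] [BorelSpace X] [T2Space X] [CompactSpace X] [MeasurableSpace V]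
  [BorelSpace V] in
/-- immersions of connected sets have an orientation sign -/
theorem exists_sign (hμ : Volume μ) {S : Set V} (hS : IsPreconnected S) (hSU : S ⊆ U)
    (himm : ∀ y ∈ S, Function.Injective (mfderiv 𝓘(ℝ, V) (𝓡 4) P y)) :
    ∃ σ : ℝ, (σ = 1 ∨ σ = -1) ∧ ∀ y ∈ S, |pb P μ y (fr T)| = σ * pb P μ y (fr T) := by
  have h2 : ContinuousOn (fun y => pb P μ y (fr T)) S :=
    (H175.evL (fr T)).continuous.comp_continuousOn
      ((contDiffOn_pb hU hP hμ.smooth).continuousOn.mono hSU)
  have h3 : ∀ y ∈ S, pb P μ y (fr T) ≠ 0 := by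
    intro y hy
    rw [pb_fr]
    refine mul_ne_zero ?_ (top_ne (hμ.ne_zero _))
    have h4 : Function.Injective ((dP P y).comp (T : E4 →L[ℝ] V)) := (himm y hy).comp T.injective
    intro h5
    have h6 := LinearMap.bot_lt_ker_of_det_eq_zero h5
    rw [LinearMap.ker_eq_bot.2 h4] at h6
    exact lt_irrefl _ h6
  by_cases h : ∃ y ∈ S, 0 < pb P μ y (fr T)
  · obtain ⟨y0, hy0, h⟩ := h
    refine ⟨1, Or.inl rfl, fun y hy => ?_⟩
    rw [one_mul, abs_of_nonneg]
    by_contra hn
    obtain ⟨z, hz, hz0⟩ := hS.intermediate_value hy hy0 h2 ⟨(not_le.1 hn).le, h.le⟩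
    exact h3 z hz hz0
  · refine ⟨-1, Or.inr rfl, fun y hy => ?_⟩
    rw [neg_one_mul, abs_of_nonpos]
    exact not_lt.1 fun h' => h ⟨y, hy, h'⟩

end param

/-! ### the frames of `ℝ⁴` and `ℂ²` -/

section frames

variable {V : Type*} [NormedAddCommGroup V] [NormedSpace ℝ V] [FiniteDimensional ℝ V]

/-- the identification given by a basis -/
def ofBasis (b : Module.Basis (Fin 4) ℝ V) : E4 ≃L[ℝ] V :=
  (bE.equiv b (Equiv.refl _)).toContinuousLinearEquiv

theorem fr_ofBasis (b : Module.Basis (Fin 4) ℝ V) : fr (ofBasis b) = b := by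
  funext i
  show bE.equiv b (Equiv.refl _) (bas i) = b i
  rw [← bE_apply, Module.Basis.equiv_apply]
  rfl

theorem preserving_ofBasis [MeasurableSpace V] [BorelSpace V] (b : Module.Basis (Fin 4) ℝ V) :
    MeasurePreserving (ofBasis b) volume b.addHaar := by
  haveI := FiniteDimensional.proper_real V
  refine ⟨(ofBasis b).continuous.measurable, ?_⟩
  rw [← (EuclideanSpace.basisFun (Fin 4) ℝ).addHaar_eq_volume, Module.Basis.map_addHaar]
  congr 1
  ext i : 1
  exact congrFun (fr_ofBasis b) i ▸ (by
    show ofBasis b (bE i) = ofBasis b (bas i)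
    rw [bE_apply])

/-- the identification of the model space with `Fin 4 → ℝ` -/
def TR : E4 ≃L[ℝ] (Fin 4 → ℝ) := EuclideanSpace.equiv (Fin 4) ℝ

theorem fr_TR : fr TR = fun i => Pi.single i 1 := rfl

theorem preserving_TR : MeasurePreserving TR volume volume := PiLp.volume_preserving_ofLp (Fin 4)

/-- the real basis `(1, 0), (I, 0), (0, 1), (0, I)` of `ℂ²` -/
def bC : Module.Basis (Fin 4) ℝ (ℂ × ℂ) :=
  (Complex.basisOneI.prod Complex.basisOneI).reindex finSumFinEquiv

/-- the identification of the model space with `ℂ²` -/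
def TC : E4 ≃L[ℝ] (ℂ × ℂ) := ofBasis bC

theorem fr_TC : fr TC = ![(1, 0), (Complex.I, 0), (0, 1), (0, Complex.I)] := by
  rw [TC, fr_ofBasis]
  funext i
  fin_cases i
  · exact (Module.Basis.reindex_apply _ _ _).trans
      ((Module.Basis.prod_apply _ _ (Sum.inl 0)).trans (by simp))
  · exact (Module.Basis.reindex_apply _ _ _).trans
      ((Module.Basis.prod_apply _ _ (Sum.inl 1)).trans (by simp))
  · exact (Module.Basis.reindex_apply _ _ _).trans
      ((Module.Basis.prod_apply _ _ (Sum.inr 0)).trans (by simp))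
  · exact (Module.Basis.reindex_apply _ _ _).trans
      ((Module.Basis.prod_apply _ _ (Sum.inr 1)).trans (by simp))

theorem preserving_TC : MeasurePreserving TC volume volume := by
  have h : bC.addHaar = volume := by
    rw [bC, Module.Basis.addHaar_reindex, Module.Basis.prod_addHaar,
      ← Complex.toBasis_orthonormalBasisOneI, OrthonormalBasis.addHaar_eq_volume]
    rfl
  rw [← h]
  exact preserving_ofBasis bC

end frames

end Vale.Agent.P247M
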