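import Vale.Agent.P247M.Mark
import Vale.Agent.P247G.Defs

/-!
# P247, stage two: markings of any rank
-/

set_option linter.unusedSectionVars false

open scoped Manifold ContDiff Topology
open Set Filter MeasureTheory

noncomputable section

namespace Vale.Agent.P247M

open Vale.Agent.P247.SCY Vale.Agent.P247.SCY.HS
open Vale.Agent.P247X
open Vale.Agent.P290.H726 (bil)
open Vale.Agent.P290Z.Lat (cs Sig Ev)

variable {X : Type} [Cl4 X] {μ : Form X 4} {w : Tri X}

theorem bil_cs' {ι : Type} [Fintype ι] (G : Matrix ι ι ℤ) (u v : ι → ℤ) :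
    bil G (cs ℝ u) (cs ℝ v) = ((bil G u v : ℤ) : ℝ) := by
  simp [bil, cs]

theorem pair_of_coh (hμ : Volume μ) (hw : Hypersymplectic μ w) {r : ℕ} {c : Fin r → Form X 2}
    (hsc : ∀ i, SC (c i)) {G : Matrix (Fin r) (Fin r) ℤ} (hG : ∀ i j, pair μ (c i) (c j) = G i j)
    {α β : Form X 2} {a b : Fin r → ℝ} (hα : SC α) (hβ : SC β) (ha : Coh α (lc c a))
    (hb : Coh β (lc c b)) : pair μ α β = bil G a b := by
  rw [ha.pair hμ hw hα.1 (sc_lc hsc a).1 hβ, pair_comm,
    hb.pair hμ hw hβ.1 (sc_lc hsc b).1 (sc_lc hsc a), pair_comm, pair_lc_lc hμ hw hsc hG]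

/-- **markings of any rank** -/
theorem markN (hE : EVEN_statement) (hμ : Volume μ) (hp : BPlusLe3 μ)
    (hw : Hypersymplectic μ w) :
    ∃ (n : ℕ) (G : Matrix (Fin n) (Fin n) ℤ) (c : Fin n → Form X 2), P247G.IsEU G ∧
      (∀ i, SC (c i)) ∧ (∀ i j, pair μ (c i) (c j) = G i j) ∧
      (∀ α : Form X 2, SC α → ∃ v, Coh α (lc c v)) ∧
      (∀ v : Fin n → ℤ, ∃ L : LB X, L.F = lc c (cs ℝ v)) ∧
      (∀ q, BMinusGe μ q → 3 + q ≤ n) ∧ ∀ q, ¬ BMinusGe μ q → n < 3 + q := by
  obtain ⟨r, c, G, hc, hG, hu, hsp⟩ := exists_basis hE hμ hw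
  have hsc := fun i => (hc i).sc
  have hsy : ∀ i j, G i j = G j i := fun i j => by
    have : (G i j : ℝ) = G j i := by rw [← hG, ← hG, pair_comm]
    exact_mod_cast this
  have hb := pair_lc_lc hμ hw hsc hG
  choose a ha using fun i => hsp (w i) (hyp_sc hw i)
  have hwa : ∀ i j, pair μ (w i) (w j) = bil G (a i) (a j) := fun i j =>
    pair_of_coh hμ hw hsc hG (hyp_sc hw i) (hyp_sc hw j) (ha i) (ha j)
  have hpos : ∀ t : Fin 3 → ℝ, t ≠ 0 → 0 < bil G (∑ j, t j • a j) (∑ j, t j • a j) := by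
    intro t ht
    have h1 := pair_lc_pos hμ hw ht
    rw [pair_lc_left hμ hw (hyp_sc hw) t (sc_lc (hyp_sc hw) t).1] at h1
    rw [bil_sum]
    refine h1.trans_eq (Finset.sum_congr rfl fun i _ => ?_)
    rw [pair_comm, pair_lc_left hμ hw (hyp_sc hw) t (hw.smooth i), bil_sum']
    congr 1
    exact Finset.sum_congr rfl fun j _ => by rw [pair_comm, hwa]
  have hneg := sig_three hsy hu a hpos (by
    rintro ⟨b, hb'⟩
    refine hp ⟨fun i => lc c (b i), fun i => sc_lc hsc _, ?_⟩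
    have h1 := (gram_iff hsy 1 b).2 fun t ht => by rw [one_mul]; exact hb' t ht
    simpa only [hb, one_mul] using h1)
  refine ⟨r, G, c, ⟨hsy, fun x => ?_, hu, a, hpos, hneg⟩, hsc, hG, hsp, fun v => isChern_lc hc v,
    fun q ⟨y, hy, hy'⟩ => ?_, fun q hq => ?_⟩
  · obtain ⟨L, hL⟩ := isChern_lc hc x
    obtain ⟨n, hn⟩ := hE X μ hμ w hw L
    rw [hL, hb] at hn
    have h1 : bil G x x = 2 * n := by
      have h2 := bil_cs' G x x
      exact_mod_cast h2.symm.trans hn
    exact ⟨n, by rw [h1, two_mul]⟩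
  · choose b hb' using fun i => hsp (y i) (hy i)
    rw [← Fintype.card_fin r]
    refine card_ge a b hpos fun t ht => ?_
    have h1 := (gram_iff hsy (-1) b).1 (by
      simpa only [fun i j => pair_of_coh hμ hw hsc hG (hy i) (hy j) (hb' i) (hb' j), neg_one_mul]
        using hy') t ht
    linarith
  · rw [← Fintype.card_fin r]
    refine card_lt a hneg ?_
    rintro ⟨b, hb'⟩
    refine hq ⟨fun i => lc c (b i), fun i => sc_lc hsc _, ?_⟩
    have h1 := (gram_iff hsy (-1) b).2 fun t ht => by linarith [hb' t ht]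
    simpa only [hb, neg_one_mul] using h1

end Vale.Agent.P247M
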