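import Vale.Agent.P247M.Loc

/-!
# P247, block L: top degree forms on the model space
-/

set_option linter.unusedSectionVars false

open scoped Manifold ContDiff Topology
open Set Filter

noncomputable section

namespace Vale.Agent.P247M

open Vale.Agent.P247.SCY Vale.Agent.P247.SCY.HS
open Vale.Agent.P267.H175 (SmAt dF)
open Vale.Agent.P267

/-- the standard basis -/
def bE : Module.Basis (Fin 4) ℝ E4 := (EuclideanSpace.basisFun (Fin 4) ℝ).toBasis

theorem bE_apply (i : Fin 4) : bE i = bas i := by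
  simp [bE, bas]

theorem coe_bE : (bE : Fin 4 → E4) = bas := funext bE_apply

theorem bE_repr (u : E4) (i : Fin 4) : bE.repr u i = u i := by
  simp [bE]

theorem bas_apply (i j : Fin 4) : bas i j = if j = i then 1 else 0 := by
  simp [bas, Pi.single_apply]

theorem sum_bas (u : E4) : u = ∑ i, u i • bas i := by
  conv_lhs => rw [← bE.sum_repr u]
  simp only [bE_repr, bE_apply]

theorem bE_det (v : Fin 4 → E4) : bE.det v = (Matrix.of fun i j => v i j).det := by
  rw [Module.Basis.det_apply, ← Matrix.det_transpose]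
  congr 1

/-- the determinant -/
def vol4 : Alt 4 :=
  { bE.det with
    cont := by
      show Continuous fun v : Fin 4 → E4 => bE.det v
      simp only [bE_det]
      refine Continuous.matrix_det ?_
      refine continuous_pi fun i => continuous_pi fun j => ?_
      show Continuous fun v : Fin 4 → E4 => v i j
      fun_prop }

theorem vol4_apply (v : Fin 4 → E4) : vol4 v = (Matrix.of fun i j => v i j).det := bE_det v

theorem vol4_bas : vol4 bas = 1 := by
  show bE.det bas = 1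
  rw [← coe_bE]
  exact bE.det_self

theorem top_eq (A : Alt 4) : A = A bas • vol4 := by
  ext v
  have h := congrArg (fun f : E4 [⋀^Fin 4]→ₗ[ℝ] ℝ => f v)
    (AlternatingMap.eq_smul_basis_det bE A.toAlternatingMap)
  rw [coe_bE] at h
  exact h

theorem top_apply (A : Alt 4) (v : Fin 4 → E4) : A v = A bas * vol4 v := by
  conv_lhs => rw [top_eq A]
  rfl

theorem top_ext {A B : Alt 4} (h : A bas = B bas) : A = B := by
  rw [top_eq A, top_eq B, h]

theorem top_ne {A : Alt 4} (h : A ≠ 0) : A bas ≠ 0 := by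
  intro h0
  apply h
  rw [top_eq A, h0, zero_smul]

theorem top_comp (A : Alt 4) (L : E4 →L[ℝ] E4) :
    A.compContinuousLinearMap L bas = L.det * A bas := by
  rw [ContinuousAlternatingMap.compContinuousLinearMap_apply, top_apply, mul_comm]
  congr 1
  show bE.det ((L : E4 →ₗ[ℝ] E4) ∘ bas) = _
  rw [Module.Basis.det_comp, ← coe_bE, bE.det_self, mul_one]

theorem alt2_add_left (a : Alt 2) (u u' v : E4) : a ![u + u', v] = a ![u, v] + a ![u', v] :=
  a.toAlternatingMap.map_vecCons_add ![v] u u'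

theorem alt2_smul_left (a : Alt 2) (c : ℝ) (u v : E4) : a ![c • u, v] = c * a ![u, v] :=
  a.toAlternatingMap.map_vecCons_smul ![v] c u

theorem alt2_add_right (a : Alt 2) (u v v' : E4) : a ![u, v + v'] = a ![u, v] + a ![u, v'] := by
  rw [alt2_swap, alt2_add_left, alt2_swap a v, alt2_swap a v']
  ring

theorem alt2_smul_right (a : Alt 2) (c : ℝ) (u v : E4) : a ![u, c • v] = c * a ![u, v] := by
  rw [alt2_swap, alt2_smul_left, alt2_swap a v]
  ring

theorem alt2_coord (a : Alt 2) (u v : E4) : a ![u, v] =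
    (u 0 * v 1 - u 1 * v 0) * a ![bas 0, bas 1] + (u 0 * v 2 - u 2 * v 0) * a ![bas 0, bas 2] +
    (u 0 * v 3 - u 3 * v 0) * a ![bas 0, bas 3] + (u 1 * v 2 - u 2 * v 1) * a ![bas 1, bas 2] +
    (u 1 * v 3 - u 3 * v 1) * a ![bas 1, bas 3] + (u 2 * v 3 - u 3 * v 2) * a ![bas 2, bas 3] := by
  conv_lhs => rw [sum_bas u, sum_bas v]
  simp only [Fin.sum_univ_four, alt2_add_left, alt2_add_right, alt2_smul_left, alt2_smul_right,
    alt2_self]
  rw [alt2_swap a (bas 0) (bas 1), alt2_swap a (bas 0) (bas 2), alt2_swap a (bas 0) (bas 3),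
    alt2_swap a (bas 1) (bas 2), alt2_swap a (bas 1) (bas 3), alt2_swap a (bas 2) (bas 3)]
  ring

theorem det4 (M : Matrix (Fin 4) (Fin 4) ℝ) : M.det =
    (M 0 0 * M 1 1 - M 0 1 * M 1 0) * (M 2 2 * M 3 3 - M 2 3 * M 3 2)
    - (M 0 0 * M 1 2 - M 0 2 * M 1 0) * (M 2 1 * M 3 3 - M 2 3 * M 3 1)
    + (M 0 0 * M 1 3 - M 0 3 * M 1 0) * (M 2 1 * M 3 2 - M 2 2 * M 3 1)
    + (M 0 1 * M 1 2 - M 0 2 * M 1 1) * (M 2 0 * M 3 3 - M 2 3 * M 3 0)
    - (M 0 1 * M 1 3 - M 0 3 * M 1 1) * (M 2 0 * M 3 2 - M 2 2 * M 3 0)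
    + (M 0 2 * M 1 3 - M 0 3 * M 1 2) * (M 2 0 * M 3 1 - M 2 1 * M 3 0) := by
  rw [Matrix.det_succ_row_zero]
  simp [Fin.sum_univ_four, Matrix.det_fin_three, Matrix.submatrix, Fin.succAbove]
  ring

theorem wedge_eq (a b : Alt 2) (v : Fin 4 → E4) : wedge a b v = wedge a b bas * vol4 v := by
  rw [vol4_apply, det4]
  simp only [wedge, Matrix.of_apply]
  rw [alt2_coord a (v 0) (v 1), alt2_coord a (v 0) (v 2), alt2_coord a (v 0) (v 3),
    alt2_coord a (v 1) (v 2), alt2_coord a (v 1) (v 3), alt2_coord a (v 2) (v 3),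
    alt2_coord b (v 0) (v 1), alt2_coord b (v 0) (v 2), alt2_coord b (v 0) (v 3),
    alt2_coord b (v 1) (v 2), alt2_coord b (v 1) (v 3), alt2_coord b (v 2) (v 3)]
  ring

/-- the product of two two-forms -/
def w22 (a b : Alt 2) : Alt 4 := wedge a b bas • vol4

theorem w22_apply (a b : Alt 2) (v : Fin 4 → E4) : w22 a b v = wedge a b v := by
  rw [wedge_eq a b v]
  rfl

theorem w22_comp (a b : Alt 2) (L : E4 →L[ℝ] E4) :
    (w22 a b).compContinuousLinearMap L =
      w22 (a.compContinuousLinearMap L) (b.compContinuousLinearMap L) := by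
  ext v
  rw [ContinuousAlternatingMap.compContinuousLinearMap_apply, w22_apply, w22_apply]
  have h : ∀ (c : Alt 2) (i j : Fin 4), c.compContinuousLinearMap L ![v i, v j] =
      c ![L (v i), L (v j)] := by
    intro c i j
    rw [ContinuousAlternatingMap.compContinuousLinearMap_apply]
    congr 1
    funext r
    fin_cases r <;> rfl
  simp only [wedge, h, Function.comp_apply]

theorem w22_comm (a b : Alt 2) : w22 a b = w22 b a := by
  apply top_ext
  simp only [w22_apply, wedge]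
  ring

theorem w22_add_left (a a' b : Alt 2) : w22 (a + a') b = w22 a b + w22 a' b := by
  apply top_ext
  simp only [w22_apply, wedge, ContinuousAlternatingMap.add_apply]
  ring

theorem w22_smul_left (c : ℝ) (a b : Alt 2) : w22 (c • a) b = c • w22 a b := by
  apply top_ext
  simp only [w22_apply, wedge, ContinuousAlternatingMap.smul_apply, smul_eq_mul]
  ring

theorem w22_add_right (a b b' : Alt 2) : w22 a (b + b') = w22 a b + w22 a b' := by
  rw [w22_comm, w22_add_left, w22_comm b, w22_comm b']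

theorem w22_smul_right (c : ℝ) (a b : Alt 2) : w22 a (c • b) = c • w22 a b := by
  rw [w22_comm, w22_smul_left, w22_comm]

theorem w22_zero_left (b : Alt 2) : w22 0 b = 0 := by
  have := w22_smul_left 0 0 b
  rwa [zero_smul, zero_smul] at this

theorem w22_zero_right (b : Alt 2) : w22 b 0 = 0 := by
  rw [w22_comm, w22_zero_left]

theorem w22_sum_left {ι : Type*} (s : Finset ι) (a : ι → Alt 2) (b : Alt 2) :
    w22 (∑ i ∈ s, a i) b = ∑ i ∈ s, w22 (a i) b := by
  classical
  induction s using Finset.induction_on with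
  | empty => simp [w22_zero_left]
  | insert i s hi ih => rw [Finset.sum_insert hi, Finset.sum_insert hi, w22_add_left, ih]

theorem w22_sum_right {ι : Type*} (s : Finset ι) (a : Alt 2) (b : ι → Alt 2) :
    w22 a (∑ i ∈ s, b i) = ∑ i ∈ s, w22 a (b i) := by
  rw [w22_comm, w22_sum_left]
  exact Finset.sum_congr rfl fun i _ => w22_comm _ _

/-- the product of four linear forms is the determinant -/
theorem w22_wd (a b c d : E4 →L[ℝ] ℝ) : w22 (wd a (one b)) (wd c (one d)) bas =
    (Matrix.of fun i j => (![a, b, c, d] i) (bas j)).det := by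
  rw [w22_apply, det4]
  simp only [wedge, wd_one, Matrix.of_apply, Matrix.cons_val_zero, Matrix.cons_val_one,
    Matrix.cons_val]

theorem contDiffAt_w22 {Y : Type*} [NormedAddCommGroup Y] [NormedSpace ℝ Y] {n : WithTop ℕ∞}
    {a b : Y → Alt 2} {y : Y} (ha : ContDiffAt ℝ n a y) (hb : ContDiffAt ℝ n b y) :
    ContDiffAt ℝ n (fun y => w22 (a y) (b y)) y := by
  have h1 := H175.contDiffAt_alt_iff.1 ha
  have h2 := H175.contDiffAt_alt_iff.1 hb
  refine ContDiffAt.smul (f := fun y => wedge (a y) (b y) bas) (g := fun _ => vol4) ?_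
    contDiffAt_const
  unfold wedge
  exact ((((((h1 _).mul (h2 _)).sub ((h1 _).mul (h2 _))).add ((h1 _).mul (h2 _))).add
    ((h1 _).mul (h2 _))).sub ((h1 _).mul (h2 _))).add ((h1 _).mul (h2 _))

theorem contDiffAt_wd {Y : Type*} [NormedAddCommGroup Y] [NormedSpace ℝ Y] {n : WithTop ℕ∞}
    {k : ℕ} {a : Y → E4 →L[ℝ] ℝ} {b : Y → Alt k} {y : Y} (ha : ContDiffAt ℝ n a y)
    (hb : ContDiffAt ℝ n b y) : ContDiffAt ℝ n (fun y => wd (a y) (b y)) y := by
  rw [H175.contDiffAt_alt_iff]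
  intro v
  simp only [wd_apply]
  refine ContDiffAt.sum fun i _ => contDiffAt_const.mul ?_
  exact (ha.clm_apply contDiffAt_const).mul (H175.contDiffAt_alt_iff.1 hb _)

/-! ### the Leibniz rule for a one-form times a two-form -/

theorem rm4 (v : Fin 4 → E4) : Fin.removeNth 0 v = ![v 1, v 2, v 3] ∧
    Fin.removeNth 1 v = ![v 0, v 2, v 3] ∧ Fin.removeNth 2 v = ![v 0, v 1, v 3] ∧
    Fin.removeNth 3 v = ![v 0, v 1, v 2] := by
  refine ⟨?_, ?_, ?_, ?_⟩ <;> funext i <;> fin_cases i <;> rfl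

theorem rm3 (a b c : E4) : Fin.removeNth 0 ![a, b, c] = ![b, c] ∧
    Fin.removeNth 1 ![a, b, c] = ![a, c] ∧ Fin.removeNth 2 ![a, b, c] = ![a, b] := by
  refine ⟨?_, ?_, ?_⟩ <;> funext i <;> fin_cases i <;> rfl

theorem rm2 (a b : E4) : Fin.removeNth 0 ![a, b] = ![b] ∧ Fin.removeNth 1 ![a, b] = ![a] := by
  refine ⟨?_, ?_⟩ <;> funext i <;> fin_cases i <;> rfl

theorem wd_two (a : E4 →L[ℝ] ℝ) (b : Alt 2) (u v w : E4) :
    wd a b ![u, v, w] = a u * b ![v, w] - a v * b ![u, w] + a w * b ![u, v] := by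
  rw [wd_apply, Fin.sum_univ_three, (rm3 u v w).1, (rm3 u v w).2.1, (rm3 u v w).2.2]
  simp
  ring

theorem wd_three (a : E4 →L[ℝ] ℝ) (b : Alt 3) (v : Fin 4 → E4) :
    wd a b v = a (v 0) * b ![v 1, v 2, v 3] - a (v 1) * b ![v 0, v 2, v 3]
      + a (v 2) * b ![v 0, v 1, v 3] - a (v 3) * b ![v 0, v 1, v 2] := by
  rw [wd_apply, Fin.sum_univ_four, (rm4 v).1, (rm4 v).2.1, (rm4 v).2.2.1, (rm4 v).2.2.2]
  simp
  ring

theorem fderiv_eval {k : ℕ} {a : E4 → Alt k} {z : E4} (ha : DifferentiableAt ℝ a z)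
    (v : Fin k → E4) (u : E4) : fderiv ℝ (fun y => a y v) z u = fderiv ℝ a z u v := by
  have h := ((H175.evL v).hasFDerivAt.comp z ha.hasFDerivAt).fderiv
  exact congrArg (fun L : E4 →L[ℝ] ℝ => L u) h

theorem diff_eval {k : ℕ} {a : E4 → Alt k} {z : E4} (ha : DifferentiableAt ℝ a z)
    (v : Fin k → E4) : DifferentiableAt ℝ (fun y => a y v) z :=
  (H175.evL v).differentiableAt.comp z ha

theorem extDeriv_one {a : E4 → Alt 1} (z u v : E4) :
    extDeriv a z ![u, v] = fderiv ℝ a z u ![v] - fderiv ℝ a z v ![u] := by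
  rw [extDeriv, ContinuousAlternatingMap.alternatizeUncurryFin_apply, Fin.sum_univ_two,
    (rm2 u v).1, (rm2 u v).2]
  simp
  ring

theorem extDeriv_two {a : E4 → Alt 2} (z u v w : E4) :
    extDeriv a z ![u, v, w] = fderiv ℝ a z u ![v, w] - fderiv ℝ a z v ![u, w]
      + fderiv ℝ a z w ![u, v] := by
  rw [extDeriv, ContinuousAlternatingMap.alternatizeUncurryFin_apply, Fin.sum_univ_three,
    (rm3 u v w).1, (rm3 u v w).2.1, (rm3 u v w).2.2]
  simp
  ring

theorem extDeriv_three {a : E4 → Alt 3} (z : E4) (v : Fin 4 → E4) :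
    extDeriv a z v = fderiv ℝ a z (v 0) ![v 1, v 2, v 3] - fderiv ℝ a z (v 1) ![v 0, v 2, v 3]
      + fderiv ℝ a z (v 2) ![v 0, v 1, v 3] - fderiv ℝ a z (v 3) ![v 0, v 1, v 2] := by
  rw [extDeriv, ContinuousAlternatingMap.alternatizeUncurryFin_apply, Fin.sum_univ_four,
    (rm4 v).1, (rm4 v).2.1, (rm4 v).2.2.1, (rm4 v).2.2.2]
  simp
  ring

theorem fderiv_wd12 {a : E4 → Alt 1} {b : E4 → Alt 2} {z : E4} (ha : ContDiffAt ℝ 1 a z)
    (hb : ContDiffAt ℝ 1 b z) (t u v w : E4) :
    fderiv ℝ (fun y => wd (unone (a y)) (b y)) z t ![u, v, w] =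
      (fderiv ℝ a z t ![u] * b z ![v, w] - fderiv ℝ a z t ![v] * b z ![u, w]
        + fderiv ℝ a z t ![w] * b z ![u, v]) +
      (a z ![u] * fderiv ℝ b z t ![v, w] - a z ![v] * fderiv ℝ b z t ![u, w]
        + a z ![w] * fderiv ℝ b z t ![u, v]) := by
  have ha' := ha.differentiableAt one_ne_zero
  have hb' := hb.differentiableAt one_ne_zero
  have h1 : DifferentiableAt ℝ (fun y => wd (unone (a y)) (b y)) z :=
    (contDiffAt_wd (unone.contDiff.contDiffAt.comp z ha) hb).differentiableAt one_ne_zero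
  rw [← fderiv_eval h1]
  simp only [wd_two, unone_apply]
  have h2 : ∀ (p : E4) (q : Fin 2 → E4), HasFDerivAt (fun y => a y ![p] * b y q)
      (a z ![p] • fderiv ℝ (fun y => b y q) z + b z q • fderiv ℝ (fun y => a y ![p]) z) z :=
    fun p q => (diff_eval ha' _).hasFDerivAt.fun_mul (diff_eval hb' _).hasFDerivAt
  rw [(((h2 u ![v, w]).fun_sub (h2 v ![u, w])).fun_add (h2 w ![u, v])).fderiv]
  simp only [ContinuousLinearMap.add_apply, ContinuousLinearMap.sub_apply,
    ContinuousLinearMap.smul_apply, smul_eq_mul, fderiv_eval ha', fderiv_eval hb']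
  ring

/-- `d (a ∧ b) = da ∧ b - a ∧ db` -/
theorem extDeriv_wd12 {a : E4 → Alt 1} {b : E4 → Alt 2} {z : E4} (ha : ContDiffAt ℝ 1 a z)
    (hb : ContDiffAt ℝ 1 b z) :
    extDeriv (fun y => wd (unone (a y)) (b y)) z =
      w22 (extDeriv a z) (b z) - wd (unone (a z)) (extDeriv b z) := by
  ext v
  rw [ContinuousAlternatingMap.sub_apply, w22_apply, wd_three, extDeriv_three]
  simp only [fderiv_wd12 ha hb, wedge, extDeriv_one, extDeriv_two, unone_apply]
  ring

end Vale.Agent.P247M
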