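import Vale.Agent.P247M.TI
import Vale.Agent.P267.H53.ASLam

/-!
# P247, block L: relatively compact chart-convex sets are good
-/

set_option linter.unusedSectionVars false

open scoped Manifold ContDiff Topology
open Set Filter MeasureTheory

noncomputable section

namespace Vale.Agent.P247M

open Vale.Agent.P247.SCY Vale.Agent.P247.SCY.HS
open Vale.Agent.P267.H175 (SmAt dF)
open Vale.Agent.P267

/-! ### smooth steps -/

/-- the smooth step of half-width `δ` -/
def stepFn (δ : ℝ) (s : ℝ) : ℝ := Real.smoothTransition ((s / δ + 1) / 2)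

theorem stepFn_contDiff (δ : ℝ) : ContDiff ℝ ∞ (stepFn δ) := by
  unfold stepFn
  exact Real.smoothTransition.contDiff.comp
    (((contDiff_id.div_const δ).add contDiff_const).div_const 2)

theorem stepFn_zero {δ : ℝ} (hδ : 0 < δ) {s : ℝ} (hs : s ≤ -δ) : stepFn δ s = 0 := by
  apply Real.smoothTransition.zero_of_nonpos
  have : s / δ ≤ -1 := by
    rw [div_le_iff₀ hδ]
    linarith
  linarith

theorem stepFn_one {δ : ℝ} (hδ : 0 < δ) {s : ℝ} (hs : δ ≤ s) : stepFn δ s = 1 := by
  apply Real.smoothTransition.one_of_one_le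
  have : 1 ≤ s / δ := by
    rw [le_div_iff₀ hδ]
    linarith
  linarith

theorem deriv_stepFn_ne {δ : ℝ} (hδ : 0 < δ) {s : ℝ} (h : deriv (stepFn δ) s ≠ 0) : |s| ≤ δ := by
  by_contra hcon
  apply h
  rcases lt_abs.1 (not_le.1 hcon) with h1 | h1
  · have h2 : stepFn δ =ᶠ[𝓝 s] fun _ => 1 := by
      filter_upwards [lt_mem_nhds h1] with y hy
      exact stepFn_one hδ hy.le
    rw [h2.deriv_eq, deriv_const]
  · have h2 : stepFn δ =ᶠ[𝓝 s] fun _ => 0 := by
      filter_upwards [gt_mem_nhds (show s < -δ by linarith)] with y hy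
      exact stepFn_zero hδ hy.le
    rw [h2.deriv_eq, deriv_const]

theorem integral_deriv_stepFn {δ : ℝ} (hδ : 0 < δ) : ∫ s, deriv (stepFn δ) s = 1 := by
  have hc : Continuous (deriv (stepFn δ)) :=
    (stepFn_contDiff δ).continuous_deriv (by norm_num)
  have hcs : HasCompactSupport (deriv (stepFn δ)) := by
    refine HasCompactSupport.intro (isCompact_Icc (a := -δ) (b := δ)) fun s hs => ?_
    by_contra h
    exact hs (abs_le.1 (deriv_stepFn_ne hδ h))
  have h := integral_of_hasDerivAt_of_tendsto (f := stepFn δ) (f' := deriv (stepFn δ))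
    (m := 0) (n := 1)
    (fun s => ((stepFn_contDiff δ).differentiable (by norm_num) s).hasDerivAt)
    (hc.integrable_of_hasCompactSupport hcs) ?_ ?_
  · rw [h, sub_zero]
  · refine tendsto_const_nhds.congr' ?_
    filter_upwards [eventually_le_atBot (-δ)] with s hs
    exact (stepFn_zero hδ hs).symm
  · refine tendsto_const_nhds.congr' ?_
    filter_upwards [eventually_ge_atTop δ] with s hs
    exact (stepFn_one hδ hs).symm

/-! ### signed coordinates -/

/-- the coordinates, the first one multiplied by `σ` -/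
def sg (σ : ℝ) : Fin 4 → ℝ := ![σ, 1, 1, 1]

theorem sg_sq {σ : ℝ} (h : σ * σ = 1) (k : Fin 4) : sg σ k * sg σ k = 1 := by
  fin_cases k <;> simp [sg, h]

theorem sg_abs {σ : ℝ} (h : σ * σ = 1) (k : Fin 4) : |sg σ k| = 1 := by
  rcases mul_self_eq_one_iff.1 (sg_sq h k) with h1 | h1 <;> simp [h1]

theorem sg_prod (σ : ℝ) : ∏ k, sg σ k = σ := by
  simp [sg, Fin.prod_univ_four]

/-- the signed coordinate -/
def cr (σ : ℝ) (k : Fin 4) : E4 →L[ℝ] ℝ := sg σ k • EuclideanSpace.proj k

theorem cr_apply (σ : ℝ) (k : Fin 4) (z : E4) : cr σ k z = sg σ k * z k := rfl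

/-- the signed coordinates as an isomorphism -/
def crE {σ : ℝ} (h : σ * σ = 1) : E4 ≃L[ℝ] (Fin 4 → ℝ) :=
  LinearEquiv.toContinuousLinearEquiv
    { toFun := fun z k => cr σ k z
      map_add' := fun z w => by funext k; simp
      map_smul' := fun r z => by funext k; simp
      invFun := fun v => WithLp.toLp 2 fun k => sg σ k * v k
      left_inv := fun z => by
        ext k
        show sg σ k * (sg σ k * z k) = z k
        rw [← mul_assoc, sg_sq h, one_mul]
      right_inv := fun v => by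
        funext k
        show sg σ k * (sg σ k * v k) = v k
        rw [← mul_assoc, sg_sq h, one_mul] }

theorem crE_apply {σ : ℝ} (h : σ * σ = 1) (z : E4) (k : Fin 4) : crE h z k = cr σ k z := rfl

theorem integral_prod_coord (φ : Fin 4 → ℝ → ℝ) :
    ∫ z : E4, ∏ k, φ k (z k) = ∏ k, ∫ s, φ k s := by
  rw [← integral_fintype_prod_volume_eq_prod (𝕜 := ℝ) (E := fun _ : Fin 4 => ℝ) φ,
    ← (PiLp.volume_preserving_toLp (Fin 4)).integral_comp
      (MeasurableEquiv.toLp 2 (Fin 4 → ℝ)).measurableEmbedding]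

/-- the box of half-width `s` -/
def box (σ : ℝ) (z₀ : E4) (s : ℝ) : Set E4 := {z | ∀ k, |cr σ k z - cr σ k z₀| ≤ s}

theorem isClosed_box (σ : ℝ) (z₀ : E4) (s : ℝ) : IsClosed (box σ z₀ s) := by
  have : box σ z₀ s = ⋂ k, {z | |cr σ k z - cr σ k z₀| ≤ s} := by
    ext z
    simp [box]
  rw [this]
  exact isClosed_iInter fun k => isClosed_le (((cr σ k).continuous.sub continuous_const).abs)
    continuous_const

theorem box_subset {σ : ℝ} (h : σ * σ = 1) (z₀ : E4) {s : ℝ} (hs : 0 ≤ s) :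
    box σ z₀ s ⊆ Metric.closedBall z₀ (2 * s) := by
  intro z hz
  rw [Metric.mem_closedBall, EuclideanSpace.dist_eq]
  apply Real.sqrt_le_iff.2
  refine ⟨by positivity, ?_⟩
  have h1 : ∀ k, (z k - z₀ k) ^ 2 ≤ s ^ 2 := by
    intro k
    have h2 := hz k
    rw [cr_apply, cr_apply, ← mul_sub, abs_mul, sg_abs h, one_mul] at h2
    exact sq_le_sq' (abs_le.1 h2).1 (abs_le.1 h2).2
  simp only [Real.dist_eq, sq_abs, Fin.sum_univ_four]
  nlinarith [h1 0, h1 1, h1 2, h1 3]

theorem isCompact_box {σ : ℝ} (h : σ * σ = 1) (z₀ : E4) {s : ℝ} (hs : 0 ≤ s) :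
    IsCompact (box σ z₀ s) :=
  (isCompact_closedBall z₀ (2 * s)).of_isClosed_subset (isClosed_box σ z₀ s) (box_subset h z₀ hs)

theorem fderiv_step (δ σ a : ℝ) (k : Fin 4) (z : E4) :
    fderiv ℝ (fun y => stepFn δ (cr σ k y - a)) z = deriv (stepFn δ) (cr σ k z - a) • cr σ k := by
  have h1 : HasFDerivAt (fun y => cr σ k y - a) (cr σ k) z := (cr σ k).hasFDerivAt.sub_const a
  exact (((stepFn_contDiff δ).differentiable (by norm_num) _).hasDerivAt.comp_hasFDerivAt z
    h1).fderiv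

theorem w22_cr (σ : ℝ) (c : Fin 4 → ℝ) : w22 (wd (c 0 • cr σ 0) (one (c 1 • cr σ 1)))
    (wd (c 2 • cr σ 2) (one (c 3 • cr σ 3))) bas = σ * ∏ k, c k := by
  rw [w22_wd, det4, Fin.prod_univ_four]
  simp [cr_apply, bas_apply, sg]
  ring

/-! ### functions given in a chart -/

section top

variable {X : Type} [TopologicalSpace X] [ChartedSpace E4 X] [IsManifold (𝓡 4) ∞ X]

/-- a cut-off function supported in a chart times a smooth function of the coordinates -/
theorem smF_mul_chart {χ : X → ℝ} (hχ : ∀ x, SmF χ x) {e : Ch X} (he : e ∈ atlas E4 X)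
    (hs : tsupport χ ⊆ e.source) {u : E4 → ℝ} (hu : ContDiff ℝ ∞ u) (x : X) :
    SmF (fun x => χ x * u (e x)) x := by
  by_cases hx : x ∈ e.source
  · exact (hχ x).mul (smF_of_chart he hx hu.contDiffAt)
  · have h2 : χ =ᶠ[𝓝 x] 0 := notMem_tsupport_iff_eventuallyEq.1 fun h => hx (hs h)
    refine smF_of_const (c := 0) ?_
    filter_upwards [h2] with y hy
    rw [hy, Pi.zero_apply, zero_mul]

theorem loc_dd {e : Ch X} (he : e ∈ atlas E4 X) {z : E4} (hz : z ∈ e.target) {g h : X → ℝ}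
    (hg : SmF g (e.symm z)) (hh : SmF h (e.symm z)) : H175.loc e (dd g h) z =
      wd (fderiv ℝ (fun y => g (e.symm y)) z) (one (fderiv ℝ (fun y => h (e.symm y)) z)) := by
  have h1 := loc_d0 he hz hg
  have h2 := loc_d0 he hz hh
  rw [H175.loc, d0, one_comp] at h1
  rw [← h2, ← unone_one (fderiv ℝ (fun y => g (e.symm y)) z), ← h1, unone_one, H175.loc, dd,
    wd_comp]
  rfl

variable [T2Space X] [CompactSpace X]

theorem exists_cutoff {K O : Set X} (hK : IsClosed K) (hO : IsOpen O) (h : K ⊆ O) :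
    ∃ χ : X → ℝ, (∀ x, SmF χ x) ∧ tsupport χ ⊆ O ∧ (∀ x ∈ K, ∀ᶠ y in 𝓝 x, χ y = 1) ∧
      ∀ x, χ x ∈ Icc (0 : ℝ) 1 := by
  obtain ⟨f, h0, h1, h2⟩ := exists_contMDiffMap_zero_one_nhds_of_isClosed (𝓡 4) (n := ⊤)
    hO.isClosed_compl hK (disjoint_compl_left_iff_subset.2 h)
  refine ⟨f, fun x => f.contMDiff x, fun x hx => ?_, eventually_nhdsSet_iff_forall.1 h1, h2⟩
  by_contra hx'
  exact (notMem_tsupport_iff_eventuallyEq.2 (eventually_nhdsSet_iff_forall.1 h0 x hx')) hx

variable [MeasurableSpace X] [BorelSpace X] {μ : Form X 4}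

/-- **value on the chart generator** -/
theorem exists_chart_data (hμ : Volume μ) (hst : St μ) {e : Ch X} (he : e ∈ atlas E4 X) {p : X}
    (hp : p ∈ e.source) {U : Set X} (hU : IsOpen U) (hpU : p ∈ U) :
    ∃ (σ : ℝ) (χ : AX X) (t : Fin 4 → AX X) (δ : ℝ), σ * σ = 1 ∧ 0 < δ ∧
      tsupport (χ : X → ℝ) ⊆ U ∧ (∀ᶠ y in 𝓝 p, (χ : X → ℝ) y = 1) ∧
      (∀ x ∈ tsupport (χ : X → ℝ), (∀ i, |cr σ i (e x) - cr σ i (e p)| < δ) →
        ∀ᶠ y in 𝓝 x, (χ : X → ℝ) y = 1) ∧
      (∀ i, ∀ x ∈ tsupport (χ : X → ℝ), δ ≤ cr σ i (e x) - cr σ i (e p) →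
        ∀ᶠ y in 𝓝 x, (t i : X → ℝ) y = 1) ∧
      (∀ i, ∀ x ∈ tsupport (χ : X → ℝ), cr σ i (e x) - cr σ i (e p) ≤ -δ →
        ∀ᶠ y in 𝓝 x, (t i : X → ℝ) y = 0) ∧
      (TI hμ hst).J χ (t 0) (t 1) (t 2) (t 3) = 1 := by
  set z₀ : E4 := e p with hz₀
  have hz₀t : z₀ ∈ e.target := e.map_source hp
  obtain ⟨σ, hσ, hσ'⟩ : ∃ σ : ℝ, σ * σ = 1 ∧ ∀ᶠ z in 𝓝 z₀, |mC e μ z| = σ * mC e μ z := by
    have hc := (contDiffAt_mC hμ.smooth he hz₀t).continuousAt
    rcases lt_or_gt_of_ne (mC_ne hμ he hz₀t) with h | h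
    · refine ⟨-1, by norm_num, ?_⟩
      filter_upwards [hc.eventually (gt_mem_nhds h)] with z hz
      rw [abs_of_neg hz, neg_one_mul]
    · refine ⟨1, by norm_num, ?_⟩
      filter_upwards [hc.eventually (lt_mem_nhds h)] with z hz
      rw [abs_of_pos hz, one_mul]
  have hW : IsOpen (e.target ∩ e.symm ⁻¹' U) := e.symm.isOpen_inter_preimage hU
  have hpW : z₀ ∈ e.target ∩ e.symm ⁻¹' U :=
    ⟨hz₀t, by simpa [hz₀, e.left_inv hp] using hpU⟩
  obtain ⟨R, hR, hball⟩ := Metric.nhds_basis_closedBall.mem_iff.1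
    (inter_mem (hW.mem_nhds hpW) hσ')
  set δ : ℝ := R / 8 with hδ
  have hδ0 : 0 < δ := by positivity
  have hboxW : box σ z₀ (4 * δ) ⊆ (e.target ∩ e.symm ⁻¹' U) ∩
      {z | |mC e μ z| = σ * mC e μ z} := by
    refine (box_subset hσ z₀ (by positivity)).trans (subset_trans ?_ hball)
    apply Metric.closedBall_subset_closedBall
    rw [hδ]
    linarith
  have hboxm : ∀ {s s' : ℝ}, s ≤ s' → box σ z₀ s ⊆ box σ z₀ s' :=
    fun hss z hz k => (hz k).trans hss
  let O : Set X := e.source ∩ e ⁻¹' {z | ∀ k, |cr σ k z - cr σ k z₀| < 3 * δ}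
  have hOo : IsOpen O := by
    apply e.isOpen_inter_preimage
    have : {z : E4 | ∀ k, |cr σ k z - cr σ k z₀| < 3 * δ} =
        ⋂ k, {z | |cr σ k z - cr σ k z₀| < 3 * δ} := by
      ext z
      simp
    rw [this]
    exact isOpen_iInter_of_finite fun k => isOpen_lt
      (((cr σ k).continuous.sub continuous_const).abs) continuous_const
  have hK : IsCompact (e.symm '' box σ z₀ (2 * δ)) :=
    (isCompact_box hσ z₀ (by positivity)).image_of_continuousOn (e.continuousOn_symm.mono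
      ((hboxm (by linarith)).trans (hboxW.trans (inter_subset_left.trans inter_subset_left))))
  have hKO : e.symm '' box σ z₀ (2 * δ) ⊆ O := by
    rintro _ ⟨z, hz, rfl⟩
    have hzt : z ∈ e.target := (hboxW (hboxm (by linarith) hz)).1.1
    refine ⟨e.map_target hzt, fun k => ?_⟩
    rw [e.right_inv hzt]
    have := hz k
    linarith
  have hOb : ∀ x ∈ O, e x ∈ box σ z₀ (4 * δ) := fun x hx k => by
    have := hx.2 k
    linarith
  have hOU : O ⊆ U := by
    intro x hx
    have h2 := (hboxW (hOb x hx)).1.2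
    simpa [e.left_inv hx.1] using h2
  obtain ⟨χ, hχs, hχO, hχ1', -⟩ := exists_cutoff hK.isClosed hOo hKO
  have hχe : tsupport χ ⊆ e.source := hχO.trans inter_subset_left
  obtain ⟨χ', hχ's, hχ'O, hχ'1', -⟩ :=
    exists_cutoff (X := X) (isClosed_tsupport χ) e.open_source hχe
  have hus : ∀ k, ContDiff ℝ ∞ (fun z : E4 => stepFn (δ / 2) (cr σ k z - cr σ k z₀)) := fun k =>
    (stepFn_contDiff _).comp ((cr σ k).contDiff.sub contDiff_const)
  let t : Fin 4 → AX X := fun k =>
    ⟨fun x => χ' x * stepFn (δ / 2) (cr σ k (e x) - cr σ k z₀),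
      smF_mul_chart hχ's he hχ'O (hus k)⟩
  let χA : AX X := ⟨χ, hχs⟩
  have htx : ∀ k, ∀ x ∈ tsupport χ, ∀ᶠ y in 𝓝 x, (t k : X → ℝ) y =
      stepFn (δ / 2) (cr σ k (e y) - cr σ k z₀) := by
    intro k x hx
    filter_upwards [hχ'1' x hx] with y hy
    show χ' y * _ = _
    rw [hy, one_mul]
  have hcont : ∀ k, ∀ x ∈ tsupport χ, ContinuousAt (fun y => cr σ k (e y) - cr σ k z₀) x :=
    fun k x hx => ((cr σ k).continuous.continuousAt.comp (e.continuousAt (hχe hx))).sub
      continuousAt_const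
  refine ⟨σ, χA, t, δ, hσ, hδ0, hχO.trans hOU, ?_, ?_, ?_, ?_, ?_⟩
  · apply hχ1'
    refine ⟨z₀, fun k => ?_, e.left_inv hp⟩
    rw [sub_self, abs_zero]
    positivity
  · intro x hx hxi
    apply hχ1'
    refine ⟨e x, fun k => ?_, e.left_inv (hχe hx)⟩
    have := hxi k
    linarith
  · intro k x hx hxk
    have h1 : δ / 2 < cr σ k (e x) - cr σ k z₀ := by linarith
    filter_upwards [htx k x hx, (hcont k x hx).eventually (lt_mem_nhds h1)] with y hy hy2
    rw [hy, stepFn_one (by positivity) hy2.le]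
  · intro k x hx hxk
    have h1 : cr σ k (e x) - cr σ k z₀ < -(δ / 2) := by linarith
    filter_upwards [htx k x hx, (hcont k x hx).eventually (gt_mem_nhds h1)] with y hy hy2
    rw [hy, stepFn_zero (by positivity) hy2.le]
  · set φ : Fin 4 → ℝ → ℝ := fun k s => deriv (stepFn (δ / 2)) (sg σ k * s - cr σ k z₀) with hφ
    have hφbox : ∀ z : E4, ∏ k, φ k (z k) ≠ 0 → z ∈ box σ z₀ (2 * δ) := by
      intro z hz k
      have h1 := (Finset.prod_ne_zero_iff.1 hz) k (Finset.mem_univ k)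
      have h2 := deriv_stepFn_ne (by positivity) h1
      rw [cr_apply σ k z]
      linarith
    have hA0 : ∀ x, x ∉ tsupport χ → topF χA ![t 0, t 1, t 2, t 3] x = 0 := by
      intro x hx
      show χ x • _ = _
      rw [image_eq_zero_of_notMem_tsupport hx]
      exact zero_smul ℝ _
    have hint : ∀ z ∈ e.target, H175.loc e (topF χA ![t 0, t 1, t 2, t 3]) z bas =
        σ * ∏ k, φ k (z k) := by
      intro z hz
      have h0 : H175.loc e (topF χA ![t 0, t 1, t 2, t 3]) z bas = χ (e.symm z) *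
          H175.loc e (W22 (dd (t 0 : X → ℝ) (t 1)) (dd (t 2 : X → ℝ) (t 3))) z bas := rfl
      rw [h0]
      by_cases hzχ : e.symm z ∈ tsupport χ
      · have hrow : ∀ k, fderiv ℝ (fun y => (t k : X → ℝ) (e.symm y)) z = φ k (z k) • cr σ k := by
          intro k
          refine Eq.trans (Filter.EventuallyEq.fderiv_eq ?_) (fderiv_step (δ / 2) σ (cr σ k z₀) k z)
          filter_upwards [(e.continuousAt_symm hz).eventually (htx k _ hzχ),
            e.open_target.mem_nhds hz] with y hy hyt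
          rw [hy, e.right_inv hyt]
        rw [loc_W22, loc_dd he hz (AX_sm _ _) (AX_sm _ _), loc_dd he hz (AX_sm _ _) (AX_sm _ _),
          hrow, hrow, hrow, hrow, w22_cr σ fun k => φ k (z k)]
        by_cases h0 : ∏ k, φ k (z k) = 0
        · rw [h0, mul_zero, mul_zero]
        · rw [(hχ1' _ ⟨z, hφbox z h0, rfl⟩).self_of_nhds, one_mul]
      · have h1 : χ (e.symm z) = 0 := image_eq_zero_of_notMem_tsupport hzχ
        have h2 : ∏ k, φ k (z k) = 0 := by
          by_contra h0
          exact zero_ne_one (h1.symm.trans (hχ1' _ ⟨z, hφbox z h0, rfl⟩).self_of_nhds)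
        rw [h1, h2, zero_mul, mul_zero]
    show intA hμ χA ![t 0, t 1, t 2, t 3] = 1
    rw [intA_eq, I4_chart hμ he (smAt_topF _ _) (fun x hx => hA0 x fun h => hx (hχe h)) (σ := σ),
      setIntegral_congr_fun e.open_target.measurableSet hint,
      setIntegral_eq_integral_of_forall_compl_eq_zero, integral_const_mul, integral_prod_coord φ]
    · have h1 : ∀ k, ∫ s, φ k s = 1 := by
        intro k
        have h2 := Measure.integral_comp_mul_left
          (fun s => deriv (stepFn (δ / 2)) (s - cr σ k z₀)) (sg σ k)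
        rw [integral_sub_right_eq_self (fun s => deriv (stepFn (δ / 2)) s) (cr σ k z₀),
          integral_deriv_stepFn (by positivity), abs_inv, sg_abs hσ] at h2
        simpa using h2
      simp [h1, hσ]
    · intro z hz
      have h2 : ∏ k, φ k (z k) = 0 := by
        by_contra h0
        exact hz (hboxW (hboxm (by linarith) (hφbox z h0))).1.1
      rw [h2, mul_zero]
    · intro z hz hA
      have h1 : e.symm z ∈ tsupport χ := by
        by_contra h
        exact hA (hA0 _ h)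
      have h2 := (hboxW (hOb _ (hχO h1))).2
      rwa [e.right_inv hz] at h2

end top

variable {X : Type} [UniformSpace X] [ChartedSpace E4 X] [IsManifold (𝓡 4) ∞ X] [T2Space X]
  [CompactSpace X] [MeasurableSpace X] [BorelSpace X] {μ : Form X 4}

theorem good_TI (hμ : Volume μ) (hst : St μ) {e : Ch X} (he : e ∈ atlas E4 X) {U : Set X}
    (hU : IsOpen U) (hne : U.Nonempty) (hUe : closure U ⊆ e.source)
    (hconv : Convex ℝ (e '' U)) : AS.Good (TI hμ hst) U := by
  obtain ⟨p, hp⟩ := hne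
  obtain ⟨σ, χ, t, δ, hσ, h1, h2, h4, h5, h6, h7, h8⟩ :=
    exists_chart_data hμ hst he (hUe (subset_closure hp)) hU hp
  have hc := AS.chartPiece_of_chart e (crE hσ) hU isClosed_closure.isCompact hUe hconv hp
  have hcr : ∀ i x, crE hσ (e x - e p) i = cr σ i (e x) - cr σ i (e p) := by
    intro i x
    rw [crE_apply, map_sub]
  refine ⟨_, χ, t, δ, hc, ⟨h1, h2, ?_, ?_, ?_, ?_⟩, h8⟩
  · intro x hx hx0
    have hxp : x = p := by
      refine hc.inj (subset_closure hx) (subset_closure hp) ?_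
      funext i
      show crE hσ (e x - e p) i = crE hσ (e p - e p) i
      rw [hx0 i, sub_self, map_zero]
      rfl
    rw [hxp]
    exact h4
  · intro x hx hi
    exact h5 x hx fun i => by rw [← hcr]; exact hi i
  · intro i x hx hi
    exact h6 i x hx (by rw [← hcr]; exact hi)
  · intro i x hx hi
    exact h7 i x hx (by rw [← hcr]; exact hi)

end Vale.Agent.P247M
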