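import Vale.Agent.P247M.Nerve
import Vale.Agent.P247C.Lbc

/-!
# P247, stage two: closed one-forms, Cech cocycles and circle valued functions
-/

set_option linter.unusedSectionVars false

open scoped Manifold ContDiff Topology
open Set Filter

noncomputable section

namespace Vale.Agent.P247M

open Vale.Agent.P247.SCY Vale.Agent.P247.SCY.HS
open Vale.Agent.P267.H175 (SmAt dF)
open Vale.Agent.P267
open Vale.Agent.P247X
open Vale.Agent.P247C (dArg dArg_apply smAt_dArg dF_dArg)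

section gen

variable {X : Type} [TopologicalSpace X] [ChartedSpace E4 X] {ι : Type}

/-- exact one-forms -/
def Ex1 (θ : RF X 1) : Prop := ∃ f : X → ℝ, (∀ x, SmF f x) ∧ d0 f = θ

/-- one-cocycles of a cover -/
def IsCoc1 (U : ι → Set X) (r : ι → ι → ℝ) : Prop :=
  ∀ a b c x, x ∈ U a → x ∈ U b → x ∈ U c → r b c - r a c + r a b = 0

theorem d0_cmul (c : ℝ) {f : X → ℝ} {x : X} (hf : SmF f x) :
    d0 (fun y => c * f y) x = c • d0 f x := by
  rw [d0, Df_const_mul c hf, map_smul]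
  rfl

/-- the exact one-forms -/
def ex1Sub (X : Type) [TopologicalSpace X] [ChartedSpace E4 X] : Submodule ℝ (RF X 1) where
  carrier := {F | Ex1 F}
  add_mem' := by
    rintro _ _ ⟨f, h1, rfl⟩ ⟨g, h2, rfl⟩
    exact ⟨fun y => f y + g y, fun x => (h1 x).add (h2 x), funext fun x => d0_add (h1 x) (h2 x)⟩
  zero_mem' := ⟨fun _ => 0, fun _ => contMDiffAt_const, funext (d0_const 0)⟩
  smul_mem' := by
    rintro c _ ⟨f, h1, rfl⟩
    exact ⟨fun y => c * f y, fun x => contMDiffAt_const.mul (h1 x),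
      funext fun x => d0_cmul c (h1 x)⟩

/-- `exp (I f)` -/
def eI (f : X → ℝ) (x : X) : ℂ := Complex.exp ((f x : ℂ) * Complex.I)

theorem smC_eI {f : X → ℝ} {x : X} (h : SmF f x) : SmC (eI f) x :=
  ((SmC.ofReal h).mul contMDiffAt_const).exp

theorem norm_eI (f : X → ℝ) (x : X) : ‖eI f x‖ = 1 := Complex.norm_exp_ofReal_mul_I _

namespace Pt

variable [Fintype ι] (P : Pt X ι)

/-- the local primitives of the one-form of a cocycle -/
def h1 (r : ι → ι → ℝ) (a : ι) (x : X) : ℝ := ∑ b, r a b * P.ψ b x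

/-- the one-form of a cochain -/
def W1 (r : ι → ι → ℝ) : RF X 1 := fun x => ∑ a, ∑ b, (P.ψ a x * r a b) • d0 (P.ψ b) x

theorem smF_h1 (r : ι → ι → ℝ) (a : ι) (x : X) : SmF (P.h1 r a) x :=
  smF_sum _ fun c _ => contMDiffAt_const.mul (P.sm c x)

theorem d0_h1' (r : ι → ι → ℝ) (a : ι) (x : X) :
    d0 (P.h1 r a) x = ∑ c, r a c • d0 (P.ψ c) x := P.d0_ff (fun _ => r) a a x

/-- `W1` as a linear map -/
def W1L : (ι → ι → ℝ) →ₗ[ℝ] RF X 1 where
  toFun := P.W1
  map_add' r r' := by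
    funext x
    simp only [Pi.add_apply, W1, mul_add, add_smul, Finset.sum_add_distrib]
  map_smul' t r := by
    funext x
    simp only [Pi.smul_apply, W1, RingHom.id_apply, Finset.smul_sum, smul_smul, smul_eq_mul,
      mul_left_comm]

theorem W1_congr {r r' : ι → ι → ℝ} (h : ∀ a b x, x ∈ P.U a → x ∈ P.U b → r a b = r' a b) :
    P.W1 r = P.W1 r' := by
  funext x
  refine Finset.sum_congr rfl fun a _ => Finset.sum_congr rfl fun b _ => ?_
  by_cases ha : x ∈ P.U a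
  · by_cases hb : x ∈ P.U b
    · rw [h a b x ha hb]
    · rw [P.d0_zero hb, smul_zero, smul_zero]
  · rw [P.ψ_zero ha, zero_mul, zero_mul]

variable {P} {r : ι → ι → ℝ}

theorem h1_sub (hr : IsCoc1 P.U r) {a c : ι} {x : X} (ha : x ∈ P.U a) (hc : x ∈ P.U c) :
    P.h1 r a x - P.h1 r c x = r a c := by
  simp only [h1]
  rw [← Finset.sum_sub_distrib, ← mul_one (r a c), ← P.sum x, Finset.mul_sum]
  refine Finset.sum_congr rfl fun d _ => ?_
  by_cases hd : x ∈ P.U d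
  · linear_combination (-P.ψ d x) * hr a c d x ha hc hd
  · rw [P.ψ_zero hd]
    ring

theorem d0_h1 (hr : IsCoc1 P.U r) {a : ι} {x : X} (ha : x ∈ P.U a) :
    d0 (P.h1 r a) x = P.W1 r x := by
  have h : ∀ c, ∑ b, (P.ψ c x * r c b) • d0 (P.ψ b) x = P.ψ c x • d0 (P.h1 r a) x := by
    intro c
    by_cases hc : x ∈ P.U c
    · have h2 : P.h1 r a =ᶠ[𝓝 x] fun y => P.h1 r c y + r a c := by
        filter_upwards [(P.opn a).mem_nhds ha, (P.opn c).mem_nhds hc] with y h3 h4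
        linarith [h1_sub hr h3 h4]
      rw [d0_congr h2, d0_add (P.smF_h1 r c x) contMDiffAt_const, d0_const, add_zero, d0_h1',
        Finset.smul_sum]
      simp only [smul_smul]
    · simp only [P.ψ_zero hc, zero_mul, zero_smul, Finset.sum_const_zero]
  rw [W1, Finset.sum_congr rfl fun c _ => h c, ← Finset.sum_smul, P.sum, one_smul]

/-- local primitives with constant differences glue -/
theorem ex1_of {θ : RF X 1} {f : ι → X → ℝ} (hf : ∀ a, ∀ x ∈ P.U a, SmF (f a) x)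
    (hd : ∀ a, ∀ x ∈ P.U a, d0 (f a) x = θ x)
    (h : ∀ a b x, x ∈ P.U a → x ∈ P.U b → f a x = f b x) : ∃ F : X → ℝ, (∀ x, SmF F x) ∧
      d0 F = θ ∧ ∀ a, ∀ x ∈ P.U a, F x = f a x := by
  choose i hi using P.cov
  have hev : ∀ x, (fun y => f (i y) y) =ᶠ[𝓝 x] f (i x) := fun x => by
    filter_upwards [(P.opn (i x)).mem_nhds (hi x)] with y hy
    exact h _ _ y (hi y) hy
  exact ⟨fun y => f (i y) y, fun x => (hf _ x (hi x)).congr_of_eventuallyEq (hev x),
    funext fun x => (d0_congr (hev x)).trans (hd _ x (hi x)), fun a x hx => h _ _ x (hi x) hx⟩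

theorem ex1_sub {θ : RF X 1} {f : ι → X → ℝ} (hf : ∀ a, ∀ x ∈ P.U a, SmF (f a) x)
    (hd : ∀ a, ∀ x ∈ P.U a, d0 (f a) x = θ x)
    (h : ∀ a b x, x ∈ P.U a → x ∈ P.U b → f a x - f b x = r a b) :
    IsCoc1 P.U r ∧ Ex1 (θ - P.W1 r) := by
  have hr : IsCoc1 P.U r := fun a b c x ha hb hc => by
    rw [← h b c x hb hc, ← h a c x ha hc, ← h a b x ha hb]
    ring
  obtain ⟨F, h1, h2, -⟩ := P.ex1_of (θ := θ - P.W1 r) (f := fun a y => f a y - P.h1 r a y)
    (fun a x hx => (hf a x hx).sub (P.smF_h1 r a x))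
    (fun a x hx => by rw [d0_sub (hf a x hx) (P.smF_h1 r a x), hd a x hx, d0_h1 hr hx]; rfl)
    fun a b x ha hb => by linarith [h1_sub hr ha hb, h a b x ha hb]
  exact ⟨hr, F, h1, h2⟩

theorem ex1_cob (u : ι → ℝ) (h : ∀ a b x, x ∈ P.U a → x ∈ P.U b → r a b = u b - u a) :
    Ex1 (P.W1 r) := by
  have h1 := (P.ex1_sub (θ := 0) (f := fun a _ => -u a) (r := r) (fun _ _ _ => contMDiffAt_const)
    (fun a x _ => d0_const _ x) fun a b x ha hb => by rw [h a b x ha hb]; ring).2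
  have h2 := (ex1Sub X).neg_mem h1
  rwa [zero_sub, neg_neg] at h2

variable [IsManifold (𝓡 4) ∞ X]

theorem smAt_W1 (hr : IsCoc1 P.U r) (x : X) : SmAt (P.W1 r) x := by
  obtain ⟨a, ha⟩ := P.cov x
  refine (smAt_d0' (P.smF_h1 r a) x).congr ?_
  filter_upwards [(P.opn a).mem_nhds ha] with y hy
  exact (d0_h1 hr hy).symm

theorem dF_W1 (hr : IsCoc1 P.U r) (x : X) : dF (P.W1 r) x = 0 := by
  obtain ⟨a, ha⟩ := P.cov x
  have h : P.W1 r =ᶠ[𝓝 x] d0 (P.h1 r a) := by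
    filter_upwards [(P.opn a).mem_nhds ha] with y hy
    exact (d0_h1 hr hy).symm
  rw [H175.dF_congr h]
  exact dF_d0 isOpen_univ (fun y _ => P.smF_h1 r a y) (mem_univ x)

end Pt

/-- good covers -/
def Good2 (U : ι → Set X) : Prop :=
  ∀ a b, ∃ e ∈ atlas E4 X, U a ∩ U b ⊆ e.source ∧ Convex ℝ (e '' (U a ∩ U b))

variable [IsManifold (𝓡 4) ∞ X] [Fintype ι] {P : Pt X ι}

theorem Good2.prim (hg : Good2 P.U) {θ : RF X 1} (h1 : ∀ x, SmAt θ x) (h2 : ∀ x, dF θ x = 0)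
    (a : ι) : ∃ f : X → ℝ, (∀ x ∈ P.U a, SmF f x) ∧ ∀ x ∈ P.U a, d0 f x = θ x := by
  obtain ⟨e, he, h3, h4⟩ := hg a a
  rw [inter_self] at h3 h4
  exact exists_prim1 he (P.opn a) h3 h4 (fun x _ => h1 x) fun x _ => h2 x

theorem Good2.const (hg : Good2 P.U) (a b : ι) {f : X → ℝ} (h1 : ∀ x ∈ P.U a ∩ P.U b, SmF f x)
    (h2 : ∀ x ∈ P.U a ∩ P.U b, d0 f x = 0) : ∃ r : ℝ, ∀ x ∈ P.U a ∩ P.U b, f x = r := by
  obtain ⟨e, he, h3, h4⟩ := hg a b
  exact exists_const he ((P.opn a).inter (P.opn b)) h3 h4 h1 h2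

theorem Good2.coc (hg : Good2 P.U) {θ : RF X 1} {f : ι → X → ℝ}
    (hf : ∀ a, ∀ x ∈ P.U a, SmF (f a) x) (hd : ∀ a, ∀ x ∈ P.U a, d0 (f a) x = θ x) :
    ∃ r : ι → ι → ℝ, ∀ a b x, x ∈ P.U a → x ∈ P.U b → f a x - f b x = r a b := by
  choose r hr using fun a b => hg.const a b (f := fun y => f a y - f b y)
    (fun x hx => (hf a x hx.1).sub (hf b x hx.2))
    fun x hx => by rw [d0_sub (hf a x hx.1) (hf b x hx.2), hd a x hx.1, hd b x hx.2, sub_self]
  exact ⟨r, fun a b x ha hb => hr a b x ⟨ha, hb⟩⟩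

theorem Good2.span (hg : Good2 P.U) {θ : RF X 1} (h1 : ∀ x, SmAt θ x) (h2 : ∀ x, dF θ x = 0) :
    ∃ r, IsCoc1 P.U r ∧ Ex1 (θ - P.W1 r) := by
  choose f hf hd using hg.prim h1 h2
  obtain ⟨r, hr⟩ := hg.coc hf hd
  exact ⟨r, P.ex1_sub hf hd hr⟩

theorem Good2.cob (hg : Good2 P.U) {r : ι → ι → ℝ} (hr : IsCoc1 P.U r) (h : Ex1 (P.W1 r)) :
    ∃ u : ι → ℝ, ∀ a b x, x ∈ P.U a → x ∈ P.U b → r a b = u b - u a := by
  obtain ⟨F, h1, h2⟩ := h
  choose u hu using fun a => hg.const a a (f := fun y => F y - P.h1 r a y)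
    (fun x _ => (h1 x).sub (P.smF_h1 r a x))
    fun x hx => by rw [d0_sub (h1 x) (P.smF_h1 r a x), h2, Pt.d0_h1 hr hx.1, sub_self]
  exact ⟨u, fun a b x ha hb => by
    linarith [hu a x ⟨ha, ha⟩, hu b x ⟨hb, hb⟩, Pt.h1_sub hr ha hb]⟩

theorem Good2.const_univ [PreconnectedSpace X] (hg : Good2 P.U) {f : X → ℝ} (h1 : ∀ x, SmF f x)
    (h2 : ∀ x, d0 f x = 0) (x y : X) : f x = f y := by
  refine IsLocallyConstant.apply_eq_of_preconnectedSpace
    ((IsLocallyConstant.iff_exists_open f).2 fun x => ?_) x y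
  obtain ⟨a, ha⟩ := P.cov x
  obtain ⟨r, hr⟩ := hg.const a a (fun y _ => h1 y) fun y _ => h2 y
  exact ⟨P.U a, P.opn a, ha, fun y hy => (hr y ⟨hy, hy⟩).trans (hr x ⟨ha, ha⟩).symm⟩

end gen

section circ

variable {X : Type} [Cl4 X] {g g' : X → ℂ} {x : X}

theorem dArg_congr (h : g =ᶠ[𝓝 x] g') (hg : SmC g' x) : dArg g x = dArg g' x :=
  alt1_ext fun v => by
    rw [dArg_apply (hg.congr_of_eventuallyEq h), dArg_apply hg, dfc_congr h, h.eq_of_nhds]

theorem dArg_mul (h : SmC g x) (h' : SmC g' x) (n : ‖g x‖ = 1) (n' : ‖g' x‖ = 1) :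
    dArg (fun y => g y * g' y) x = dArg g x + dArg g' x :=
  alt1_ext fun v => by
    rw [ContinuousAlternatingMap.add_apply, dArg_apply (h.mul h'), dArg_apply h, dArg_apply h',
      dlog_mul h h' n n', Complex.add_im]

theorem dArg_eI {f : X → ℝ} (h : SmF f x) : dArg (eI f) x = d0 f x :=
  alt1_ext fun v => by
    rw [dArg_apply (smC_eI h)]
    exact dlog_exp h v

/-- a unit function with vanishing argument differential has vanishing differential -/
theorem d0_of_dArg (h : SmC g x) (n : ∀ᶠ y in 𝓝 x, ‖g y‖ = 1) (h0 : dArg g x = 0) :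
    d0 (fun y => (g y).re) x = 0 ∧ d0 (fun y => (g y).im) x = 0 := by
  have h1 : ∀ v : E4, dfc g x v = 0 := fun v => by
    have h2 : dfc (fun y => (starRingEnd ℂ) (g y) * g y) x v = 0 := by
      rw [dfc_congr (g' := fun _ => 1) (n.mono fun y hy => conj_mul_self hy), dfc_const]
    rw [dfc_mul h.conj h, dfc_conj h] at h2
    have h3 := dArg_apply h v
    rw [h0] at h3
    have h4 : (starRingEnd ℂ) (g x) * dfc g x v = 0 := by
      refine Complex.ext ?_ h3.symm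
      have h5 := congrArg Complex.re h2
      simp only [Complex.add_re, Complex.mul_re, Complex.conj_re, Complex.conj_im,
        Complex.zero_re] at h5 ⊢
      linarith
    have h6 : g x ≠ 0 := norm_ne_zero_iff.1 (by rw [n.self_of_nhds]; exact one_ne_zero)
    exact (mul_eq_zero.1 h4).resolve_left ((map_ne_zero _).2 h6)
  refine ⟨alt1_ext fun v => ?_, alt1_ext fun v => ?_⟩
  · exact (Df_re h v).trans (by rw [h1]; rfl)
  · exact (Df_im h v).trans (by rw [h1]; rfl)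

theorem eI_neg_mul (f : X → ℝ) (x : X) : eI (fun y => -f y) x * eI f x = 1 := by
  rw [eI, eI, ← Complex.exp_add]
  simp

/-- lifting of a unit function whose argument differential has a primitive -/
theorem lift_of_const {V : Set X} (hV : IsOpen V) {f : X → ℝ} (hg : ∀ x ∈ V, SmC g x)
    (n : ∀ x ∈ V, ‖g x‖ = 1) (hf : ∀ x ∈ V, SmF f x) (hd : ∀ x ∈ V, d0 f x = dArg g x)
    (hc : ∀ k : X → ℝ, (∀ x ∈ V, SmF k x) → (∀ x ∈ V, d0 k x = 0) → ∃ r, ∀ x ∈ V, k x = r) :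
    ∃ c : ℝ, ∀ x ∈ V, g x = eI (fun y => f y + c) x := by
  have s1 : ∀ x ∈ V, SmC (fun y => g y * eI (fun y => -f y) y) x := fun x hx =>
    (hg x hx).mul (smC_eI (hf x hx).neg)
  have n1 : ∀ x ∈ V, ‖g x * eI (fun y => -f y) x‖ = 1 := fun x hx => by
    rw [norm_mul, n x hx, norm_eI, one_mul]
  have h0 : ∀ x ∈ V, _ := fun x hx => d0_of_dArg (s1 x hx)
    (eventually_of_mem (hV.mem_nhds hx) n1) (by
      rw [dArg_mul (hg x hx) (smC_eI (hf x hx).neg) (n x hx) (norm_eI _ _), dArg_eI (hf x hx).neg,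
        ← hd x hx, d0, d0, Df_neg, map_neg, add_neg_cancel])
  obtain ⟨p, hp⟩ := hc _ (fun x hx => (s1 x hx).re) fun x hx => (h0 x hx).1
  obtain ⟨q, hq⟩ := hc _ (fun x hx => (s1 x hx).im) fun x hx => (h0 x hx).2
  refine ⟨Complex.arg ⟨p, q⟩, fun x hx => ?_⟩
  have h1 : g x * eI (fun y => -f y) x = ⟨p, q⟩ := Complex.ext (hp x hx) (hq x hx)
  have h2 := Complex.norm_mul_exp_arg_mul_I (⟨p, q⟩ : ℂ)
  rw [← h1, n1 x hx, h1] at h2
  have h3 : eI (fun y => f y + Complex.arg ⟨p, q⟩) x = ⟨p, q⟩ * eI f x := by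
    rw [eI, eI, Complex.ofReal_add, add_mul, Complex.exp_add, mul_comm]
    congr 1
    simpa using h2
  rw [h3, ← h1, mul_assoc, eI_neg_mul, mul_one]

variable {ι : Type} [Fintype ι] {P : Pt X ι}

/-- the circle valued function of an integral cocycle -/
theorem exists_circ {n : ι → ι → ℤ} (hr : IsCoc1 P.U fun a b => (n a b : ℝ)) :
    ∃ g : X → ℂ, (∀ x, SmC g x) ∧ (∀ x, ‖g x‖ = 1) ∧
      dArg g = (2 * Real.pi) • P.W1 fun a b => (n a b : ℝ) := by
  choose i hi using P.cov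
  let F : ι → X → ℝ := fun a y => 2 * Real.pi * P.h1 (fun a b => (n a b : ℝ)) a y
  have hF : ∀ a x, SmF (F a) x := fun a x => contMDiffAt_const.mul (P.smF_h1 _ a x)
  have hev : ∀ x, (fun y => eI (F (i y)) y) =ᶠ[𝓝 x] eI (F (i x)) := fun x => by
    filter_upwards [(P.opn (i x)).mem_nhds (hi x)] with y hy
    rw [eI, eI, Complex.exp_eq_exp_iff_exists_int]
    refine ⟨n (i y) (i x), ?_⟩
    have h := Pt.h1_sub hr (hi y) hy
    have h2 : F (i y) y = F (i x) y + 2 * Real.pi * n (i y) (i x) := by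
      simp only [F]
      linear_combination (2 * Real.pi) * h
    rw [h2]
    push_cast
    ring
  refine ⟨fun y => eI (F (i y)) y, fun x => (smC_eI (hF _ x)).congr_of_eventuallyEq (hev x),
    fun x => norm_eI _ _, funext fun x => ?_⟩
  rw [dArg_congr (hev x) (smC_eI (hF _ x)), dArg_eI (hF _ x), d0_cmul _ (P.smF_h1 _ _ x),
    Pt.d0_h1 hr (hi x)]
  rfl

/-- the integral cocycle of a circle valued function -/
theorem Good2.of_circ (hg : Good2 P.U) (hs : ∀ x, SmC g x) (n : ∀ x, ‖g x‖ = 1) :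
    ∃ m : ι → ι → ℤ, IsCoc1 P.U (fun a b => (m a b : ℝ)) ∧
      Ex1 ((2 * Real.pi)⁻¹ • dArg g - P.W1 fun a b => (m a b : ℝ)) := by
  have s1 := fun x => smAt_dArg isOpen_univ (fun y _ => hs y) (mem_univ x)
  have s2 := fun x => dF_dArg isOpen_univ (fun y _ => hs y) (fun y _ => n y) (mem_univ x)
  choose f hf hd using hg.prim s1 s2
  choose c hc using fun a => lift_of_const (P.opn a) (fun x _ => hs x) (fun x _ => n x) (hf a)
    (hd a) fun k h1 h2 => by
      simpa only [inter_self] using hg.const a a (fun x hx => h1 x hx.1) fun x hx => h2 x hx.1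
  have hf' : ∀ a, ∀ x ∈ P.U a, SmF (fun y => (2 * Real.pi)⁻¹ * (f a y + c a)) x := fun a x hx =>
    contMDiffAt_const.mul ((hf a x hx).add contMDiffAt_const)
  have hd' : ∀ a, ∀ x ∈ P.U a, d0 (fun y => (2 * Real.pi)⁻¹ * (f a y + c a)) x =
      ((2 * Real.pi)⁻¹ • dArg g) x := fun a x hx => by
    rw [d0_cmul _ (f := fun y => f a y + c a) ((hf a x hx).add contMDiffAt_const), d0_add (hf a x hx) contMDiffAt_const,
      d0_const, add_zero, hd a x hx]
    rfl
  obtain ⟨r, hr⟩ := hg.coc hf' hd'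
  have hm : ∀ a b, ∃ m : ℤ, ∀ x, x ∈ P.U a → x ∈ P.U b → r a b = m := fun a b => by
    by_cases h : ∃ x, x ∈ P.U a ∧ x ∈ P.U b
    · obtain ⟨x, ha, hb⟩ := h
      have h1 := (hc a x ha).symm.trans (hc b x hb)
      rw [eI, eI, Complex.exp_eq_exp_iff_exists_int] at h1
      obtain ⟨m, h1⟩ := h1
      refine ⟨m, fun _ _ _ => ?_⟩
      have h2 := congrArg Complex.im h1
      simp only [Complex.mul_im, Complex.ofReal_re, Complex.I_im, Complex.ofReal_im, Complex.I_re,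
        Complex.add_im, Complex.mul_re, Complex.intCast_re, Complex.intCast_im, Complex.re_ofNat,
        Complex.im_ofNat] at h2
      rw [← hr a b x ha hb]
      field_simp
      linarith
    · exact ⟨0, fun x ha hb => absurd ⟨x, ha, hb⟩ h⟩
  choose m hm using hm
  exact ⟨m, P.ex1_sub hf' hd' fun a b x ha hb => (hr a b x ha hb).trans (hm a b x ha hb)⟩

end circ

end Vale.Agent.P247M
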