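import Vale.Agent.P247M.Alg4

/-!
# P247, block L: the measure of a volume form, integrals in charts
-/

set_option linter.unusedSectionVars false

open scoped Manifold ContDiff Topology ENNReal
open Set Filter MeasureTheory

noncomputable section

namespace Vale.Agent.P247M

open Vale.Agent.P247.SCY Vale.Agent.P247.SCY.HS
open Vale.Agent.P267.H175 (SmAt dF)
open Vale.Agent.P267

variable {X : Type*} [TopologicalSpace X] [ChartedSpace E4 X]

/-- the density of a top form in a chart -/
def mC (e : Ch X) (μ : Form X 4) (z : E4) : ℝ := HS.loc e μ z bas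

/-- the quotient of two top forms -/
def q4 (μ : Form X 4) (A : RF X 4) (x : X) : ℝ := A x bas / rf μ x bas

/-- the product of two two-forms -/
def W22 (a b : RF X 2) : RF X 4 := fun x => w22 (a x) (b x)

theorem quot_eq (μ : Form X 4) (α β : Form X 2) (x : X) :
    quot μ α β x = q4 μ (W22 (rf α) (rf β)) x := by
  unfold q4 W22
  rw [w22_apply]
  rfl

theorem loc_W22 (e : Ch X) (a b : RF X 2) (z : E4) :
    H175.loc e (W22 a b) z = w22 (H175.loc e a z) (H175.loc e b z) := w22_comp _ _ _

theorem smAt_W22 {a b : RF X 2} {x : X} (ha : SmAt a x) (hb : SmAt b x) : SmAt (W22 a b) x := by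
  have h : H175.loc (chartAt E4 x) (W22 a b) = fun z =>
      w22 (H175.loc (chartAt E4 x) a z) (H175.loc (chartAt E4 x) b z) :=
    funext fun z => loc_W22 _ a b z
  rw [SmAt, h]
  exact contDiffAt_w22 ha hb

theorem q4_add (μ : Form X 4) (A B : RF X 4) (x : X) : q4 μ (A + B) x = q4 μ A x + q4 μ B x := by
  simp only [q4, Pi.add_apply, ContinuousAlternatingMap.add_apply, add_div]

theorem q4_fsmul (μ : Form X 4) (f : X → ℝ) (A : RF X 4) (x : X) :
    q4 μ (fun y => f y • A y) x = f x * q4 μ A x := by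
  simp only [q4, ContinuousAlternatingMap.smul_apply, smul_eq_mul, mul_div_assoc]

theorem q4_smul (μ : Form X 4) (c : ℝ) (A : RF X 4) (x : X) : q4 μ (c • A) x = c * q4 μ A x :=
  q4_fsmul μ (fun _ => c) A x

theorem q4_of_zero (μ : Form X 4) {A : RF X 4} {x : X} (h : A x = 0) : q4 μ A x = 0 := by
  simp [q4, h]

/-- the integral of a top form -/
def I4 [MeasurableSpace X] (μ : Form X 4) (A : RF X 4) : ℝ := ∫ x, q4 μ A x ∂(vol μ)

theorem pair_eq [MeasurableSpace X] (μ : Form X 4) (α β : Form X 2) :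
    pair μ α β = I4 μ (W22 (rf α) (rf β)) := by
  unfold pair I4
  simp only [quot_eq]

theorem pair_comm [MeasurableSpace X] (μ : Form X 4) (α β : Form X 2) :
    pair μ α β = pair μ β α := by
  rw [pair_eq, pair_eq]
  congr 1
  funext x
  exact w22_comm _ _

variable [IsManifold (𝓡 4) ∞ X] {μ : Form X 4}

theorem mC_eq {e : Ch X} (he : e ∈ atlas E4 X) (μ : Form X 4) {z : E4} (hz : z ∈ e.target) :
    mC e μ z = H175.loc e (rf μ) z bas := by
  rw [mC, loc_eq he μ hz]

theorem mC_change {e e' : Ch X} (he : e ∈ atlas E4 X) (he' : e' ∈ atlas E4 X) (μ : Form X 4)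
    {z : E4} (hz : z ∈ e.target) (hz' : e.symm z ∈ e'.source) :
    mC e μ z = (fderiv ℝ (fun y => e' (e.symm y)) z).det * mC e' μ (e' (e.symm z)) := by
  rw [mC_eq he μ hz, mC_eq he' μ (e'.map_source hz'), H175.loc_change he he' _ hz hz', top_comp]

theorem mu_ne (hμ : Volume μ) (x : X) : rf μ x bas ≠ 0 := top_ne (hμ.ne_zero x)

theorem top_chart {e : Ch X} (he : e ∈ atlas E4 X) (A : RF X 4) {x : X} (hx : x ∈ e.source) :
    A x bas = (fderiv ℝ (fun y => e ((chartAt E4 x).symm y)) (chartAt E4 x x)).det *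
      H175.loc e A (e x) bas := by
  conv_lhs => rw [H175.eq_of_loc he A hx]
  rw [top_comp]

theorem mC_ne (hμ : Volume μ) {e : Ch X} (he : e ∈ atlas E4 X) {z : E4} (hz : z ∈ e.target) :
    mC e μ z ≠ 0 := by
  have h := top_chart he (rf μ) (e.map_target hz)
  rw [e.right_inv hz, ← mC_eq he μ hz] at h
  intro h0
  rw [h0, mul_zero] at h
  exact mu_ne hμ _ h

theorem q4_chart (hμ : Volume μ) {e : Ch X} (he : e ∈ atlas E4 X) (A : RF X 4) {z : E4}
    (hz : z ∈ e.target) : q4 μ A (e.symm z) = H175.loc e A z bas / mC e μ z := by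
  have h1 := top_chart he (rf μ) (e.map_target hz)
  have h2 := top_chart he A (e.map_target hz)
  rw [e.right_inv hz] at h1 h2
  rw [← mC_eq he μ hz] at h1
  have h3 := mu_ne hμ (e.symm z)
  rw [h1] at h3
  rw [q4, h1, h2, mul_div_mul_left _ _ (left_ne_zero_of_mul h3)]

theorem contDiffAt_mC (hμ : HS.Smooth μ) {e : Ch X} (he : e ∈ atlas E4 X) {z : E4}
    (hz : z ∈ e.target) : ContDiffAt ℝ ∞ (mC e μ) z :=
  H175.contDiffAt_alt_iff.1 ((hμ e he).contDiffAt (e.open_target.mem_nhds hz)) bas

theorem continuousOn_mC (hμ : HS.Smooth μ) {e : Ch X} (he : e ∈ atlas E4 X) :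
    ContinuousOn (mC e μ) e.target := fun _ hz =>
  (contDiffAt_mC hμ he hz).continuousAt.continuousWithinAt

theorem smF_q4 (hμ : Volume μ) {A : RF X 4} {x : X} (hA : SmAt A x) : SmF (q4 μ A) x := by
  refine smF_of_cd ?_
  have he := chart_mem_atlas E4 x
  have hz := mem_chart_target E4 x
  have h1 : ContDiffAt ℝ ∞ (fun z => H175.loc (chartAt E4 x) A z bas / mC (chartAt E4 x) μ z)
      (chartAt E4 x x) :=
    (H175.contDiffAt_alt_iff.1 hA bas).div (contDiffAt_mC hμ.smooth he hz) (mC_ne hμ he hz)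
  refine h1.congr_of_eventuallyEq ?_
  filter_upwards [(chartAt E4 x).open_target.mem_nhds hz] with z hz'
  exact q4_chart hμ he A hz'

theorem continuous_q4 (hμ : Volume μ) {A : RF X 4} (hA : ∀ x, SmAt A x) : Continuous (q4 μ A) :=
  continuous_iff_continuousAt.2 fun x => (smF_q4 hμ (hA x)).continuousAt

theorem smF_quot (hμ : Volume μ) {α β : Form X 2} (hα : HS.Smooth α) (hβ : HS.Smooth β) (x : X) :
    SmF (quot μ α β) x := by
  have h : quot μ α β = q4 μ (W22 (rf α) (rf β)) := funext fun x => quot_eq μ α β x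
  rw [h]
  exact smF_q4 hμ (smAt_W22 (smooth_iff.1 hα x) (smooth_iff.1 hβ x))

theorem continuous_quot (hμ : Volume μ) {α β : Form X 2} (hα : HS.Smooth α) (hβ : HS.Smooth β) :
    Continuous (quot μ α β) :=
  continuous_iff_continuousAt.2 fun x => (smF_quot hμ hα hβ x).continuousAt

/-! ### the measure -/

variable [MeasurableSpace X] [BorelSpace X]

/-- the measure of a volume form on the domain of a chart -/
def volC (μ : Form X 4) (e : Ch X) : Measure X :=
  Measure.map e.symm ((volume.restrict e.target).withDensity fun y => ENNReal.ofReal |mC e μ y|)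

omit [IsManifold (𝓡 4) ∞ X] [BorelSpace X] in
theorem vol_eq (μ : Form X 4) : vol μ = ⨆ e ∈ atlas E4 X, volC μ e := rfl

omit [IsManifold (𝓡 4) ∞ X] in
theorem aemeasurable_symm (μ : Form X 4) (e : Ch X) : AEMeasurable e.symm
    ((volume.restrict e.target).withDensity fun y => ENNReal.ofReal |mC e μ y|) :=
  (e.continuousOn_symm.aemeasurable e.open_target.measurableSet).mono_ac
    (withDensity_absolutelyContinuous _ _)

omit [IsManifold (𝓡 4) ∞ X] in
theorem volC_apply (μ : Form X 4) (e : Ch X) {E : Set X} (hE : MeasurableSet E) :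
    volC μ e E = ∫⁻ z in e.symm ⁻¹' E ∩ e.target, ENNReal.ofReal |mC e μ z| := by
  rw [volC, Measure.map_apply_of_aemeasurable (aemeasurable_symm μ e) hE, withDensity_apply',
    Measure.restrict_restrict' e.open_target.measurableSet]

omit [IsManifold (𝓡 4) ∞ X] [ChartedSpace E4 X] in
theorem measurableSet_symm (e : Ch X) {E : Set X} (hE : MeasurableSet E) :
    MeasurableSet (e.symm ⁻¹' E ∩ e.target) := by
  classical
  let x0 : X := e.symm 0
  have h1 : Measurable (e.target.piecewise e.symm (fun _ => x0)) :=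
    ContinuousOn.measurable_piecewise e.continuousOn_symm continuousOn_const
      e.open_target.measurableSet
  have h2 : e.symm ⁻¹' E ∩ e.target =
      (e.target.piecewise e.symm (fun _ => x0)) ⁻¹' E ∩ e.target := by
    ext z
    constructor
    · rintro ⟨h3, h4⟩
      exact ⟨by rw [mem_preimage, Set.piecewise_eq_of_mem _ _ _ h4]; exact h3, h4⟩
    · rintro ⟨h3, h4⟩
      rw [mem_preimage, Set.piecewise_eq_of_mem _ _ _ h4] at h3
      exact ⟨h3, h4⟩
  rw [h2]
  exact (h1 hE).inter e.open_target.measurableSet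

omit [IsManifold (𝓡 4) ∞ X] in
theorem volC_inter (μ : Form X 4) (e : Ch X) {E : Set X} (hE : MeasurableSet E) :
    volC μ e (E ∩ e.source) = volC μ e E := by
  rw [volC_apply μ e hE, volC_apply μ e (hE.inter e.open_source.measurableSet)]
  congr 2
  ext z
  constructor
  · rintro ⟨h1, h2⟩
    exact ⟨h1.1, h2⟩
  · rintro ⟨h1, h2⟩
    exact ⟨⟨h1, e.map_target h2⟩, h2⟩

theorem volC_change {e e' : Ch X} (he : e ∈ atlas E4 X) (he' : e' ∈ atlas E4 X) (μ : Form X 4)
    {E : Set X} (hE : MeasurableSet E) (h1 : E ⊆ e.source) (h2 : E ⊆ e'.source) :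
    volC μ e' E = volC μ e E := by
  rw [volC_apply μ e hE, volC_apply μ e' hE]
  set S : Set E4 := e.symm ⁻¹' E ∩ e.target with hS
  have hSm : MeasurableSet S := measurableSet_symm e hE
  have himg : e'.symm ⁻¹' E ∩ e'.target = (fun y => e' (e.symm y)) '' S := by
    ext y
    constructor
    · rintro ⟨hy1, hy2⟩
      refine ⟨e (e'.symm y), ⟨?_, e.map_source (h1 hy1)⟩, ?_⟩
      · rw [mem_preimage, e.left_inv (h1 hy1)]
        exact hy1
      · show e' (e.symm (e (e'.symm y))) = y
        rw [e.left_inv (h1 hy1), e'.right_inv hy2]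
    · rintro ⟨w, hw, rfl⟩
      refine ⟨?_, e'.map_source (h2 hw.1)⟩
      rw [mem_preimage, e'.left_inv (h2 hw.1)]
      exact hw.1
  have hinj : InjOn (fun y => e' (e.symm y)) S := by
    intro w hw w' hw' h
    have h3 := e'.injOn (h2 hw.1) (h2 hw'.1) h
    exact e.symm.injOn hw.2 hw'.2 h3
  have hder : ∀ w ∈ S, HasFDerivWithinAt (fun y => e' (e.symm y))
      (fderiv ℝ (fun y => e' (e.symm y)) w) S w := fun w hw =>
    ((H175.trR he he' hw.2 (h2 hw.1)).differentiableAt (by simp)).hasFDerivAt.hasFDerivWithinAt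
  rw [himg, lintegral_image_eq_lintegral_abs_det_fderiv_mul volume hSm hder hinj]
  refine setLIntegral_congr_fun hSm fun w hw => ?_
  rw [mC_change he he' μ hw.2 (h2 hw.1), abs_mul, ENNReal.ofReal_mul (abs_nonneg _)]

theorem vol_apply {e : Ch X} (he : e ∈ atlas E4 X) (μ : Form X 4) {E : Set X}
    (hE : MeasurableSet E) (h1 : E ⊆ e.source) : vol μ E = volC μ e E := by
  have hle : ∀ e' ∈ atlas E4 X, volC μ e' ≤ vol μ := fun e' he' =>
    le_iSup₂_of_le (f := fun e (_ : e ∈ atlas E4 X) => volC μ e) e' he' le_rfl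
  refine le_antisymm ?_ (hle e he E)
  have h2 : vol μ ≤ (volC μ e).restrict E + (vol μ).restrict Eᶜ := by
    rw [vol_eq]
    refine iSup₂_le fun e' he' => Measure.le_iff.2 fun A hA => ?_
    rw [Measure.add_apply, Measure.restrict_apply hA, Measure.restrict_apply hA,
      ← measure_inter_add_diff A hE]
    refine add_le_add ?_ (hle e' he' _)
    rw [← volC_inter μ e' (hA.inter hE), volC_change he he' μ
      ((hA.inter hE).inter e'.open_source.measurableSet)
      (inter_subset_left.trans (inter_subset_right.trans h1)) inter_subset_right]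
    exact measure_mono inter_subset_left
  have h3 := h2 E
  rw [Measure.add_apply, Measure.restrict_apply hE, Measure.restrict_apply hE, inter_self,
    inter_compl_self, measure_empty, add_zero] at h3
  exact h3

theorem vol_restrict {e : Ch X} (he : e ∈ atlas E4 X) (μ : Form X 4) :
    (vol μ).restrict e.source = volC μ e := by
  ext A hA
  rw [Measure.restrict_apply hA, vol_apply he μ (hA.inter e.open_source.measurableSet)
    inter_subset_right, volC_inter μ e hA]

theorem locallyFinite_vol (hμ : HS.Smooth μ) : IsLocallyFiniteMeasure (vol μ) := by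
  refine ⟨fun x => ?_⟩
  set e := chartAt E4 x with hedef
  have he : e ∈ atlas E4 X := chart_mem_atlas E4 x
  have hx : x ∈ e.source := mem_chart_source E4 x
  obtain ⟨r, hr, hball⟩ := Metric.nhds_basis_closedBall.mem_iff.1
    (e.open_target.mem_nhds (e.map_source hx))
  have hO : IsOpen (e.source ∩ e ⁻¹' Metric.ball (e x) r) :=
    e.isOpen_inter_preimage Metric.isOpen_ball
  refine ⟨e.source ∩ e ⁻¹' Metric.ball (e x) r, hO.mem_nhds ⟨hx, Metric.mem_ball_self hr⟩, ?_⟩
  rw [vol_apply he μ hO.measurableSet inter_subset_left, volC_apply μ e hO.measurableSet]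
  have hsub : e.symm ⁻¹' (e.source ∩ e ⁻¹' Metric.ball (e x) r) ∩ e.target ⊆
      Metric.closedBall (e x) r := by
    rintro z ⟨h1, h2⟩
    have h3 := h1.2
    rw [mem_preimage, e.right_inv h2] at h3
    exact Metric.ball_subset_closedBall h3
  refine (lintegral_mono_set hsub).trans_lt ?_
  have hc : ContinuousOn (fun z => |mC e μ z|) (Metric.closedBall (e x) r) :=
    ((continuousOn_mC hμ he).mono hball).abs
  have hi : IntegrableOn (fun z => |mC e μ z|) (Metric.closedBall (e x) r) :=
    hc.integrableOn_compact (isCompact_closedBall _ _)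
  exact hi.lintegral_lt_top

theorem finite_vol [CompactSpace X] (hμ : HS.Smooth μ) : IsFiniteMeasure (vol μ) := by
  have := locallyFinite_vol hμ
  infer_instance

/-- **integrals in a chart** -/
theorem integral_chart (hμ : HS.Smooth μ) {e : Ch X} (he : e ∈ atlas E4 X) {f : X → ℝ}
    (hf : ContinuousOn f e.source) (h0 : ∀ x, x ∉ e.source → f x = 0) :
    ∫ x, f x ∂(vol μ) = ∫ z in e.target, |mC e μ z| * f (e.symm z) := by
  have hm : AEStronglyMeasurable f (volC μ e) := by
    rw [← vol_restrict he μ]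
    exact hf.aestronglyMeasurable e.open_source.measurableSet
  rw [← setIntegral_eq_integral_of_forall_compl_eq_zero h0, vol_restrict he μ]
  have h1 := integral_map (aemeasurable_symm μ e) hm
  rw [volC, h1, integral_withDensity_eq_integral_toReal_smul₀]
  · refine integral_congr_ae (Eventually.of_forall fun z => ?_)
    simp only [ENNReal.toReal_ofReal (abs_nonneg _), smul_eq_mul]
  · exact ENNReal.measurable_ofReal.comp_aemeasurable
      ((continuousOn_mC hμ he).abs.aemeasurable e.open_target.measurableSet)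
  · exact Eventually.of_forall fun z => ENNReal.ofReal_lt_top

variable [CompactSpace X]

theorem integrable_of_cont (hμ : HS.Smooth μ) {f : X → ℝ} (hf : Continuous f) :
    Integrable f (vol μ) := by
  have := finite_vol hμ
  exact hf.integrable_of_hasCompactSupport (HasCompactSupport.of_compactSpace f)

theorem integrable_q4 (hμ : Volume μ) {A : RF X 4} (hA : ∀ x, SmAt A x) :
    Integrable (q4 μ A) (vol μ) := integrable_of_cont hμ.smooth (continuous_q4 hμ hA)

theorem I4_add (hμ : Volume μ) {A B : RF X 4} (hA : ∀ x, SmAt A x) (hB : ∀ x, SmAt B x) :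
    I4 μ (A + B) = I4 μ A + I4 μ B := by
  unfold I4
  simp only [q4_add]
  exact integral_add (integrable_q4 hμ hA) (integrable_q4 hμ hB)

omit [IsManifold (𝓡 4) ∞ X] [BorelSpace X] [CompactSpace X] in
theorem I4_smul (μ : Form X 4) (c : ℝ) (A : RF X 4) : I4 μ (c • A) = c * I4 μ A := by
  unfold I4
  simp only [q4_smul]
  exact integral_const_mul _ _

omit [IsManifold (𝓡 4) ∞ X] [BorelSpace X] [CompactSpace X] in
theorem I4_zero (μ : Form X 4) : I4 μ 0 = 0 := by
  have := I4_smul μ 0 0
  rwa [zero_smul, zero_mul] at this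

theorem I4_sum (hμ : Volume μ) {ι : Type*} (s : Finset ι) {A : ι → RF X 4}
    (hA : ∀ i ∈ s, ∀ x, SmAt (A i) x) : I4 μ (∑ i ∈ s, A i) = ∑ i ∈ s, I4 μ (A i) := by
  classical
  induction s using Finset.induction_on with
  | empty => simp [I4_zero]
  | insert i s hi ih =>
    rw [Finset.sum_insert hi, Finset.sum_insert hi, I4_add hμ (hA i (Finset.mem_insert_self _ _))
      (fun x => smAt_sum s fun j hj => hA j (Finset.mem_insert_of_mem hj) x),
      ih fun j hj => hA j (Finset.mem_insert_of_mem hj)]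

omit [CompactSpace X] in
/-- the integral of a top form supported in a part of a chart with orientation sign `σ` -/
theorem I4_chart (hμ : Volume μ) {e : Ch X} (he : e ∈ atlas E4 X) {A : RF X 4}
    (hA : ∀ x, SmAt A x) (h0 : ∀ x, x ∉ e.source → A x = 0) {σ : ℝ}
    (hσ : ∀ z ∈ e.target, A (e.symm z) ≠ 0 → |mC e μ z| = σ * mC e μ z) :
    I4 μ A = σ * ∫ z in e.target, H175.loc e A z bas := by
  rw [I4, integral_chart hμ.smooth he (continuous_q4 hμ hA).continuousOn
    (fun x hx => q4_of_zero μ (h0 x hx)), ← integral_const_mul]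
  refine setIntegral_congr_fun e.open_target.measurableSet fun z hz => ?_
  rw [q4_chart hμ he A hz]
  by_cases h : A (e.symm z) = 0
  · have h1 : H175.loc e A z = 0 := by
      rw [H175.loc, h]
      rfl
    simp [h1]
  · rw [hσ z hz h]
    field_simp [mC_ne hμ he hz]

/-! ### bilinearity of the pairing -/

theorem pair_add_left (hμ : Volume μ) {α α' β : Form X 2} (h : HS.Smooth α) (h' : HS.Smooth α')
    (hβ : HS.Smooth β) : pair μ (fun x => α x + α' x) β = pair μ α β + pair μ α' β := by
  rw [pair_eq, pair_eq, pair_eq, ← I4_add hμ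
    (fun x => smAt_W22 (smooth_iff.1 h x) (smooth_iff.1 hβ x))
    (fun x => smAt_W22 (smooth_iff.1 h' x) (smooth_iff.1 hβ x))]
  congr 1
  funext x
  exact w22_add_left _ _ _

omit [IsManifold (𝓡 4) ∞ X] [BorelSpace X] [CompactSpace X] in
theorem pair_smul_left (μ : Form X 4) (c : ℝ) (α β : Form X 2) :
    pair μ (fun x => c • α x) β = c * pair μ α β := by
  rw [pair_eq, pair_eq, ← I4_smul]
  congr 1
  funext x
  exact w22_smul_left _ _ _

theorem pair_sum_left (hμ : Volume μ) {ι : Type*} (s : Finset ι) {α : ι → Form X 2} {β : Form X 2}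
    (h : ∀ i ∈ s, HS.Smooth (α i)) (hβ : HS.Smooth β) :
    pair μ (fun x => ∑ i ∈ s, α i x) β = ∑ i ∈ s, pair μ (α i) β := by
  simp only [pair_eq]
  rw [← I4_sum hμ s fun i hi x => smAt_W22 (smooth_iff.1 (h i hi) x) (smooth_iff.1 hβ x)]
  congr 1
  funext x
  rw [Finset.sum_apply]
  exact w22_sum_left s (fun i => rf (α i) x) (rf β x)

end Vale.Agent.P247M
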