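import Vale.Agent.P290Z.Lat.Spec

/-!
# P247, block L: the linear algebra (unimodularity, rank and signature)
-/

open Matrix

noncomputable section

namespace Vale.Agent.P247M

open Vale.Agent.P290.H726
open Vale.Agent.P290Z.Lat (Sig)

theorem unimod_of_dual {Z V : Type*} [AddCommGroup Z] [Module.Finite ℤ Z] [AddCommGroup V]
    [Module ℝ V] (cl : Z →+ V) (B : Z → Z → ℝ) (hadd : ∀ n m m', B n (m + m') = B n m + B n m')
    (hker : ∀ n m, cl m = 0 → B n m = 0)
    (dual : ∀ φ : Z →+ ℤ, (∀ n, cl n = 0 → φ n = 0) → ∃ m, ∀ n, B n m = φ n)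
    (int : ∀ n m, ∃ k : ℤ, B n m = k) :
    ∃ (r : ℕ) (E : Fin r → Z) (G : Matrix (Fin r) (Fin r) ℤ),
      (∀ i j, B (E i) (E j) = G i j) ∧ IsUnit G.det ∧
      ∀ n, ∃ k : Fin r → ℤ, cl n = ∑ i, k i • cl (E i) := by
  classical
  have t1 : Module.IsTorsionFree ℤ V := Module.IsTorsionFree.of_smul_eq_zero fun n h hn => by
    rw [← Int.cast_smul_eq_zsmul ℝ, smul_eq_zero] at hn
    exact hn.imp_left fun h => by exact_mod_cast h
  let B' : Z → Z →+ ℝ := fun n => AddMonoidHom.mk' (B n) (hadd n)
  let c : Z →ₗ[ℤ] V := cl.toIntLinearMap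
  let Λ : Submodule ℤ V := LinearMap.range c
  have t2 : Module.Finite ℤ Λ := inferInstance
  have t3 : Module.Free ℤ Λ := inferInstance
  let b := Module.finBasis ℤ Λ
  set r := Module.finrank ℤ Λ
  have hE : ∀ i, ∃ n, cl n = (b i : V) := fun i => (b i).2
  choose E hE using hE
  choose G hG using fun i j => int (E i) (E j)
  have hd : ∀ i, ∃ m, ∀ n, B n m = ((b.coord i (c.rangeRestrict n) : ℤ) : ℝ) := by
    intro i
    refine dual ((b.coord i).comp c.rangeRestrict).toAddMonoidHom fun n hn => ?_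
    have : c.rangeRestrict n = 0 := Subtype.ext hn
    change b.coord i (c.rangeRestrict n) = 0
    rw [this, map_zero]
  choose m hm using hd
  let A : Matrix (Fin r) (Fin r) ℤ := Matrix.of fun k i => b.coord k (c.rangeRestrict (m i))
  have hcl : ∀ n, cl n = ∑ k, b.coord k (c.rangeRestrict n) • cl (E k) := by
    intro n
    have h1 := b.sum_repr (c.rangeRestrict n)
    have h2 := congrArg (Submodule.subtype Λ) h1
    rw [map_sum] at h2
    simp only [map_smul, Submodule.subtype_apply, ← hE] at h2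
    exact h2.symm
  have hB : ∀ n n', B n n' = ∑ k, b.coord k (c.rangeRestrict n') • B n (E k) := by
    intro n n'
    have h1 : cl (n' - ∑ k, b.coord k (c.rangeRestrict n') • E k) = 0 := by
      rw [map_sub, map_sum]
      simp only [map_zsmul]
      rw [← hcl n', sub_self]
    have h2 : B' n _ = 0 := hker n _ h1
    rw [map_sub, map_sum] at h2
    simp only [map_zsmul] at h2
    exact sub_eq_zero.1 h2
  have hGA : Matrix.of G * A = 1 := by
    ext j i
    rw [Matrix.mul_apply, Matrix.one_apply]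
    have h1 := hm i (E j)
    rw [hB] at h1
    simp only [hG] at h1
    have h2 : c.rangeRestrict (E j) = b j := Subtype.ext (hE j)
    rw [h2, Module.Basis.coord_apply, Module.Basis.repr_self, Finsupp.single_apply] at h1
    have h3 : ((∑ k, Matrix.of G j k * A k i : ℤ) : ℝ) = ((if j = i then 1 else 0 : ℤ) : ℝ) := by
      rw [← h1]
      push_cast
      refine Finset.sum_congr rfl fun k _ => ?_
      simp only [A, Matrix.of_apply, zsmul_eq_mul]
      ring
    exact_mod_cast h3
  exact ⟨r, E, Matrix.of G, hG,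
    IsUnit.of_mul_eq_one _ (by rw [← Matrix.det_mul, hGA, Matrix.det_one]), fun n => ⟨_, hcl n⟩⟩

section sig

variable {ι : Type} [Fintype ι] (G : Matrix ι ι ℤ)

/-- the form as a bilinear map -/
def bl : (ι → ℝ) →ₗ[ℝ] (ι → ℝ) →ₗ[ℝ] ℝ :=
  LinearMap.mk₂ ℝ (bil G) (bil_add_left G) (bil_smul_left G) (bil_add_right G) (bil_smul_right G)

theorem bil_sum {n : ℕ} (c : Fin n → ι → ℝ) (t : Fin n → ℝ) (y : ι → ℝ) :
    bil G (∑ j, t j • c j) y = ∑ j, t j * bil G (c j) y := by
  show bl G _ y = _
  rw [map_sum, LinearMap.sum_apply]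
  exact Finset.sum_congr rfl fun j _ => bil_smul_left G _ _ _

theorem bil_sum' {n : ℕ} (c : Fin n → ι → ℝ) (t : Fin n → ℝ) (y : ι → ℝ) :
    bil G y (∑ j, t j • c j) = ∑ j, t j * bil G y (c j) := by
  show bl G y _ = _
  rw [map_sum]
  exact Finset.sum_congr rfl fun j _ => bil_smul_right G _ _ _

variable {G} (hG : ∀ i j, G i j = G j i)
include hG

theorem gram_iff (s : ℝ) {n : ℕ} (c : Fin n → ι → ℝ) :
    (Matrix.of fun i j => s * bil G (c i) (c j)).PosDef ↔
      ∀ t : Fin n → ℝ, t ≠ 0 → 0 < s * bil G (∑ j, t j • c j) (∑ j, t j • c j) := by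
  have h : ∀ t : Fin n → ℝ, star t ⬝ᵥ ((Matrix.of fun i j => s * bil G (c i) (c j)) *ᵥ t) =
      s * bil G (∑ j, t j • c j) (∑ j, t j • c j) := by
    intro t
    rw [bil_sum]
    simp only [bil_sum', dotProduct, mulVec, star_trivial, Matrix.of_apply, Finset.mul_sum]
    exact Finset.sum_congr rfl fun i _ => Finset.sum_congr rfl fun j _ => by ring
  rw [Matrix.posDef_iff_dotProduct_mulVec]
  simp only [h]
  refine ⟨fun h' t ht => h'.2 ht, fun h' => ⟨?_, fun t ht => h' t ht⟩⟩
  ext i j
  simp only [conjTranspose_apply, Matrix.of_apply, star_trivial, bil_symm G hG (c j)]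

variable [DecidableEq ι]

theorem sig_three (hu : IsUnit G.det) (a : Fin 3 → ι → ℝ)
    (ha : ∀ t : Fin 3 → ℝ, t ≠ 0 → 0 < bil G (∑ j, t j • a j) (∑ j, t j • a j))
    (h4 : ¬ ∃ c : Fin 4 → ι → ℝ, ∀ t : Fin 4 → ℝ, t ≠ 0 →
      0 < bil G (∑ j, t j • c j) (∑ j, t j • c j))
    (x : ι → ℝ) (hx : x ≠ 0) (hxa : ∀ j, bil G x (a j) = 0) : bil G x x < 0 := by
  have h1 : ∀ y, (∀ j, bil G y (a j) = 0) → bil G y y ≤ 0 := by
    intro y hy
    by_contra hpos
    refine h4 ⟨Fin.cons y a, fun t ht => ?_⟩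
    rw [Fin.sum_univ_succ]
    simp only [Fin.cons_zero, Fin.cons_succ]
    set p := ∑ j : Fin 3, t j.succ • a j with hp
    have h2 : bil G y p = 0 := by
      rw [hp, bil_sum']
      simp [hy]
    rw [bil_add_left, bil_add_right, bil_add_right, bil_smul_left, bil_smul_left, bil_smul_right,
      bil_smul_right, bil_symm G hG p y, h2]
    by_cases h3 : (fun j : Fin 3 => t j.succ) = 0
    · have h5 : t 0 ≠ 0 := by
        intro h5
        apply ht
        funext j
        exact Fin.cases h5 (fun j => congrFun h3 j) j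
      have h6 : p = 0 := Finset.sum_eq_zero fun j _ => by
        rw [show t j.succ = 0 from congrFun h3 j, zero_smul]
      rw [h6, bil_zero_left]
      have := mul_pos (mul_self_pos.2 h5) (not_le.1 hpos)
      linarith
    · have h5 := ha _ h3
      have := mul_nonneg (mul_self_nonneg (t 0)) (not_le.1 hpos).le
      linarith
  refine lt_of_le_of_ne (h1 x hxa) fun h0 => hx ?_
  have hM : (Matrix.of fun i j => (1 : ℝ) * bil G (a i) (a j)).PosDef :=
    (gram_iff hG 1 a).2 fun t ht => by rw [one_mul]; exact ha t ht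
  have h2 : ∀ y, bil G x y = 0 := by
    intro y
    obtain ⟨t, ht⟩ := Matrix.mulVec_surjective_iff_isUnit.2 hM.isUnit fun i => bil G (a i) y
    set n := y - ∑ j, t j • a j with hn
    have h3 : ∀ j, bil G n (a j) = 0 := by
      intro j
      have h5 := congrFun ht j
      simp only [mulVec, dotProduct, Matrix.of_apply, one_mul] at h5
      rw [bil_symm G hG, hn, bil_sub_right, bil_sum', ← h5, sub_eq_zero]
      exact Finset.sum_congr rfl fun k _ => mul_comm _ _
    have h5 : bil G x y = bil G x n := by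
      rw [hn, bil_sub_right, bil_sum']
      simp [hxa]
    rw [h5]
    by_contra h6
    have h7 := h1 (n + ((1 - bil G n n) / (2 * bil G x n)) • x) fun j => by
      rw [bil_add_left, bil_smul_left, h3, hxa, mul_zero, add_zero]
    rw [bil_add_left, bil_add_right, bil_add_right, bil_smul_left, bil_smul_left, bil_smul_right,
      bil_smul_right, h0, bil_symm G hG n x] at h7
    have h8 : (1 - bil G n n) / (2 * bil G x n) * bil G x n = (1 - bil G n n) / 2 := by
      field_simp
    rw [h8] at h7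
    linarith
  have hdet : (G.map (Int.cast : ℤ → ℝ)).det ≠ 0 := by
    rw [← Int.cast_det]
    exact_mod_cast hu.ne_zero
  refine Matrix.eq_zero_of_vecMul_eq_zero hdet ?_
  funext j
  have h3 := h2 (Pi.single j 1)
  simp only [bil, Pi.single_apply, mul_ite, mul_one, mul_zero, Finset.sum_ite_eq',
    Finset.mem_univ, if_true] at h3
  rw [Pi.zero_apply, ← h3]
  simp only [vecMul, dotProduct, Matrix.map_apply]
  exact Finset.sum_congr rfl fun i _ => mul_comm _ _

omit hG [DecidableEq ι] in
theorem card_ge {p q : ℕ} (a : Fin p → ι → ℝ) (b : Fin q → ι → ℝ)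
    (ha : ∀ t : Fin p → ℝ, t ≠ 0 → 0 < bil G (∑ j, t j • a j) (∑ j, t j • a j))
    (hb : ∀ t : Fin q → ℝ, t ≠ 0 → bil G (∑ j, t j • b j) (∑ j, t j • b j) < 0) :
    p + q ≤ Fintype.card ι := by
  have h : LinearIndependent ℝ (Sum.elim a b) := by
    rw [Fintype.linearIndependent_iff]
    intro t ht
    rw [Fintype.sum_sum_type] at ht
    simp only [Sum.elim_inl, Sum.elim_inr] at ht
    have h1 : bil G (∑ j, t (.inl j) • a j) (∑ j, t (.inl j) • a j) =
        bil G (∑ j, t (.inr j) • b j) (∑ j, t (.inr j) • b j) := by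
      rw [eq_neg_of_add_eq_zero_left ht, bil_neg_left, bil_neg_right, neg_neg]
    have h2 : (fun j => t (.inl j)) = 0 := by
      by_contra h2
      have h3 := ha _ h2
      by_cases h4 : (fun j => t (.inr j)) = 0
      · have h5 : ∑ j, t (.inr j) • b j = 0 := Finset.sum_eq_zero fun j _ => by
          rw [show t (.inr j) = 0 from congrFun h4 j, zero_smul]
        rw [h1, h5, bil_zero_left] at h3
        exact lt_irrefl _ h3
      · have := hb _ h4
        linarith
    have h3 : (fun j => t (.inr j)) = 0 := by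
      by_contra h3
      have h4 := hb _ h3
      have h5 : ∑ j, t (.inl j) • a j = 0 := Finset.sum_eq_zero fun j _ => by
        rw [show t (.inl j) = 0 from congrFun h2 j, zero_smul]
      rw [← h1, h5, bil_zero_left] at h4
      exact lt_irrefl _ h4
    rintro (j | j)
    · exact congrFun h2 j
    · exact congrFun h3 j
  have h1 := h.fintype_card_le_finrank
  simpa using h1

omit hG [DecidableEq ι] in
theorem card_lt {p q : ℕ} (a : Fin p → ι → ℝ)
    (hn : ∀ x : ι → ℝ, x ≠ 0 → (∀ j, bil G x (a j) = 0) → bil G x x < 0)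
    (hb : ¬ ∃ b : Fin q → ι → ℝ, ∀ t : Fin q → ℝ, t ≠ 0 →
      bil G (∑ j, t j • b j) (∑ j, t j • b j) < 0) : Fintype.card ι < p + q := by
  by_contra hc
  let φ : (ι → ℝ) →ₗ[ℝ] (Fin p → ℝ) := LinearMap.pi fun j => (bl G).flip (a j)
  have h1 := φ.finrank_range_add_finrank_ker
  have h2 : Module.finrank ℝ (LinearMap.range φ) ≤ p := by
    simpa using (LinearMap.range φ).finrank_le
  have h3 : q ≤ Module.finrank ℝ (LinearMap.ker φ) := by
    rw [Module.finrank_fintype_fun_eq_card] at h1
    omega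
  obtain ⟨f, hf⟩ := exists_linearIndependent_of_le_finrank h3
  refine hb ⟨fun j => f j, fun t ht => hn _ (fun h0 => ht ?_) fun j => ?_⟩
  · funext j
    refine Fintype.linearIndependent_iff.1 hf t (Subtype.ext ?_) j
    simpa using h0
  · have h4 : (∑ j, t j • (f j : ι → ℝ)) ∈ LinearMap.ker φ :=
      Submodule.sum_mem _ fun j _ => Submodule.smul_mem _ _ (f j).2
    exact congrFun h4 j

end sig

end Vale.Agent.P247M
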