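import Vale.Agent.P247.SCY.Stmt
import Vale.Agent.P267.H175.RLoc

/-!
# P247, block L: calculus of forms on the statement layer `HS`

Forms are plain functions `X → Alt k`; `SmAt` (smooth at a point) and `dF` (exterior derivative)
come from `P267.H175`.
-/

set_option linter.unusedSectionVars false

open scoped Manifold ContDiff Topology
open Set Filter

noncomputable section

namespace Vale.Agent.P247M

open Vale.Agent.P247.SCY Vale.Agent.P247.SCY.HS
open Vale.Agent.P267.H175 (SmAt dF)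
open Vale.Agent.P267

/-- alternating forms on the model space -/
abbrev Alt (k : ℕ) := E4 [⋀^Fin k]→L[ℝ] ℝ

/-- forms as plain functions -/
abbrev RF (X : Type*) (k : ℕ) := X → Alt k

/-- charts -/
abbrev Ch (X : Type*) [TopologicalSpace X] := OpenPartialHomeomorph X E4

/-! ### algebra -/

/-- a linear form as a one-form -/
def one : (E4 →L[ℝ] ℝ) →L[ℝ] Alt 1 :=
  (ContinuousAlternatingMap.ofSubsingletonLIE (𝕜 := ℝ) (E := E4) (F := ℝ)
    (0 : Fin 1)).toContinuousLinearEquiv.toContinuousLinearMap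

theorem one_apply (a : E4 →L[ℝ] ℝ) (v : Fin 1 → E4) : one a v = a (v 0) := rfl

/-- the linear form of a one-form -/
def unone : Alt 1 →L[ℝ] (E4 →L[ℝ] ℝ) :=
  (ContinuousAlternatingMap.ofSubsingletonLIE (𝕜 := ℝ) (E := E4) (F := ℝ)
    (0 : Fin 1)).symm.toContinuousLinearEquiv.toContinuousLinearMap

theorem one_unone (a : Alt 1) : one (unone a) = a :=
  (ContinuousAlternatingMap.ofSubsingletonLIE (𝕜 := ℝ) (E := E4) (F := ℝ)
    (0 : Fin 1)).apply_symm_apply a

theorem unone_one (a : E4 →L[ℝ] ℝ) : unone (one a) = a :=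
  (ContinuousAlternatingMap.ofSubsingletonLIE (𝕜 := ℝ) (E := E4) (F := ℝ)
    (0 : Fin 1)).symm_apply_apply a

theorem unone_apply (a : Alt 1) (v : E4) : unone a v = a ![v] := by
  conv_rhs => rw [← one_unone a]
  rfl

theorem one_comp (a : E4 →L[ℝ] ℝ) (L : E4 →L[ℝ] E4) :
    (one a).compContinuousLinearMap L = one (a.comp L) := by
  ext v
  rfl

/-- the product of a linear form and a `k`-form -/
def wd {k : ℕ} (a : E4 →L[ℝ] ℝ) (b : Alt k) : Alt (k + 1) :=
  ContinuousAlternatingMap.alternatizeUncurryFin (a.smulRight b)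

theorem wd_apply {k : ℕ} (a : E4 →L[ℝ] ℝ) (b : Alt k) (v : Fin (k + 1) → E4) :
    wd a b v = ∑ i : Fin (k + 1), (-1) ^ (i : ℕ) * (a (v i) * b (Fin.removeNth i v)) := by
  rw [wd, ContinuousAlternatingMap.alternatizeUncurryFin_apply]
  refine Finset.sum_congr rfl fun i _ => ?_
  simp

theorem wd_add_left {k : ℕ} (a a' : E4 →L[ℝ] ℝ) (b : Alt k) : wd (a + a') b = wd a b + wd a' b := by
  ext v
  simp only [wd_apply, ContinuousAlternatingMap.add_apply, ContinuousLinearMap.add_apply,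
    ← Finset.sum_add_distrib]
  exact Finset.sum_congr rfl fun i _ => by ring

theorem wd_add_right {k : ℕ} (a : E4 →L[ℝ] ℝ) (b b' : Alt k) : wd a (b + b') = wd a b + wd a b' := by
  ext v
  simp only [wd_apply, ContinuousAlternatingMap.add_apply, ← Finset.sum_add_distrib]
  exact Finset.sum_congr rfl fun i _ => by ring

theorem wd_smul_left {k : ℕ} (c : ℝ) (a : E4 →L[ℝ] ℝ) (b : Alt k) : wd (c • a) b = c • wd a b := by
  ext v
  simp only [wd_apply, ContinuousAlternatingMap.smul_apply, ContinuousLinearMap.smul_apply,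
    smul_eq_mul, Finset.mul_sum]
  exact Finset.sum_congr rfl fun i _ => by ring

theorem wd_smul_right {k : ℕ} (c : ℝ) (a : E4 →L[ℝ] ℝ) (b : Alt k) : wd a (c • b) = c • wd a b := by
  ext v
  simp only [wd_apply, ContinuousAlternatingMap.smul_apply, smul_eq_mul, Finset.mul_sum]
  exact Finset.sum_congr rfl fun i _ => by ring

theorem wd_zero_left {k : ℕ} (b : Alt k) : wd 0 b = 0 := by
  ext v
  simp [wd_apply]

theorem wd_zero_right {k : ℕ} (a : E4 →L[ℝ] ℝ) : wd a (0 : Alt k) = 0 := by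
  ext v
  simp [wd_apply]

theorem wd_sum_left {k : ℕ} {ι : Type*} (s : Finset ι) (a : ι → E4 →L[ℝ] ℝ) (b : Alt k) :
    wd (∑ i ∈ s, a i) b = ∑ i ∈ s, wd (a i) b := by
  classical
  induction s using Finset.induction_on with
  | empty => simp [wd_zero_left]
  | insert i s hi ih => rw [Finset.sum_insert hi, Finset.sum_insert hi, wd_add_left, ih]

theorem wd_sum_right {k : ℕ} {ι : Type*} (s : Finset ι) (a : E4 →L[ℝ] ℝ) (b : ι → Alt k) :
    wd a (∑ i ∈ s, b i) = ∑ i ∈ s, wd a (b i) := by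
  classical
  induction s using Finset.induction_on with
  | empty => simp [wd_zero_right]
  | insert i s hi ih => rw [Finset.sum_insert hi, Finset.sum_insert hi, wd_add_right, ih]

/-- the product of two linear forms -/
theorem wd_one (a b : E4 →L[ℝ] ℝ) (u v : E4) : wd a (one b) ![u, v] = a u * b v - a v * b u := by
  rw [wd_apply, Fin.sum_univ_two]
  simp [one_apply, Fin.removeNth]
  ring

theorem wd_one' (a : E4 →L[ℝ] ℝ) (b : Alt 1) (u v : E4) :
    wd a b ![u, v] = a u * b ![v] - a v * b ![u] := by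
  conv_lhs => rw [← one_unone b]
  rw [wd_one, unone_apply, unone_apply]

theorem wd_comp {k : ℕ} (a : E4 →L[ℝ] ℝ) (b : Alt k) (L : E4 →L[ℝ] E4) :
    (wd a b).compContinuousLinearMap L = wd (a.comp L) (b.compContinuousLinearMap L) := by
  ext v
  rw [ContinuousAlternatingMap.compContinuousLinearMap_apply, wd_apply, wd_apply]
  rfl

/-- two-forms are determined by their values on pairs -/
theorem alt2_ext {a b : Alt 2} (h : ∀ u v, a ![u, v] = b ![u, v]) : a = b := by
  ext v
  have : v = ![v 0, v 1] := by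
    funext i
    fin_cases i <;> rfl
  rw [this]
  exact h _ _

theorem alt1_ext {a b : Alt 1} (h : ∀ u, a ![u] = b ![u]) : a = b := by
  ext v
  have : v = ![v 0] := by
    funext i
    fin_cases i
    rfl
  rw [this]
  exact h _

theorem alt2_swap (a : Alt 2) (u v : E4) : a ![v, u] = -a ![u, v] := by
  have h := a.toAlternatingMap.map_swap ![u, v] (i := 0) (j := 1) (by decide)
  have e : (![u, v] ∘ Equiv.swap (0 : Fin 2) 1) = ![v, u] := by
    funext i
    fin_cases i <;> rfl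
  rw [e] at h
  exact h

theorem alt2_self (a : Alt 2) (u : E4) : a ![u, u] = 0 := by
  have := alt2_swap a u u
  linarith

/-! ### the two kinds of local expressions agree -/

variable {X : Type*} [TopologicalSpace X] [ChartedSpace E4 X] {k : ℕ}

theorem symm_self (x : X) : (chartAt E4 x).symm (chartAt E4 x x) = x :=
  (chartAt E4 x).left_inv (mem_chart_source E4 x)

theorem tendsto_symm {e : Ch X} {x : X} (hx : x ∈ e.source) :
    Tendsto e.symm (𝓝 (e x)) (𝓝 x) := by
  have h := e.continuousAt_symm (e.map_source hx)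
  rwa [ContinuousAt, e.left_inv hx] at h

/-- a form of the statement layer as a plain function -/
def rf (α : Form X k) : RF X k := fun x => α x

/-- a plain function as a form of the statement layer -/
def hs (a : RF X k) : Form X k := fun x => a x

@[simp] theorem rf_hs (a : RF X k) : rf (hs a) = a := rfl

@[simp] theorem hs_rf (α : Form X k) : hs (rf α) = α := rfl

theorem rf_add (α β : Form X k) : rf (fun x => α x + β x) = rf α + rf β := rfl

theorem rf_sub (α β : Form X k) : rf (fun x => α x - β x) = rf α - rf β := rfl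

theorem rf_smul (c : ℝ) (α : Form X k) : rf (fun x => c • α x) = c • rf α := rfl

theorem rf_zero : rf (fun _ => 0 : Form X k) = 0 := rfl

theorem rf_sum {ι : Type*} (s : Finset ι) (α : ι → Form X k) :
    rf (fun x => ∑ i ∈ s, α i x) = ∑ i ∈ s, rf (α i) := by
  funext x
  rw [Finset.sum_apply]
  rfl

theorem rf_inj {α β : Form X k} (h : rf α = rf β) : α = β := h

variable [IsManifold (𝓡 4) ∞ X]

theorem mfderiv_symm {e : Ch X} (he : e ∈ atlas E4 X) {z : E4} (hz : z ∈ e.target) :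
    (mfderiv (𝓡 4) (𝓡 4) e.symm z : E4 →L[ℝ] E4) =
      fderiv ℝ (fun y => chartAt E4 (e.symm z) (e.symm y)) z := by
  have h : MDifferentiableAt (𝓡 4) (𝓡 4) e.symm z := mdifferentiableAt_atlas_symm he hz
  rw [h.mfderiv]
  simp [writtenInExtChartAt, Function.comp_def, fderivWithin_univ, chartAt_self_eq]
  rfl

theorem loc_eq {e : Ch X} (he : e ∈ atlas E4 X) (α : Form X k) {z : E4} (hz : z ∈ e.target) :
    HS.loc e α z = H175.loc e (rf α) z := by
  have h := mfderiv_symm he hz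
  unfold HS.loc H175.loc
  rw [← h]
  rfl

theorem loc_ev {e : Ch X} (he : e ∈ atlas E4 X) (α : Form X k) {z : E4} (hz : z ∈ e.target) :
    HS.loc e α =ᶠ[𝓝 z] H175.loc e (rf α) := by
  filter_upwards [e.open_target.mem_nhds hz] with y hy
  exact loc_eq he α hy

theorem smooth_iff {α : Form X k} : HS.Smooth α ↔ ∀ x, SmAt (rf α) x := by
  constructor
  · intro h x
    have h1 := (h _ (chart_mem_atlas E4 x)).contDiffAt
      ((chartAt E4 x).open_target.mem_nhds (mem_chart_target E4 x))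
    exact h1.congr_of_eventuallyEq
      (loc_ev (chart_mem_atlas E4 x) α (mem_chart_target E4 x)).symm
  · intro h e he z hz
    have h1 := (H175.smAt_iff he (e.map_target hz)).1 (h (e.symm z))
    rw [e.right_inv hz] at h1
    exact (h1.congr_of_eventuallyEq (loc_ev he α hz)).contDiffWithinAt

theorem extDeriv_loc {e : Ch X} (he : e ∈ atlas E4 X) {α : Form X k} {z : E4}
    (hz : z ∈ e.target) (hα : SmAt (rf α) (e.symm z)) :
    extDeriv (HS.loc e α) z = H175.loc e (dF (rf α)) z := by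
  rw [(loc_ev he α hz).extDeriv_eq]
  exact (H175.loc_dF he hz hα).symm

theorem loc_self (α : Form X k) (x : X) :
    HS.loc (chartAt E4 x) α (chartAt E4 x x) = rf α x := by
  rw [loc_eq (chart_mem_atlas E4 x) α (mem_chart_target E4 x)]
  exact H175.loc_self (rf α) x

theorem closed_iff {α : Form X k} (hα : HS.Smooth α) :
    HS.Closed α ↔ ∀ x, dF (rf α) x = 0 := by
  have hsm := smooth_iff.1 hα
  constructor
  · intro h x
    have h1 := h _ (chart_mem_atlas E4 x) _ (mem_chart_target E4 x)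
    rw [extDeriv_loc (chart_mem_atlas E4 x) (mem_chart_target E4 x) (hsm _), H175.loc_self] at h1
    exact h1
  · intro h e he z hz
    rw [extDeriv_loc he hz (hsm _), H175.loc, h]
    rfl

theorem exact_iff {α : Form X 2} :
    HS.Exact α ↔ ∃ η : RF X 1, (∀ x, SmAt η x) ∧ dF η = rf α := by
  constructor
  · rintro ⟨η, h1, h2⟩
    have hsm := smooth_iff.1 h1
    refine ⟨rf η, hsm, funext fun x => ?_⟩
    have h3 := h2 _ (chart_mem_atlas E4 x) _ (mem_chart_target E4 x)
    rw [extDeriv_loc (chart_mem_atlas E4 x) (mem_chart_target E4 x) (hsm _), loc_self,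
      H175.loc_self] at h3
    exact h3
  · rintro ⟨η, h1, h2⟩
    refine ⟨hs η, smooth_iff.2 h1, fun e he z hz => ?_⟩
    rw [extDeriv_loc (α := hs η) he hz (h1 _), loc_eq he α hz, rf_hs, h2]

/-! ### more on `SmAt` and `dF` -/

section sm

variable {a b : RF X k} {x : X}

omit [IsManifold (𝓡 4) ∞ X] in
theorem smAt_neg (ha : SmAt a x) : SmAt (-a) x := by
  have h : -a = (-1 : ℝ) • a := by
    funext y
    ext v
    simp
  rw [h]
  exact ha.smul (-1)

omit [IsManifold (𝓡 4) ∞ X] in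
theorem smAt_sub (ha : SmAt a x) (hb : SmAt b x) : SmAt (a - b) x := by
  rw [sub_eq_add_neg]
  exact ha.add (smAt_neg hb)

omit [IsManifold (𝓡 4) ∞ X] in
theorem smAt_sum {ι : Type*} (s : Finset ι) {a : ι → RF X k} (h : ∀ i ∈ s, SmAt (a i) x) :
    SmAt (∑ i ∈ s, a i) x :=
  Finset.sum_induction _ (fun g => SmAt g x) (fun _ _ => H175.SmAt.add) (H175.smAt_zero x) h

omit [IsManifold (𝓡 4) ∞ X] in
theorem dF_zero (x : X) : dF (0 : RF X k) x = 0 := by
  have := H175.dF_smul (0 : ℝ) (0 : RF X k) x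
  rwa [zero_smul, zero_smul] at this

omit [IsManifold (𝓡 4) ∞ X] in
theorem dF_neg (a : RF X k) (x : X) : dF (-a) x = -dF a x := by
  have h : -a = (-1 : ℝ) • a := by
    funext y
    ext v
    simp
  rw [h, H175.dF_smul]
  ext v
  simp

omit [IsManifold (𝓡 4) ∞ X] in
theorem dF_sub (ha : SmAt a x) (hb : SmAt b x) : dF (a - b) x = dF a x - dF b x := by
  rw [sub_eq_add_neg, H175.dF_add ha (smAt_neg hb), dF_neg, sub_eq_add_neg]

omit [IsManifold (𝓡 4) ∞ X] in
theorem dF_sum {ι : Type*} (s : Finset ι) {a : ι → RF X k} (h : ∀ i ∈ s, SmAt (a i) x) :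
    dF (∑ i ∈ s, a i) x = ∑ i ∈ s, dF (a i) x := by
  classical
  induction s using Finset.induction_on with
  | empty => simp [dF_zero]
  | insert i s hi ih =>
    rw [Finset.sum_insert hi, Finset.sum_insert hi,
      H175.dF_add (h i (Finset.mem_insert_self _ _))
        (smAt_sum s fun j hj => h j (Finset.mem_insert_of_mem hj)),
      ih fun j hj => h j (Finset.mem_insert_of_mem hj)]

omit [IsManifold (𝓡 4) ∞ X] in
theorem smAt_of_zero (h : ∀ᶠ y in 𝓝 x, a y = 0) : SmAt a x :=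
  (H175.smAt_zero x).congr h

omit [IsManifold (𝓡 4) ∞ X] in
theorem dF_of_zero (h : ∀ᶠ y in 𝓝 x, a y = 0) : dF a x = 0 := by
  rw [H175.dF_congr (b := 0) h, dF_zero]

theorem smAt_dF' (ha : ∀ x, SmAt a x) (x : X) : SmAt (dF a) x :=
  H175.smAt_dF isOpen_univ (fun y _ => ha y) (mem_univ x)

theorem dF_dF' (ha : ∀ x, SmAt a x) (x : X) : dF (dF a) x = 0 :=
  H175.dF_dF isOpen_univ (fun y _ => ha y) (mem_univ x)

end sm

/-! ### functions -/

section fn

/-- smooth at a point -/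
abbrev SmF (f : X → ℝ) (x : X) : Prop := ContMDiffAt (𝓡 4) 𝓘(ℝ, ℝ) ∞ f x

/-- the differential of a function -/
def Df (f : X → ℝ) (x : X) : E4 →L[ℝ] ℝ :=
  fderiv ℝ (fun z => f ((chartAt E4 x).symm z)) (chartAt E4 x x)

/-- the differential as a one-form -/
def d0 (f : X → ℝ) : RF X 1 := fun x => one (Df f x)

/-- a function as a zero-form -/
def fn0 (f : X → ℝ) : RF X 0 := fun x => ContinuousAlternatingMap.constOfIsEmpty ℝ E4 (Fin 0) (f x)

variable {f g : X → ℝ} {x : X}

omit [IsManifold (𝓡 4) ∞ X] in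
theorem smF_iff : SmF f x ↔ ContinuousAt f x ∧
    ContDiffAt ℝ ∞ (fun z => f ((chartAt E4 x).symm z)) (chartAt E4 x x) := by
  rw [SmF, contMDiffAt_iff]
  simp [contDiffWithinAt_univ, Function.comp_def, chartAt_self_eq]

omit [IsManifold (𝓡 4) ∞ X] in
theorem SmF.cd (h : SmF f x) :
    ContDiffAt ℝ ∞ (fun z => f ((chartAt E4 x).symm z)) (chartAt E4 x x) := (smF_iff.1 h).2

omit [IsManifold (𝓡 4) ∞ X] in
theorem smF_of_cd (h : ContDiffAt ℝ ∞ (fun z => f ((chartAt E4 x).symm z)) (chartAt E4 x x)) :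
    SmF f x := by
  refine smF_iff.2 ⟨?_, h⟩
  have h1 : ContinuousAt (fun y => f ((chartAt E4 x).symm (chartAt E4 x y))) x :=
    h.continuousAt.comp ((chartAt E4 x).continuousAt (mem_chart_source E4 x))
  refine h1.congr ?_
  filter_upwards [(chartAt E4 x).open_source.mem_nhds (mem_chart_source E4 x)] with y hy
  rw [(chartAt E4 x).left_inv hy]

omit [IsManifold (𝓡 4) ∞ X] in
theorem SmF.diff (h : SmF f x) :
    DifferentiableAt ℝ (fun z => f ((chartAt E4 x).symm z)) (chartAt E4 x x) :=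
  h.cd.differentiableAt (by simp)

/-- smoothness in an arbitrary chart -/
theorem SmF.chart (h : SmF f x) {e : Ch X} (he : e ∈ atlas E4 X) (hx : x ∈ e.source) :
    ContDiffAt ℝ ∞ (fun z => f (e.symm z)) (e x) := by
  have h1 : ContMDiffAt (𝓡 4) (𝓡 4) ∞ e.symm (e x) :=
    contMDiffAt_symm_of_mem_maximalAtlas (IsManifold.subset_maximalAtlas he) (e.map_source hx)
  have h2 : ContMDiffAt (𝓡 4) 𝓘(ℝ, ℝ) ∞ f (e.symm (e x)) := by
    rw [e.left_inv hx]
    exact h
  exact contMDiffAt_iff_contDiffAt.1 (h2.comp (e x) h1)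

theorem smF_of_chart {e : Ch X} (he : e ∈ atlas E4 X) (hx : x ∈ e.source) {u : E4 → ℝ}
    (hu : ContDiffAt ℝ ∞ u (e x)) : SmF (fun y => u (e y)) x :=
  (contMDiffAt_iff_contDiffAt.2 hu).comp x
    (contMDiffAt_of_mem_maximalAtlas (IsManifold.subset_maximalAtlas he) hx)

omit [IsManifold (𝓡 4) ∞ X] in
theorem loc_fn0 (e : Ch X) (f : X → ℝ) : H175.loc e (fn0 f) =
    fun z => ContinuousAlternatingMap.constOfIsEmpty ℝ E4 (Fin 0) (f (e.symm z)) := rfl

omit [IsManifold (𝓡 4) ∞ X] in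
theorem dF_fn0 (f : X → ℝ) : dF (fn0 f) = d0 f := by
  funext x
  rw [dF, loc_fn0, extDeriv_constOfIsEmpty]
  rfl

omit [IsManifold (𝓡 4) ∞ X] in
theorem smAt_fn0 : SmAt (fn0 f) x ↔ SmF f x := by
  constructor
  · intro h
    refine smF_of_cd ?_
    exact (H175.contDiffAt_alt_iff.1 h) 0
  · intro h
    exact (ContinuousAlternatingMap.constOfIsEmptyLIE ℝ E4 ℝ (Fin 0)).contDiff.contDiffAt.comp
      (chartAt E4 x x) h.cd

omit [IsManifold (𝓡 4) ∞ X] in
theorem fn0_eval (a : RF X 0) : fn0 (fun x => a x 0) = a := by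
  funext x
  ext v
  show a x 0 = a x v
  congr 1
  exact Subsingleton.elim _ _

omit [IsManifold (𝓡 4) ∞ X] in
theorem Df_congr (h : f =ᶠ[𝓝 x] g) : Df f x = Df g x := by
  apply Filter.EventuallyEq.fderiv_eq
  exact (tendsto_symm (mem_chart_source E4 x)).eventually h

omit [IsManifold (𝓡 4) ∞ X] in
theorem Df_const (c : ℝ) (x : X) : Df (fun _ => c) x = 0 := by
  simp [Df]

omit [IsManifold (𝓡 4) ∞ X] in
theorem Df_of_const {c : ℝ} (h : ∀ᶠ y in 𝓝 x, f y = c) : Df f x = 0 := by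
  rw [Df_congr (g := fun _ => c) h, Df_const]

omit [IsManifold (𝓡 4) ∞ X] in
theorem Df_add (hf : SmF f x) (hg : SmF g x) : Df (fun y => f y + g y) x = Df f x + Df g x :=
  fderiv_fun_add hf.diff hg.diff

omit [IsManifold (𝓡 4) ∞ X] in
theorem Df_sub (hf : SmF f x) (hg : SmF g x) : Df (fun y => f y - g y) x = Df f x - Df g x :=
  fderiv_fun_sub hf.diff hg.diff

omit [IsManifold (𝓡 4) ∞ X] in
theorem Df_mul (hf : SmF f x) (hg : SmF g x) :
    Df (fun y => f y * g y) x = f x • Df g x + g x • Df f x := by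
  have h := fderiv_fun_mul hf.diff hg.diff
  simp only [symm_self] at h
  exact h

omit [IsManifold (𝓡 4) ∞ X] in
theorem Df_const_mul (c : ℝ) (hf : SmF f x) : Df (fun y => c * f y) x = c • Df f x := by
  rw [Df_mul contMDiffAt_const hf, Df_const, smul_zero, add_zero]

omit [IsManifold (𝓡 4) ∞ X] in
theorem Df_neg (f : X → ℝ) (x : X) : Df (fun y => -f y) x = -Df f x := fderiv_fun_neg

omit [IsManifold (𝓡 4) ∞ X] in
theorem smF_sum {ι : Type*} (s : Finset ι) {f : ι → X → ℝ} (h : ∀ i ∈ s, SmF (f i) x) :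
    SmF (fun y => ∑ i ∈ s, f i y) x :=
  smF_of_cd (ContDiffAt.sum fun i hi => (h i hi).cd)

omit [IsManifold (𝓡 4) ∞ X] in
theorem Df_sum {ι : Type*} (s : Finset ι) {f : ι → X → ℝ} (h : ∀ i ∈ s, SmF (f i) x) :
    Df (fun y => ∑ i ∈ s, f i y) x = ∑ i ∈ s, Df (f i) x :=
  fderiv_fun_sum fun i hi => (h i hi).diff

omit [IsManifold (𝓡 4) ∞ X] in
theorem smF_of_const {c : ℝ} (h : ∀ᶠ y in 𝓝 x, f y = c) : SmF f x :=
  (contMDiffAt_const (c := c)).congr_of_eventuallyEq h

/-- the differential in a chart -/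
theorem loc_d0 {e : Ch X} (he : e ∈ atlas E4 X) {z : E4} (hz : z ∈ e.target)
    (hf : SmF f (e.symm z)) :
    H175.loc e (d0 f) z = one (fderiv ℝ (fun y => f (e.symm y)) z) := by
  rw [← dF_fn0, H175.loc_dF he hz (smAt_fn0.2 hf), loc_fn0, extDeriv_constOfIsEmpty]
  rfl

theorem smAt_d0 {V : Set X} (hV : IsOpen V) (hf : ∀ y ∈ V, SmF f y) (hx : x ∈ V) :
    SmAt (d0 f) x := by
  rw [← dF_fn0]
  exact H175.smAt_dF hV (fun y hy => smAt_fn0.2 (hf y hy)) hx

theorem dF_d0 {V : Set X} (hV : IsOpen V) (hf : ∀ y ∈ V, SmF f y) (hx : x ∈ V) :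
    dF (d0 f) x = 0 := by
  rw [← dF_fn0]
  exact H175.dF_dF hV (fun y hy => smAt_fn0.2 (hf y hy)) hx

omit [IsManifold (𝓡 4) ∞ X] in
theorem smAt_fsmul {a : RF X k} (hf : SmF f x) (ha : SmAt a x) :
    SmAt (fun y => f y • a y) x :=
  ContDiffAt.smul hf.cd ha

omit [IsManifold (𝓡 4) ∞ X] in
/-- **Leibniz rule** -/
theorem dF_fsmul {a : RF X k} (hf : SmF f x) (ha : SmAt a x) :
    dF (fun y => f y • a y) x = wd (Df f x) (a x) + f x • dF a x := by
  rw [dF, H175.loc_fsmul, extDeriv, fderiv_fun_smul hf.diff ha.diff,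
    ContinuousAlternatingMap.alternatizeUncurryFin_add,
    ContinuousAlternatingMap.alternatizeUncurryFin_smul, symm_self, H175.loc_self]
  exact add_comm _ _

end fn

/-! ### primitives -/

/-- Poincare lemma for two-forms -/
theorem exists_prim2 {e : Ch X} (he : e ∈ atlas E4 X) {V : Set X}
    (hV : IsOpen V) (hVe : V ⊆ e.source) (hconv : Convex ℝ (e '' V))
    {a : RF X 2} (ha : ∀ x ∈ V, SmAt a x) (hc : ∀ x ∈ V, dF a x = 0) :
    ∃ b : RF X 1, (∀ x ∈ V, SmAt b x) ∧ ∀ x ∈ V, dF b x = a x :=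
  H175.exists_prim he hV hVe hconv ha hc

/-- Poincare lemma for one-forms -/
theorem exists_prim1 {e : Ch X} (he : e ∈ atlas E4 X) {V : Set X}
    (hV : IsOpen V) (hVe : V ⊆ e.source) (hconv : Convex ℝ (e '' V))
    {a : RF X 1} (ha : ∀ x ∈ V, SmAt a x) (hc : ∀ x ∈ V, dF a x = 0) :
    ∃ f : X → ℝ, (∀ x ∈ V, SmF f x) ∧ ∀ x ∈ V, d0 f x = a x := by
  obtain ⟨b, h1, h2⟩ := H175.exists_prim he hV hVe hconv ha hc
  refine ⟨fun x => b x 0, fun x hx => ?_, fun x hx => ?_⟩
  · rw [← smAt_fn0, fn0_eval]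
    exact h1 x hx
  · rw [← dF_fn0, fn0_eval]
    exact h2 x hx

/-- functions with vanishing differential are constant -/
theorem exists_const {e : Ch X} (he : e ∈ atlas E4 X) {V : Set X}
    (hV : IsOpen V) (hVe : V ⊆ e.source) (hconv : Convex ℝ (e '' V))
    {f : X → ℝ} (ha : ∀ x ∈ V, SmF f x) (hc : ∀ x ∈ V, d0 f x = 0) :
    ∃ r : ℝ, ∀ x ∈ V, f x = r := by
  obtain ⟨r, hr⟩ := H175.eq_const he hV hVe hconv (a := fn0 f)
    (fun x hx => smAt_fn0.2 (ha x hx)) (fun x hx => by rw [dF_fn0]; exact hc x hx)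
  exact ⟨r, fun x hx => congrArg (fun g : Alt 0 => g 0) (hr x hx)⟩

end Vale.Agent.P247M
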