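import Vale.Agent.P247M.Nerve
import Vale.Agent.P247M.LinAlg

/-!
# P247, block L: existence of a marking
-/

set_option linter.unusedSectionVars false

open scoped Manifold ContDiff Topology
open Set Filter MeasureTheory

noncomputable section

namespace Vale.Agent.P247M

open Vale.Agent.P247.SCY Vale.Agent.P247.SCY.HS
open Vale.Agent.P267.H175 (SmAt dF)
open Vale.Agent.P267
open Vale.Agent.P247X
open Vale.Agent.P290.H726 (bil)
open Vale.Agent.P290Z.Lat (IsK3L cs Sig Ev)

variable {X : Type} [Cl4 X] {μ : Form X 4} {w : Tri X}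

theorem st_of_hyp (hμ : Volume μ) (hw : Hypersymplectic μ w) : St μ := by
  intro α β hα hβ
  obtain ⟨η, h1, h2⟩ := exact_iff.1 hα
  have h3 : HS.Smooth α := smooth_iff.2 fun x => by
    rw [← h2]
    exact smAt_dF' h1 x
  have h4 : Coh α fun _ => 0 := by simpa only [Coh, sub_zero] using hα
  rw [h4.pair hμ hw h3 smooth_zero hβ, P247X.pair_zero_left]

/-- the exact forms -/
def exSub (X : Type) [TopologicalSpace X] [ChartedSpace E4 X] : Submodule ℝ (RF X 2) where
  carrier := {F | Ex F}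
  add_mem' := by
    rintro _ _ ⟨η, h1, rfl⟩ ⟨η', h2, rfl⟩
    exact ⟨η + η', fun x => (h1 x).add (h2 x), funext fun x => H175.dF_add (h1 x) (h2 x)⟩
  zero_mem' := ⟨0, H175.smAt_zero, funext dF_zero⟩
  smul_mem' := by
    rintro c _ ⟨η, h1, rfl⟩
    exact ⟨c • η, fun x => (h1 x).smul c, funext fun x => H175.dF_smul c η x⟩

theorem rf_lc {n : ℕ} (c : Fin n → Form X 2) (v : Fin n → ℝ) :
    rf (lc c v) = ∑ i, v i • rf (c i) := rf_sum _ _

theorem pair_lc_lc (hμ : Volume μ) (hw : Hypersymplectic μ w) {r : ℕ} {c : Fin r → Form X 2}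
    (hc : ∀ i, SC (c i)) {G : Matrix (Fin r) (Fin r) ℤ} (hG : ∀ i j, pair μ (c i) (c j) = G i j)
    (v v' : Fin r → ℝ) : pair μ (lc c v) (lc c v') = bil G v v' := by
  rw [pair_lc_left hμ hw hc v (sc_lc hc v').1, bil]
  refine Finset.sum_congr rfl fun i _ => ?_
  rw [pair_comm, pair_lc_left hμ hw hc v' (hc i).1, Finset.mul_sum]
  refine Finset.sum_congr rfl fun j _ => ?_
  rw [pair_comm, hG]
  ring

/-- **A unimodular basis of Chern forms.** -/
theorem exists_basis (hE : EVEN_statement) (hμ : Volume μ) (hw : Hypersymplectic μ w) :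
    ∃ (r : ℕ) (c : Fin r → Form X 2) (G : Matrix (Fin r) (Fin r) ℤ), (∀ i, IsChern (c i)) ∧
      (∀ i j, pair μ (c i) (c j) = G i j) ∧ IsUnit G.det ∧
      ∀ α : Form X 2, SC α → ∃ v, Coh α (lc c v) := by
  have hst := st_of_hyp hμ hw
  obtain ⟨D⟩ := exists_nerve hμ hst
  let q := (exSub X).mkQ
  have hq : ∀ F F' : RF X 2, q F = q F' ↔ Ex (F - F') := fun F F' => Submodule.Quotient.eq _
  let cl : D.Z →+ (RF X 2 ⧸ exSub X) := q.toAddMonoidHom.comp D.W
  have hcl : ∀ n, cl n = q (D.W n) := fun _ => rfl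
  have hz : ∀ n, cl n = 0 ↔ Ex (D.W n) := fun n => Submodule.Quotient.mk_eq_zero _
  have hsc := fun n => (D.chern n).sc
  have hadd : ∀ n m m', pair μ (hs (D.W (m + m'))) (hs (D.W n)) =
      pair μ (hs (D.W m)) (hs (D.W n)) + pair μ (hs (D.W m')) (hs (D.W n)) := by
    intro n m m'
    rw [map_add]
    exact pair_add_left hμ (hsc m).1 (hsc m').1 (hsc n).1
  have hev : ∀ n, ∃ k : ℤ, pair μ (hs (D.W n)) (hs (D.W n)) = 2 * k := by
    intro n
    obtain ⟨L, hL⟩ := D.chern n
    rw [← hL]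
    exact hE X μ hμ w hw L
  obtain ⟨r, E, G, h1, h2, h3⟩ := unimod_of_dual cl
    (fun n m => pair μ (hs (D.W n)) (hs (D.W m)))
    (fun n m m' => by rw [pair_comm, hadd, pair_comm μ (hs (D.W m)), pair_comm μ (hs (D.W m'))])
    (fun n m hm => by rw [pair_comm]; exact hst _ _ (exact_iff.2 ((hz m).1 hm)) (hsc n))
    (fun φ hφ => D.dual φ fun n hn => hφ n ((hz n).2 hn))
    (fun n m => by
      obtain ⟨a, ha⟩ := hev (n + m)
      obtain ⟨b, hb⟩ := hev n
      obtain ⟨c, hc⟩ := hev m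
      rw [hadd, pair_comm μ (hs (D.W n)), pair_comm μ (hs (D.W m)), hadd, hadd, hb, hc,
        pair_comm μ (hs (D.W m))] at ha
      refine ⟨a - b - c, ?_⟩
      push_cast
      linarith)
  refine ⟨r, fun i => hs (D.W (E i)), G, fun i => D.chern _, h1, h2, fun α hα => ?_⟩
  obtain ⟨k, t, n, h⟩ := D.span (rf α) hα
  choose a ha using fun i => h3 (n i)
  refine ⟨fun j => ∑ i, t i * (a i j : ℝ), coh_iff.2 ?_⟩
  show Ex _
  rw [← hq] at h ⊢
  rw [h, rf_lc, map_sum, map_sum]
  have h4 : ∀ i, q (t i • D.W (n i)) = ∑ j, (t i * (a i j : ℝ)) • q (D.W (E j)) := by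
    intro i
    rw [map_smul, ← hcl, ha i, Finset.smul_sum]
    refine Finset.sum_congr rfl fun j _ => ?_
    rw [hcl, ← Int.cast_smul_eq_zsmul ℝ, smul_smul]
  rw [Finset.sum_congr rfl fun i _ => h4 i, Finset.sum_comm]
  refine Finset.sum_congr rfl fun j _ => ?_
  rw [map_smul, Finset.sum_smul]
  rfl

theorem vol_ne_zero (hμ : Volume μ) (hst : St μ) : vol μ ≠ 0 := by
  intro h0
  obtain ⟨p⟩ : Nonempty X := inferInstance
  obtain ⟨σ, χ, t, δ, -, -, -, -, -, -, -, h⟩ := exists_chart_data hμ hst (chart_mem_atlas E4 p)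
    (mem_chart_source E4 p) isOpen_univ (mem_univ p)
  rw [TI_J, I4, h0, integral_zero_measure] at h
  exact zero_ne_one h

/-- the classes of a hypersymplectic triple span a positive space -/
theorem pair_lc_pos (hμ : Volume μ) (hw : Hypersymplectic μ w) {t : Fin 3 → ℝ} (ht : t ≠ 0) :
    0 < pair μ (lc w t) (lc w t) := by
  have hs := (sc_lc (hyp_sc hw) t).1
  have h1 : ∀ x, 0 < quot μ (lc w t) (lc w t) x := by
    intro x
    have h2 := (hw.posDef x).dotProduct_mulVec_pos ht
    have h3 : quot μ (lc w t) (lc w t) x = ∑ i, ∑ j, t i * t j * quot μ (w i) (w j) x := by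
      simp only [quot_eq, rf_lc, q4, W22, Finset.sum_apply, Pi.smul_apply, w22_sum_left,
        w22_sum_right, w22_smul_left, w22_smul_right, ContinuousAlternatingMap.sum_apply,
        ContinuousAlternatingMap.smul_apply, smul_eq_mul, Finset.mul_sum, Finset.sum_div]
      rw [Finset.sum_comm]
      exact Finset.sum_congr rfl fun i _ => Finset.sum_congr rfl fun j _ => by ring
    simp only [dotProduct, Matrix.mulVec, Qm, Matrix.of_apply, star_trivial,
      Fin.sum_univ_three] at h2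
    rw [h3]
    simp only [Fin.sum_univ_three]
    linarith
  rw [pair, integral_pos_iff_support_of_nonneg (fun x => (h1 x).le)
    (integrable_of_cont hμ.smooth (continuous_quot hμ hs hs))]
  have h2 : Function.support (quot μ (lc w t) (lc w t)) = univ :=
    eq_univ_of_forall fun x => (h1 x).ne'
  rw [h2]
  exact Measure.measure_univ_pos.2 (vol_ne_zero hμ (st_of_hyp hμ hw))

/-- **MARK** -/
theorem mark (hE : EVEN_statement) : MARK_statement := by
  intro X _ μ hμ hp h19 h20 w hw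
  obtain ⟨r, c, G, hc, hG, hu, hsp⟩ := exists_basis hE hμ hw
  have hsc := fun i => (hc i).sc
  have hsy : ∀ i j, G i j = G j i := fun i j => by
    have : (G i j : ℝ) = G j i := by rw [← hG, ← hG, pair_comm]
    exact_mod_cast this
  have hb := pair_lc_lc hμ hw hsc hG
  have hrep : ∀ {α β : Form X 2} {a b : Fin r → ℝ}, SC α → SC β → Coh α (lc c a) →
      Coh β (lc c b) → pair μ α β = bil G a b := by
    intro α β a b hα hβ ha hb'
    rw [ha.pair hμ hw hα.1 (sc_lc hsc a).1 hβ, pair_comm,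
      hb'.pair hμ hw hβ.1 (sc_lc hsc b).1 (sc_lc hsc a), pair_comm, hb]
  choose a ha using fun i => hsp (w i) (hyp_sc hw i)
  have hwa : ∀ i j, pair μ (w i) (w j) = bil G (a i) (a j) := fun i j =>
    hrep (hyp_sc hw i) (hyp_sc hw j) (ha i) (ha j)
  have hpos : ∀ t : Fin 3 → ℝ, t ≠ 0 → 0 < bil G (∑ j, t j • a j) (∑ j, t j • a j) := by
    intro t ht
    have h1 := pair_lc_pos hμ hw ht
    rw [pair_lc_left hμ hw (hyp_sc hw) t (sc_lc (hyp_sc hw) t).1] at h1
    rw [bil_sum]
    refine h1.trans_eq (Finset.sum_congr rfl fun i _ => ?_)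
    rw [pair_comm, pair_lc_left hμ hw (hyp_sc hw) t (hw.smooth i), bil_sum']
    congr 1
    exact Finset.sum_congr rfl fun j _ => by rw [pair_comm, hwa]
  have hneg := sig_three hsy hu a hpos (by
    rintro ⟨b, hb'⟩
    refine hp ⟨fun i => lc c (b i), fun i => sc_lc hsc _, ?_⟩
    have h1 := (gram_iff hsy 1 b).2 fun t ht => by rw [one_mul]; exact hb' t ht
    simpa only [hb, one_mul] using h1)
  have hge : 3 + 19 ≤ Fintype.card (Fin r) := by
    obtain ⟨y, hy, hy'⟩ := h19
    choose b hb' using fun i => hsp (y i) (hy i)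
    refine card_ge a b hpos fun t ht => ?_
    have h1 := (gram_iff hsy (-1) b).1 (by
      simpa only [fun i j => hrep (hy i) (hy j) (hb' i) (hb' j), neg_one_mul] using hy') t ht
    linarith
  have hlt : Fintype.card (Fin r) < 3 + 20 := card_lt a hneg (by
    rintro ⟨b, hb'⟩
    refine h20 ⟨fun i => lc c (b i), fun i => sc_lc hsc _, ?_⟩
    have h1 := (gram_iff hsy (-1) b).2 fun t ht => by linarith [hb' t ht]
    simpa only [hb, neg_one_mul] using h1)
  obtain rfl : r = 22 := by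
    rw [Fintype.card_fin] at hge hlt
    omega
  refine ⟨⟨G, ⟨hsy, fun x => ?_, hu, Fintype.card_fin 22, a, hpos, hneg⟩, c, hsc, hG, hsp,
    fun v => isChern_lc hc v⟩⟩
  obtain ⟨L, hL⟩ := isChern_lc hc x
  obtain ⟨n, hn⟩ := hE X μ hμ w hw L
  rw [hL, hb] at hn
  have h1 : bil G x x = 2 * n := by
    have h2 := bil_cs G x x
    exact_mod_cast h2.symm.trans hn
  exact ⟨n, by rw [h1, two_mul]⟩

end Vale.Agent.P247M
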