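import Vale.Agent.P247M.PDIn

/-!
# P247, block L: the lattice of integral classes and Poincare duality
-/

set_option linter.unusedSectionVars false

open scoped Manifold ContDiff Topology Uniformity
open Set Filter TopologicalSpace MeasureTheory

noncomputable section

namespace Vale.Agent.P247M

open Vale.Agent.P247.SCY Vale.Agent.P247.SCY.HS
open Vale.Agent.P267.H175 (SmAt dF N1 N2 dlt1 dlt2 intKer IsCycle)
open Vale.Agent.P267
open Vale.Agent.P267.H994 (extA rstA fnHom pairW GoodIndex)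
open Vale.Agent.P247X (SC Coh lc)

/-- What the topology gives: a finitely generated group of Chern forms which spans the cohomology
and satisfies integral Poincare duality. -/
structure Nerve {X : Type} [TopologicalSpace X] [ChartedSpace E4 X] [MeasurableSpace X]
    (μ : Form X 4) where
  Z : Type
  [grp : AddCommGroup Z]
  [fin : Module.Finite ℤ Z]
  W : Z →+ RF X 2
  chern : ∀ n, IsChern (hs (W n))
  span : ∀ F : RF X 2, SC (hs F) → ∃ (k : ℕ) (t : Fin k → ℝ) (n : Fin k → Z),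
    Ex (F - ∑ i, t i • W (n i))
  dual : ∀ φ : Z →+ ℤ, (∀ n, Ex (W n) → φ n = 0) → ∃ m, ∀ n, pair μ (hs (W n)) (hs (W m)) = φ n

attribute [instance] Nerve.grp Nerve.fin

section cochain

variable {X : Type} [TopologicalSpace X] {ι : Type} (U : ι → Opens X)

/-- extension by zero as a linear map -/
def extL : (N2 U → ℝ) →ₗ[ℝ] (ι → ι → ι → ℝ) where
  toFun := extA U
  map_add' m n := by
    funext i j k
    simp only [Pi.add_apply]
    by_cases h : U i ⊓ U j ⊓ U k = ⊥
    · simp only [H994.extA_of_eq _ h, add_zero]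
    · simp only [H994.extA_of_ne _ h, Pi.add_apply]
  map_smul' c n := by
    funext i j k
    simp only [Pi.smul_apply, RingHom.id_apply]
    by_cases h : U i ⊓ U j ⊓ U k = ⊥
    · simp only [H994.extA_of_eq _ h, smul_zero]
    · simp only [H994.extA_of_ne _ h, Pi.smul_apply]

/-- integral cochains as real cochains -/
def castR : (N2 U → ℤ) →+ (N2 U → ℝ) where
  toFun n p := (n p : ℝ)
  map_zero' := by
    funext p
    simp
  map_add' m n := by
    funext p
    simp

variable {U}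

theorem extL_cast (n : N2 U → ℤ) :
    extL U (castR U n) = fun i j k => ((extA U n i j k : ℤ) : ℝ) := by
  funext i j k
  show extA U (fun p => (n p : ℝ)) i j k = _
  by_cases h : U i ⊓ U j ⊓ U k = ⊥
  · rw [H994.extA_of_eq _ h, H994.extA_of_eq _ h, Int.cast_zero]
  · rw [H994.extA_of_ne _ h, H994.extA_of_ne _ h]

theorem isCoc_cast (n : intKer (dlt2 U)) :
    IsCoc (fun i => (U i : Set X)) fun i j k => ((extA U n.1 i j k : ℤ) : ℝ) := by
  intro a b c d x ha hb hc hd
  beta_reduce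
  exact_mod_cast H994.extA_nz n.1 n.2 a b c d ⟨x, ⟨⟨ha, hb⟩, hc⟩, hd⟩

theorem inf_ne_bot {i j k : ι} {x : X} (hi : x ∈ (U i : Set X)) (hj : x ∈ (U j : Set X))
    (hk : x ∈ (U k : Set X)) : U i ⊓ U j ⊓ U k ≠ ⊥ := by
  intro h0
  have : x ∈ U i ⊓ U j ⊓ U k := ⟨⟨hi, hj⟩, hk⟩
  rw [h0] at this
  exact this

/-- real cocycles are spanned by the integral ones -/
theorem exists_int_comb [Finite (N2 U)] {r : N2 U → ℝ} (hr : (dlt2 U).app r = 0) :
    ∃ (k : ℕ) (t : Fin k → ℝ) (n : Fin k → intKer (dlt2 U)), r = ∑ i, t i • castR U (n i).1 := by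
  have h1 := H175.mem_span_int (dlt2 U) r hr
  rw [Submodule.mem_span_set'] at h1
  obtain ⟨k, t, g, hg⟩ := h1
  choose n hn hn' using fun i => (g i).2
  refine ⟨k, t, fun i => ⟨n i, hn i⟩, ?_⟩
  rw [← hg]
  exact Finset.sum_congr rfl fun i _ => by rw [hn' i]; rfl

/-- extension by zero of a 1-cochain -/
def ext1 (U : ι → Opens X) (u : N1 U → ℤ) (i j : ι) : ℤ := by
  classical
  exact if h : U i ⊓ U j ≠ ⊥ then u ⟨(i, j), h⟩ else 0

theorem ext1_of_ne (u : N1 U → ℤ) {i j : ι} (h : U i ⊓ U j ≠ ⊥) :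
    ext1 U u i j = u ⟨(i, j), h⟩ := by
  classical
  exact dif_pos h

end cochain

section pair

variable {X : Type} [TopologicalSpace X] [ChartedSpace E4 X] [IsManifold (𝓡 4) ∞ X]
  [MeasurableSpace X] [BorelSpace X] [CompactSpace X] {μ : Form X 4}

theorem pair_of_ex (hμ : Volume μ) (hst : St μ) {F F' : RF X 2} (h : Ex (F - F'))
    (h' : ∀ x, SmAt F' x) {β : Form X 2} (hβ : SC β) : pair μ (hs F) β = pair μ (hs F') β := by
  have h1 : HS.Exact (hs (F - F')) := exact_iff.2 h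
  obtain ⟨η, h2, h3⟩ := h
  have h4 : HS.Smooth (hs (F - F')) := smooth_iff.2 fun x => by
    rw [rf_hs, ← h3]
    exact smAt_dF' h2 x
  have h5 : hs F = fun x => hs (F - F') x + hs F' x := by
    funext x
    exact (sub_add_cancel (F x) (F' x)).symm
  rw [h5, pair_add_left (α' := hs F') hμ h4 (smooth_iff.2 h') hβ.1, hst _ _ h1 hβ, zero_add]

end pair

section metric

variable {X : Type} [MetricSpace X] [CompactSpace X] [ChartedSpace E4 X] [IsManifold (𝓡 4) ∞ X]
  [MeasurableSpace X] [BorelSpace X] {μ : Form X 4} {ι : Type} [Fintype ι]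
  {U : ι → Opens X} (S : Pt X ι) (hS : S.U = fun i => (U i : Set X))

/-- the form of an integral cocycle -/
def wZ (U : ι → Opens X) : intKer (dlt2 U) →+ RF X 2 :=
  ((S.WL.comp (extL U)).toAddMonoidHom.comp (castR U)).comp (intKer (dlt2 U)).subtype

theorem wZ_eq (n : intKer (dlt2 U)) :
    wZ S U n = S.W fun i j k => ((extA U n.1 i j k : ℤ) : ℝ) := by
  rw [← extL_cast]
  rfl

include hS

theorem isCoc_S (n : intKer (dlt2 U)) :
    IsCoc S.U fun i j k => ((extA U n.1 i j k : ℤ) : ℝ) := by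
  rw [hS]
  exact isCoc_cast n

theorem sc_wZ (n : intKer (dlt2 U)) : SC (hs (wZ S U n)) := by
  rw [wZ_eq]
  exact Pt.sc_W (isCoc_S S hS n)

theorem ex_dlt1 (u : N1 U → ℤ) : Ex (wZ S U ⟨(dlt1 U).app u, H175.dlt2_dlt1 u⟩) := by
  rw [wZ_eq]
  refine Pt.ex_cob (isCoc_S S hS _) (fun i j => (ext1 U u i j : ℝ)) fun i j k x hi hj hk => ?_
  rw [hS] at hi hj hk
  have hne := inf_ne_bot hi hj hk
  rw [H994.extA_of_ne _ hne]
  show (((dlt1 U).app u ⟨(i, j, k), hne⟩ : ℤ) : ℝ) = _
  rw [H175.dlt1_app, ext1_of_ne u (H175.ne_bot_mono (le_inf (inf_le_left.trans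
    inf_le_right) inf_le_right) hne), ext1_of_ne u (H175.ne_bot_mono (le_inf (inf_le_left.trans
    inf_le_left) inf_le_right) hne), ext1_of_ne u (H175.ne_bot_mono inf_le_left hne)]
  push_cast
  rfl

theorem span_wZ {F : RF X 2} (Z : Zig S.U F) : ∃ (k : ℕ) (t : Fin k → ℝ)
    (n : Fin k → intKer (dlt2 U)), Ex (F - ∑ i, t i • wZ S U (n i)) := by
  have hr' : (dlt2 U).app (rstA (U := U) Z.r) = 0 := by
    funext p
    obtain ⟨⟨i, j, k, l⟩, hne⟩ := p
    rw [H175.dlt2_app]
    obtain ⟨x, ⟨⟨hi, hj⟩, hk⟩, hl⟩ := H994.ne_bot_iff_nonempty.1 hne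
    have e : ∀ a, x ∈ (U a : Set X) → x ∈ S.U a := fun a ha => by rw [hS]; exact ha
    exact Z.isCoc i j k l x (e _ hi) (e _ hj) (e _ hk) (e _ hl)
  obtain ⟨k, t, n, hn⟩ := exists_int_comb hr'
  refine ⟨k, t, n, ?_⟩
  have h1 : ∑ i, t i • wZ S U (n i) = S.W Z.r := by
    have h2 : S.W Z.r = (S.WL.comp (extL U)) (rstA (U := U) Z.r) := by
      refine S.W_congr fun i j k x hi hj hk => ?_
      rw [hS] at hi hj hk
      exact (H994.extA_of_ne (rstA (U := U) Z.r) (inf_ne_bot hi hj hk)).symm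
    rw [h2, hn, map_sum]
    refine Finset.sum_congr rfl fun i _ => ?_
    rw [map_smul]
    rfl
  rw [h1]
  exact S.ex_sub Z

theorem dual_wZ (hμ : Volume μ) (hst : St μ) {c : X → ι}
    (hc : GoodIndex (fun i => (U i : Set X)) c) {N : ℕ → ℕ} {P : ∀ k, Pt X (Fin (N k))}
    {v : ∀ k, Fin (N k) → X} (H : H994.PDIn (TI hμ hst) (fun k => partOf (P k) (v k)) U)
    (φ : intKer (dlt2 U) →+ ℤ) (hφ : ∀ n, Ex (wZ S U n) → φ n = 0) :
    ∃ m, ∀ n, pair μ (hs (wZ S U n)) (hs (wZ S U m)) = φ n := by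
  classical
  obtain ⟨G, hG⟩ := H175.exists_extend_int (dlt2 U) φ
  have hGs : ∀ z, G z = ∑ j, G (Pi.single j 1) * z j := by
    intro z
    conv_lhs => rw [← Finset.univ_sum_single z]
    rw [map_sum]
    refine Finset.sum_congr rfl fun j _ => ?_
    have h1 : (Pi.single j (z j) : N2 U → ℤ) = z j • Pi.single j 1 := by
      rw [← Pi.single_smul]
      simp
    rw [h1, map_zsmul, smul_eq_mul, mul_comm]
  have hcyc : IsCycle (dlt1 U) fun j => G (Pi.single j 1) := by
    intro u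
    rw [← hGs, hG ⟨_, H175.dlt2_dlt1 u⟩]
    exact hφ _ (ex_dlt1 S hS u)
  have hfine : ∀ᶠ k in atTop, ∀ a, tsupport ((P k).ψ a) ⊆ (U (c (v k a)) : Set X) := by
    obtain ⟨ε, hε, h⟩ := H994.eventually_sm_metric.1 (hc 2)
    filter_upwards [H.fine ε hε] with k hk a x hx
    have h3 : dist x (v k a) < ε := hk a x hx
    exact h ![v k a, x] (by
      intro i j
      fin_cases i <;> fin_cases j <;> simp [dist_self, hε, h3, dist_comm]) 0 1
  obtain ⟨k, hk1, hk2⟩ := ((H994.pd_uniform (TI hμ hst) _ H hc).and hfine).exists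
  obtain ⟨m, hm⟩ := hk1 _ hcyc
  refine ⟨m, fun n => ?_⟩
  let Q : Pt X (Fin (N k)) := (P k).reU (fun a => (U (c (v k a)) : Set X))
    (fun a => (U _).isOpen) hk2
  let q : intKer (dlt2 U) → Fin (N k) → Fin (N k) → Fin (N k) → ℝ := fun n a b d =>
    ((extA U n.1 (c (v k a)) (c (v k b)) (c (v k d)) : ℤ) : ℝ)
  have hco : ∀ n, Ex (wZ S U n - Q.W (q n)) := by
    intro n
    rw [wZ_eq]
    exact Pt.ex_comp (isCoc_S S hS n) Q (fun a => c (v k a)) fun a => by rw [hS]; exact subset_rfl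
  have hq : ∀ n, IsCoc Q.U (q n) := fun n a b d e x ha hb hd he =>
    isCoc_cast n _ _ _ _ x ha hb hd he
  have h3 := hm n
  rw [H994.pairW_apply, prodW_eq_pair] at h3
  have h4 : pair μ (hs (Q.W (q n))) (hs (Q.W (q m))) = ∑ j, (G (Pi.single j 1) : ℝ) * n.1 j := h3
  rw [pair_of_ex hμ hst (hco n) (Pt.smAt_W _) (sc_wZ S hS m), pair_comm,
    pair_of_ex hμ hst (hco m) (Pt.smAt_W _) (Pt.sc_W (hq n)), pair_comm, h4, ← hG n, hGs]
  push_cast
  rfl

omit hS in
theorem nerve_metric (hμ : Volume μ) (hst : St μ) : Nonempty (Nerve μ) := by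
  obtain ⟨G, -⟩ := H368.exists_goodCover_manifold (𝕜 := ℝ) (n := ∞) (X := X) ENat.LEInfty.out
    (ContinuousLinearEquiv.refl ℝ E4) (fun _ : Unit => univ) (fun _ => isOpen_univ)
    fun x => ⟨(), mem_univ x⟩
  obtain ⟨N, P, v, h⟩ := exists_fineSeq (X := X)
  obtain ⟨S, hS⟩ := exists_pt G.U G.isOpen_U G.exists_mem_U
  obtain ⟨c, hc⟩ := H994.exists_goodIndex (X := X) (fun i => (cov G i : Set X))
    (fun i => (cov G i).isOpen) (cov_cover G)
  have hS' : S.U = fun i => (cov G i : Set X) := hS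
  haveI : Module.Finite ℤ (intKer (dlt2 (cov G))) :=
    Module.Finite.of_injective (AddSubgroup.subtype (intKer (dlt2 (cov G)))).toIntLinearMap
      Subtype.val_injective
  refine ⟨⟨intKer (dlt2 (cov G)), wZ S (cov G), fun n => ?_, fun F hF => ?_,
    dual_wZ S hS' hμ hst hc (pdIn hμ hst G h)⟩⟩
  · rw [wZ_eq]
    exact Pt.isChern_W (isCoc_S S hS' n)
  · obtain ⟨Z⟩ := exists_zig (U := S.U) S.opn (fun a b c => by
      rw [hS]
      exact ⟨G.e a, G.e_mem a, (inter_subset_left.trans inter_subset_left).trans (G.U_sub_source a),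
        conv3 G a b c⟩) (sc_iff.1 hF).1 (sc_iff.1 hF).2
    exact span_wZ S hS' Z

end metric

theorem exists_nerve {X : Type} [TopologicalSpace X] [T2Space X] [CompactSpace X]
    [ChartedSpace E4 X] [IsManifold (𝓡 4) ∞ X] [MeasurableSpace X] [BorelSpace X] {μ : Form X 4}
    (hμ : Volume μ) (hst : St μ) : Nonempty (Nerve μ) := by
  have : SecondCountableTopology X := ChartedSpace.secondCountable_of_sigmaCompact E4 X
  have : LocallyCompactSpace X := inferInstance
  letI : MetricSpace X := TopologicalSpace.metrizableSpaceMetric X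
  exact nerve_metric hμ hst

end Vale.Agent.P247M
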