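import Vale.Agent.P247M.TI
import Vale.Agent.P247M.LBOps

/-!
# P247, block L: zigzags between closed two-forms and Cech cocycles
-/

set_option linter.unusedSectionVars false

open scoped Manifold ContDiff Topology
open Set Filter

noncomputable section

namespace Vale.Agent.P247M

open Vale.Agent.P247.SCY Vale.Agent.P247.SCY.HS
open Vale.Agent.P267.H175 (SmAt dF)
open Vale.Agent.P267
open Vale.Agent.P247X (SC LB)

variable {X : Type} [TopologicalSpace X] [ChartedSpace E4 X] {ι : Type}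

/-- exact two-forms -/
def Ex (F : RF X 2) : Prop := ∃ η : RF X 1, (∀ x, SmAt η x) ∧ dF η = F

/-- cocycles of a cover -/
def IsCoc (U : ι → Set X) (r : ι → ι → ι → ℝ) : Prop :=
  ∀ a b c d x, x ∈ U a → x ∈ U b → x ∈ U c → x ∈ U d →
    r b c d - r a c d + r a b d - r a b c = 0

/-- zigzags -/
structure Zig (U : ι → Set X) (F : RF X 2) where
  A : ι → RF X 1
  f : ι → ι → X → ℝ
  r : ι → ι → ι → ℝ
  A_sm : ∀ a, ∀ x ∈ U a, SmAt (A a) x
  dA : ∀ a, ∀ x ∈ U a, dF (A a) x = F x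
  f_sm : ∀ a b x, x ∈ U a → x ∈ U b → SmF (f a b) x
  df : ∀ a b x, x ∈ U a → x ∈ U b → A a x - A b x = d0 (f a b) x
  cf : ∀ a b c x, x ∈ U a → x ∈ U b → x ∈ U c → f b c x - f a c x + f a b x = r a b c

theorem alt_sub_smul {k : ℕ} (p q : ℝ) (A : Alt k) : p • A - q • A = (p - q) • A := by
  ext v
  simp only [ContinuousAlternatingMap.sub_apply, ContinuousAlternatingMap.smul_apply, smul_eq_mul]
  ring

theorem d0_sub {f g : X → ℝ} {x : X} (hf : SmF f x) (hg : SmF g x) :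
    d0 (fun y => f y - g y) x = d0 f x - d0 g x := by
  rw [d0, Df_sub hf hg, map_sub]
  rfl

theorem d0_add {f g : X → ℝ} {x : X} (hf : SmF f x) (hg : SmF g x) :
    d0 (fun y => f y + g y) x = d0 f x + d0 g x := by
  rw [d0, Df_add hf hg, map_add]
  rfl

theorem d0_congr {f g : X → ℝ} {x : X} (h : f =ᶠ[𝓝 x] g) : d0 f x = d0 g x := by
  rw [d0, Df_congr h]
  rfl

theorem d0_const (c : ℝ) (x : X) : d0 (fun _ => c) x = 0 := by
  rw [d0, Df_const, map_zero]

namespace Zig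

variable {U : ι → Set X} {F F' : RF X 2}

theorem isCoc (Z : Zig U F) : IsCoc U Z.r := by
  intro a b c d x ha hb hc hd
  rw [← Z.cf b c d x hb hc hd, ← Z.cf a c d x ha hc hd, ← Z.cf a b d x ha hb hd,
    ← Z.cf a b c x ha hb hc]
  ring

/-- differences -/
def sub (Z : Zig U F) (Z' : Zig U F') : Zig U (F - F') where
  A a := Z.A a - Z'.A a
  f a b x := Z.f a b x - Z'.f a b x
  r a b c := Z.r a b c - Z'.r a b c
  A_sm a x hx := smAt_sub (Z.A_sm a x hx) (Z'.A_sm a x hx)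
  dA a x hx := by
    rw [dF_sub (Z.A_sm a x hx) (Z'.A_sm a x hx), Z.dA a x hx, Z'.dA a x hx]
    rfl
  f_sm a b x ha hb := (Z.f_sm a b x ha hb).sub (Z'.f_sm a b x ha hb)
  df a b x ha hb := by
    rw [d0_sub (Z.f_sm a b x ha hb) (Z'.f_sm a b x ha hb), ← Z.df a b x ha hb,
      ← Z'.df a b x ha hb, Pi.sub_apply, Pi.sub_apply]
    abel
  cf a b c x ha hb hc := by
    rw [← Z.cf a b c x ha hb hc, ← Z'.cf a b c x ha hb hc]
    ring

/-- refinements -/
def comp (Z : Zig U F) {κ : Type} (c : κ → ι) {V : κ → Set X} (h : ∀ a, V a ⊆ U (c a)) :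
    Zig V F where
  A a := Z.A (c a)
  f a b := Z.f (c a) (c b)
  r a b d := Z.r (c a) (c b) (c d)
  A_sm a x hx := Z.A_sm _ x (h a hx)
  dA a x hx := Z.dA _ x (h a hx)
  f_sm a b x ha hb := Z.f_sm _ _ x (h a ha) (h b hb)
  df a b x ha hb := Z.df _ _ x (h a ha) (h b hb)
  cf a b d x ha hb hd := Z.cf _ _ _ x (h a ha) (h b hb) (h d hd)

/-- changing the cocycle by a coboundary -/
def shift (Z : Zig U F) (u : ι → ι → ℝ) : Zig U F where
  A := Z.A
  f a b x := Z.f a b x - u a b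
  r a b c := Z.r a b c - (u b c - u a c + u a b)
  A_sm := Z.A_sm
  dA := Z.dA
  f_sm a b x ha hb := (Z.f_sm a b x ha hb).sub contMDiffAt_const
  df a b x ha hb := by
    rw [d0_sub (Z.f_sm a b x ha hb) contMDiffAt_const, d0_const, sub_zero, Z.df a b x ha hb]
  cf a b c x ha hb hc := by
    rw [← Z.cf a b c x ha hb hc]
    ring

end Zig

/-- finite partitions of unity subordinate to open covers -/
structure Pt (X : Type) [TopologicalSpace X] [ChartedSpace E4 X] (ι : Type) [Fintype ι] where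
  U : ι → Set X
  opn : ∀ a, IsOpen (U a)
  ψ : ι → X → ℝ
  sm : ∀ a x, SmF (ψ a) x
  supp : ∀ a, tsupport (ψ a) ⊆ U a
  sum : ∀ x, ∑ a, ψ a x = 1

namespace Pt

variable [Fintype ι] (P : Pt X ι)

theorem ev_zero {a : ι} {x : X} (h : x ∉ P.U a) : ∀ᶠ y in 𝓝 x, P.ψ a y = 0 :=
  notMem_tsupport_iff_eventuallyEq.1 fun h' => h (P.supp a h')

theorem ψ_zero {a : ι} {x : X} (h : x ∉ P.U a) : P.ψ a x = 0 := (P.ev_zero h).self_of_nhds

theorem Df_zero {a : ι} {x : X} (h : x ∉ P.U a) : Df (P.ψ a) x = 0 := Df_of_const (P.ev_zero h)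

theorem d0_zero {a : ι} {x : X} (h : x ∉ P.U a) : d0 (P.ψ a) x = 0 := by
  rw [d0, P.Df_zero h, map_zero]

theorem cov (x : X) : ∃ a, x ∈ P.U a := by
  by_contra h
  have h1 := P.sum x
  rw [Finset.sum_eq_zero fun a _ => P.ψ_zero fun h' => h ⟨a, h'⟩] at h1
  exact zero_ne_one h1

theorem sum_Df (x : X) : ∑ a, Df (P.ψ a) x = 0 := by
  rw [← Df_sum _ fun a _ => P.sm a x]
  exact Df_of_const (Eventually.of_forall P.sum)

theorem sum_d0 (x : X) : ∑ a, d0 (P.ψ a) x = 0 := by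
  simp only [d0]
  rw [← map_sum, P.sum_Df, map_zero]

theorem sum_dd_left (c : ι) (x : X) : ∑ b, dd (P.ψ b) (P.ψ c) x = 0 := by
  simp only [dd]
  rw [← wd_sum_left, P.sum_Df, wd_zero_left]

theorem sum_dd_right (b : ι) (x : X) : ∑ c, dd (P.ψ b) (P.ψ c) x = 0 := by
  simp only [dd]
  rw [← wd_sum_right, P.sum_d0, wd_zero_right]

/-- the two-form of a cochain -/
def W (r : ι → ι → ι → ℝ) : RF X 2 :=
  ∑ a, ∑ b, ∑ c, fun x => (r a b c * P.ψ a x) • dd (P.ψ b) (P.ψ c) x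

/-- the local primitives -/
def Af (r : ι → ι → ι → ℝ) (a : ι) : RF X 1 :=
  ∑ b, ∑ c, fun x => (r a b c * P.ψ b x) • d0 (P.ψ c) x

/-- the transition functions -/
def ff (r : ι → ι → ι → ℝ) (a b : ι) (x : X) : ℝ := ∑ c, r a b c * P.ψ c x

theorem W_apply (r : ι → ι → ι → ℝ) (x : X) :
    P.W r x = ∑ a, ∑ b, ∑ c, (r a b c * P.ψ a x) • dd (P.ψ b) (P.ψ c) x := by
  simp only [W, Finset.sum_apply]

theorem Af_apply (r : ι → ι → ι → ℝ) (a : ι) (x : X) :
    P.Af r a x = ∑ b, ∑ c, (r a b c * P.ψ b x) • d0 (P.ψ c) x := by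
  simp only [Af, Finset.sum_apply]

theorem W_congr {r r' : ι → ι → ι → ℝ}
    (h : ∀ a b c x, x ∈ P.U a → x ∈ P.U b → x ∈ P.U c → r a b c = r' a b c) : P.W r = P.W r' := by
  funext x
  rw [W_apply, W_apply]
  refine Finset.sum_congr rfl fun a _ => Finset.sum_congr rfl fun b _ =>
    Finset.sum_congr rfl fun c _ => ?_
  by_cases ha : x ∈ P.U a
  · by_cases hb : x ∈ P.U b
    · by_cases hc : x ∈ P.U c
      · rw [h a b c x ha hb hc]
      · rw [dd_of_right (P.Df_zero hc), smul_zero, smul_zero]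
    · rw [dd_of_left (P.Df_zero hb), smul_zero, smul_zero]
  · rw [P.ψ_zero ha, mul_zero, mul_zero]

/-- `W` as a linear map -/
def WL : (ι → ι → ι → ℝ) →ₗ[ℝ] RF X 2 where
  toFun := P.W
  map_add' r r' := by
    funext x
    simp only [Pi.add_apply, W_apply, add_mul, add_smul, Finset.sum_add_distrib]
  map_smul' t r := by
    funext x
    simp only [Pi.smul_apply, W_apply, RingHom.id_apply, Finset.smul_sum, smul_smul, smul_eq_mul,
      mul_assoc]

theorem smF_ff (r : ι → ι → ι → ℝ) (a b : ι) (x : X) : SmF (P.ff r a b) x :=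
  smF_sum _ fun c _ => contMDiffAt_const.mul (P.sm c x)

theorem d0_ff (r : ι → ι → ι → ℝ) (a b : ι) (x : X) :
    d0 (P.ff r a b) x = ∑ c, r a b c • d0 (P.ψ c) x := by
  have h : Df (P.ff r a b) x = ∑ c, r a b c • Df (P.ψ c) x := by
    rw [← Finset.sum_congr rfl fun c _ => Df_const_mul (r a b c) (P.sm c x)]
    exact Df_sum _ fun c _ => contMDiffAt_const.mul (P.sm c x)
  rw [d0, h, map_sum]
  simp only [map_smul, d0]

variable {P} {r : ι → ι → ι → ℝ}

theorem ff_coc (hr : IsCoc P.U r) {a b c : ι} {x : X} (ha : x ∈ P.U a) (hb : x ∈ P.U b)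
    (hc : x ∈ P.U c) : P.ff r b c x - P.ff r a c x + P.ff r a b x = r a b c := by
  simp only [ff]
  rw [← Finset.sum_sub_distrib, ← Finset.sum_add_distrib, ← mul_one (r a b c), ← P.sum x,
    Finset.mul_sum]
  refine Finset.sum_congr rfl fun d _ => ?_
  by_cases hd : x ∈ P.U d
  · linear_combination P.ψ d x * hr a b c d x ha hb hc hd
  · rw [P.ψ_zero hd]
    ring

theorem Af_sub (hr : IsCoc P.U r) {a b : ι} {x : X} (ha : x ∈ P.U a) (hb : x ∈ P.U b) :
    P.Af r a x - P.Af r b x = d0 (P.ff r a b) x := by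
  have h1 : ∀ b' c, (r a b' c * P.ψ b' x) • d0 (P.ψ c) x - (r b b' c * P.ψ b' x) • d0 (P.ψ c) x =
      P.ψ b' x • r a b c • d0 (P.ψ c) x - (r a b b' * P.ψ b' x) • d0 (P.ψ c) x := by
    intro b' c
    rw [smul_smul, alt_sub_smul, alt_sub_smul]
    by_cases hb' : x ∈ P.U b'
    · by_cases hc : x ∈ P.U c
      · congr 1
        linear_combination (-P.ψ b' x) * hr a b b' c x ha hb hb' hc
      · rw [P.d0_zero hc, smul_zero, smul_zero]
    · rw [P.ψ_zero hb']
      simp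
  rw [Af_apply, Af_apply, ← Finset.sum_sub_distrib]
  simp only [← Finset.sum_sub_distrib, h1]
  simp only [Finset.sum_sub_distrib, ← Finset.smul_sum, P.sum_d0, smul_zero, Finset.sum_const_zero,
    sub_zero]
  rw [← Finset.sum_smul, P.sum, one_smul, d0_ff]

variable [IsManifold (𝓡 4) ∞ X]

theorem smAt_term (r : ℝ) (b c : ι) (x : X) : SmAt (fun x => (r * P.ψ b x) • d0 (P.ψ c) x) x :=
  smAt_fsmul (contMDiffAt_const.mul (P.sm b x)) (smAt_d0' (P.sm c) x)

theorem smAt_Af (r : ι → ι → ι → ℝ) (a : ι) (x : X) : SmAt (P.Af r a) x :=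
  smAt_sum _ fun b _ => smAt_sum _ fun c _ => smAt_term _ b c x

theorem smAt_W (r : ι → ι → ι → ℝ) (x : X) : SmAt (P.W r) x :=
  smAt_sum _ fun a _ => smAt_sum _ fun b _ => smAt_sum _ fun c _ =>
    smAt_fsmul (contMDiffAt_const.mul (P.sm a x)) (smAt_dd (P.sm b) (P.sm c) x)

theorem dF_Af (hr : IsCoc P.U r) {a : ι} {x : X} (ha : x ∈ P.U a) :
    dF (P.Af r a) x = P.W r x := by
  have h0 : dF (P.Af r a) x = ∑ b, ∑ c, r a b c • dd (P.ψ b) (P.ψ c) x := by
    rw [Af, dF_sum _ fun b _ => smAt_sum _ fun c _ => smAt_term _ b c x]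
    refine Finset.sum_congr rfl fun b _ => ?_
    rw [dF_sum _ fun c _ => smAt_term _ b c x]
    refine Finset.sum_congr rfl fun c _ => ?_
    rw [dF_fd0 (g := fun y => r a b c * P.ψ b y) isOpen_univ (fun y _ => P.sm c y) (mem_univ x)
      (contMDiffAt_const.mul (P.sm b x)), dd, Df_const_mul _ (P.sm b x), wd_smul_left]
    rfl
  have h1 : ∀ a' b c, (r a' b c * P.ψ a' x) • dd (P.ψ b) (P.ψ c) x =
      P.ψ a' x • r a b c • dd (P.ψ b) (P.ψ c) x - (r a a' c * P.ψ a' x) • dd (P.ψ b) (P.ψ c) x +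
        (r a a' b * P.ψ a' x) • dd (P.ψ b) (P.ψ c) x := by
    intro a' b c
    rw [smul_smul, alt_sub_smul, ← add_smul]
    by_cases ha' : x ∈ P.U a'
    · by_cases hb : x ∈ P.U b
      · by_cases hc : x ∈ P.U c
        · congr 1
          linear_combination (P.ψ a' x) * hr a a' b c x ha ha' hb hc
        · rw [dd_of_right (P.Df_zero hc), smul_zero, smul_zero]
      · rw [dd_of_left (P.Df_zero hb), smul_zero, smul_zero]
    · rw [P.ψ_zero ha']
      simp
  have h2 : ∀ a', ∑ b, ∑ c, (r a a' c * P.ψ a' x) • dd (P.ψ b) (P.ψ c) x = 0 := by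
    intro a'
    rw [Finset.sum_comm]
    simp only [← Finset.smul_sum, P.sum_dd_left, smul_zero, Finset.sum_const_zero]
  rw [h0, W_apply]
  simp only [h1, Finset.sum_add_distrib, Finset.sum_sub_distrib, h2]
  simp only [← Finset.smul_sum, P.sum_dd_right, smul_zero, Finset.sum_const_zero, sub_zero,
    add_zero]
  rw [← Finset.sum_smul, P.sum, one_smul]

/-- the zigzag of a cocycle -/
def zig (hr : IsCoc P.U r) : Zig P.U (P.W r) where
  A := P.Af r
  f := P.ff r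
  r := r
  A_sm a x _ := smAt_Af r a x
  dA _ _ hx := dF_Af hr hx
  f_sm a b x _ _ := P.smF_ff r a b x
  df _ _ _ ha hb := Af_sub hr ha hb
  cf _ _ _ _ ha hb hc := ff_coc hr ha hb hc

theorem dF_W (hr : IsCoc P.U r) (x : X) : dF (P.W r) x = 0 := by
  obtain ⟨a, ha⟩ := P.cov x
  have h : P.W r =ᶠ[𝓝 x] dF (P.Af r a) := by
    filter_upwards [(P.opn a).mem_nhds ha] with y hy
    exact (dF_Af hr hy).symm
  rw [H175.dF_congr h]
  exact dF_dF' (smAt_Af r a) x

theorem sc_W (hr : IsCoc P.U r) : SC (hs (P.W r)) := sc_iff.2 ⟨smAt_W r, dF_W hr⟩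

/-- the forms of integral cocycles are Chern forms -/
theorem isChern_W {n : ι → ι → ι → ℤ} (hr : IsCoc P.U fun a b c => (n a b c : ℝ)) :
    IsChern (hs (P.W fun a b c => (n a b c : ℝ))) := by
  set r : ι → ι → ι → ℝ := fun a b c => (n a b c : ℝ) with hrdef
  have hs' : ∀ a b x, SmF (fun y => 2 * Real.pi * P.ff r a b y) x := fun a b x =>
    contMDiffAt_const.mul (P.smF_ff r a b x)
  refine ⟨mkLB (Fintype.equivFin ι).symm P.U P.opn P.cov
    (fun a b x => Complex.exp (((2 * Real.pi * P.ff r a b x : ℝ) : ℂ) * Complex.I))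
    (fun a b x _ => ((SmC.ofReal (hs' a b x)).mul contMDiffAt_const).exp)
    (fun a b x _ => Complex.norm_exp_ofReal_mul_I _) (fun a b c x hx => ?_)
    (fun a => (2 * Real.pi) • P.Af r a) (fun a x _ => (smAt_Af r a x).smul _)
    (fun a b x hx v => ?_) _ (sc_W hr) (fun a x hx => ?_), rfl⟩
  · have h := ff_coc hr hx.1.1 hx.1.2 hx.2
    rw [← Complex.exp_add, Complex.exp_eq_exp_iff_exists_int]
    refine ⟨n a b c, ?_⟩
    have h1 : P.ff r a b x = P.ff r a c x - P.ff r b c x + n a b c := by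
      have : r a b c = n a b c := rfl
      linarith
    rw [h1]
    push_cast
    ring
  · rw [dlog_exp (hs' a b x), Df_const_mul _ (P.smF_ff r a b x)]
    have h := congrArg (fun A : Alt 1 => A ![v]) (Af_sub hr hx.1 hx.2)
    show 2 * Real.pi * P.Af r a x ![v] - 2 * Real.pi * P.Af r b x ![v] =
      2 * Real.pi * Df (P.ff r a b) x v
    rw [← mul_sub]
    exact congrArg _ h
  · rw [H175.dF_smul, dF_Af hr hx]
    rfl

/-- **a zigzag with vanishing cocycle gives a primitive** -/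
theorem ex_of_zig (P : Pt X ι) {F : RF X 2} (Z : Zig P.U F)
    (h0 : ∀ a b c x, x ∈ P.U a → x ∈ P.U b → x ∈ P.U c → Z.r a b c = 0) : Ex F := by
  let h : ι → X → ℝ := fun b y => ∑ a, P.ψ a y * Z.f a b y
  have hh : ∀ b, ∀ x ∈ P.U b, SmF (h b) x := by
    intro b x hx
    refine smF_sum _ fun a _ => ?_
    by_cases ha : x ∈ P.U a
    · exact (P.sm a x).mul (Z.f_sm a b x ha hx)
    · refine smF_of_const (c := 0) ?_
      filter_upwards [P.ev_zero ha] with y hy
      rw [hy, zero_mul]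
  have hd : ∀ b c y, y ∈ P.U b → y ∈ P.U c → h c y = h b y + Z.f b c y := by
    intro b c y hb hc
    rw [← mul_one (Z.f b c y), ← P.sum y, Finset.mul_sum, ← Finset.sum_add_distrib]
    refine Finset.sum_congr rfl fun a _ => ?_
    by_cases ha : y ∈ P.U a
    · have h1 := Z.cf a b c y ha hb hc
      rw [h0 a b c y ha hb hc] at h1
      linear_combination (-P.ψ a y) * h1
    · rw [P.ψ_zero ha]
      ring
  have he : ∀ b c y, y ∈ P.U b → y ∈ P.U c → (Z.A b + d0 (h b)) y = (Z.A c + d0 (h c)) y := by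
    intro b c y hb hc
    have h1 : h c =ᶠ[𝓝 y] fun z => h b z + Z.f b c z := by
      filter_upwards [(P.opn b).mem_nhds hb, (P.opn c).mem_nhds hc] with z h2 h3
      exact hd b c z h2 h3
    rw [Pi.add_apply, Pi.add_apply, d0_congr h1, d0_add (hh b y hb) (Z.f_sm b c y hb hc),
      ← Z.df b c y hb hc]
    abel
  choose i hi using P.cov
  have hev : ∀ x, (fun y => (Z.A (i y) + d0 (h (i y))) y) =ᶠ[𝓝 x] Z.A (i x) + d0 (h (i x)) := by
    intro x
    filter_upwards [(P.opn (i x)).mem_nhds (hi x)] with y hy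
    exact he _ _ y (hi y) hy
  have hs1 : ∀ x, SmAt (d0 (h (i x))) x := fun x => smAt_d0 (P.opn _) (hh _) (hi x)
  refine ⟨fun y => (Z.A (i y) + d0 (h (i y))) y,
    fun x => ((Z.A_sm _ x (hi x)).add (hs1 x)).congr (hev x), funext fun x => ?_⟩
  rw [H175.dF_congr (hev x), H175.dF_add (Z.A_sm _ x (hi x)) (hs1 x), Z.dA _ x (hi x),
    dF_d0 (P.opn _) (hh _) (hi x), add_zero]

/-- a form is cohomologous to the form of the cocycle of a zigzag -/
theorem ex_sub (P : Pt X ι) {F : RF X 2} (Z : Zig P.U F) : Ex (F - P.W Z.r) :=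
  P.ex_of_zig (Z.sub (zig Z.isCoc)) fun _ _ _ _ _ _ _ => sub_self _

/-- the forms of coboundaries are exact -/
theorem ex_cob (hr : IsCoc P.U r) (u : ι → ι → ℝ)
    (h : ∀ a b c x, x ∈ P.U a → x ∈ P.U b → x ∈ P.U c → r a b c = u b c - u a c + u a b) :
    Ex (P.W r) :=
  P.ex_of_zig ((zig hr).shift u) fun a b c x ha hb hc => sub_eq_zero.2 (h a b c x ha hb hc)

/-- comparison of two partitions -/
theorem ex_comp (hr : IsCoc P.U r) {κ : Type} [Fintype κ] (Q : Pt X κ) (c : κ → ι)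
    (h : ∀ a, Q.U a ⊆ P.U (c a)) : Ex (P.W r - Q.W fun a b d => r (c a) (c b) (c d)) :=
  Q.ex_sub ((zig hr).comp c h)

end Pt

/-- closed forms have zigzags on good covers -/
theorem exists_zig [IsManifold (𝓡 4) ∞ X] {U : ι → Set X} (hU : ∀ a, IsOpen (U a))
    (hg : ∀ a b c, ∃ e ∈ atlas E4 X, U a ∩ U b ∩ U c ⊆ e.source ∧
      Convex ℝ (e '' (U a ∩ U b ∩ U c)))
    {F : RF X 2} (h1 : ∀ x, SmAt F x) (h2 : ∀ x, dF F x = 0) : Nonempty (Zig U F) := by
  have hA : ∀ a, ∃ A : RF X 1, (∀ x ∈ U a, SmAt A x) ∧ ∀ x ∈ U a, dF A x = F x := by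
    intro a
    obtain ⟨e, he, h3, h4⟩ := hg a a a
    rw [inter_self, inter_self] at h3 h4
    exact exists_prim2 he (hU a) h3 h4 (fun x _ => h1 x) fun x _ => h2 x
  choose A hA hA' using hA
  have hf : ∀ a b, ∃ f : X → ℝ, (∀ x ∈ U a ∩ U b, SmF f x) ∧
      ∀ x ∈ U a ∩ U b, d0 f x = (A a - A b) x := by
    intro a b
    obtain ⟨e, he, h3, h4⟩ := hg a b b
    rw [inter_assoc, inter_self] at h3 h4
    refine exists_prim1 he ((hU a).inter (hU b)) h3 h4
      (fun x hx => smAt_sub (hA a x hx.1) (hA b x hx.2)) fun x hx => ?_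
    rw [dF_sub (hA a x hx.1) (hA b x hx.2), hA' a x hx.1, hA' b x hx.2, sub_self]
  choose f hf hf' using hf
  have hr : ∀ a b c, ∃ r : ℝ, ∀ x ∈ U a ∩ U b ∩ U c, f b c x - f a c x + f a b x = r := by
    intro a b c
    obtain ⟨e, he, h3, h4⟩ := hg a b c
    refine exists_const he (((hU a).inter (hU b)).inter (hU c)) h3 h4 (fun x hx =>
      ((hf b c x ⟨hx.1.2, hx.2⟩).sub (hf a c x ⟨hx.1.1, hx.2⟩)).add (hf a b x hx.1))
      fun x hx => ?_
    rw [d0_add ((hf b c x ⟨hx.1.2, hx.2⟩).sub (hf a c x ⟨hx.1.1, hx.2⟩)) (hf a b x hx.1),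
      d0_sub (hf b c x ⟨hx.1.2, hx.2⟩) (hf a c x ⟨hx.1.1, hx.2⟩), hf' b c x ⟨hx.1.2, hx.2⟩,
      hf' a c x ⟨hx.1.1, hx.2⟩, hf' a b x hx.1, Pi.sub_apply, Pi.sub_apply, Pi.sub_apply]
    abel
  choose r hr using hr
  exact ⟨⟨A, f, r, hA, hA', fun a b x ha hb => hf a b x ⟨ha, hb⟩,
    fun a b x ha hb => (hf' a b x ⟨ha, hb⟩).symm, fun a b c x ha hb hc => hr a b c x ⟨⟨ha, hb⟩, hc⟩⟩⟩

end Vale.Agent.P247M
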