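import Vale.Agent.P247M.Good
import Vale.Agent.P247M.Zig
import Vale.Agent.P267.H994.PD
import Vale.Agent.P267.H368.Cover

/-!
# P247, block L: the input of the duality theorem
-/

set_option linter.unusedSectionVars false

open scoped Manifold ContDiff Topology Uniformity
open Set Filter TopologicalSpace MeasureTheory

noncomputable section

namespace Vale.Agent.P247M

open Vale.Agent.P247.SCY Vale.Agent.P247.SCY.HS
open Vale.Agent.P267.H175 (SmAt dF)
open Vale.Agent.P267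
open Vale.Agent.P267.H533 (Part TopInt lam prodW)

/-! ### partitions of unity -/

section pt

variable {X : Type} [TopologicalSpace X] [ChartedSpace E4 X] {ι : Type} [Fintype ι]

/-- a partition of unity in the algebra `AX X` -/
def partOf (P : Pt X ι) (v : ι → X) : Part (AX X) ι where
  ψ a := ⟨P.ψ a, P.sm a⟩
  v := v
  sum_one := by
    apply Subtype.ext
    funext x
    rw [AddSubmonoidClass.coe_finsetSum, Finset.sum_apply]
    exact P.sum x

/-- the same partition, subordinate to another cover -/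
def Pt.reU (P : Pt X ι) (V : ι → Set X) (hV : ∀ a, IsOpen (V a))
    (h : ∀ a, tsupport (P.ψ a) ⊆ V a) : Pt X ι :=
  ⟨V, hV, P.ψ, P.sm, h, P.sum⟩

/-- the elementary forms -/
def Pt.tm (P : Pt X ι) (a b c : ι) : Form X 2 := hs fun x => P.ψ a x • dd (P.ψ b) (P.ψ c) x

theorem Pt.W_eq (P : Pt X ι) (r : ι → ι → ι → ℝ) :
    hs (P.W r) = fun x => ∑ a, ∑ b, ∑ c, r a b c • P.tm a b c x := by
  funext x
  show P.W r x = ∑ a, ∑ b, ∑ c, r a b c • P.ψ a x • dd (P.ψ b) (P.ψ c) x
  simp only [P.W_apply, smul_smul]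

variable [IsManifold (𝓡 4) ∞ X]

theorem Pt.smooth_tm (P : Pt X ι) (a b c : ι) : HS.Smooth (P.tm a b c) :=
  smooth_iff.2 fun x => smAt_fsmul (P.sm a x) (smAt_dd (P.sm b) (P.sm c) x)

theorem Pt.smooth_W (P : Pt X ι) (r : ι → ι → ι → ℝ) : HS.Smooth (hs (P.W r)) :=
  smooth_iff.2 (Pt.smAt_W r)

theorem smooth_sum' {κ : Type} (s : Finset κ) {k : ℕ} {α : κ → Form X k}
    (h : ∀ i, HS.Smooth (α i)) : HS.Smooth fun x => ∑ i ∈ s, α i x :=
  smooth_iff.2 fun x => by
    rw [rf_sum]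
    exact smAt_sum s fun i _ => smooth_iff.1 (h i) x

theorem smooth_smul' {k : ℕ} {α : Form X k} (h : HS.Smooth α) (c : ℝ) :
    HS.Smooth fun x => c • α x :=
  smooth_iff.2 fun x => (smooth_iff.1 h x).smul c

variable [CompactSpace X]

theorem exists_pt [T2Space X] (U : ι → Set X) (hU : ∀ a, IsOpen (U a)) (hc : ∀ x, ∃ a, x ∈ U a) :
    ∃ P : Pt X ι, P.U = U := by
  obtain ⟨f, hf⟩ := SmoothPartitionOfUnity.exists_isSubordinate (𝓡 4) isClosed_univ U hU
    fun x _ => mem_iUnion.2 (hc x)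
  refine ⟨⟨U, hU, fun a => f a, fun a x => (f a).contMDiff x, hf, fun x => ?_⟩, rfl⟩
  rw [← finsum_eq_sum_of_fintype]
  exact f.sum_eq_one (mem_univ x)

variable [MeasurableSpace X] [BorelSpace X] {μ : Form X 4}

theorem Pt.pair_W_left (hμ : Volume μ) (P : Pt X ι) (r : ι → ι → ι → ℝ) {β : Form X 2}
    (hβ : HS.Smooth β) :
    pair μ (hs (P.W r)) β = ∑ a, ∑ b, ∑ c, r a b c * pair μ (P.tm a b c) β := by
  have h := fun a b c => smooth_smul' (P.smooth_tm a b c) (r a b c)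
  rw [P.W_eq, pair_sum_left hμ _ (fun a _ => smooth_sum' _ fun b => smooth_sum' _ (h a b)) hβ]
  refine Finset.sum_congr rfl fun a _ => ?_
  rw [pair_sum_left hμ _ (fun b _ => smooth_sum' _ (h a b)) hβ]
  refine Finset.sum_congr rfl fun b _ => ?_
  rw [pair_sum_left hμ _ (fun c _ => h a b c) hβ]
  exact Finset.sum_congr rfl fun c _ => pair_smul_left μ _ _ _

theorem prodW_eq_pair (hμ : Volume μ) (hst : St μ) (P : Pt X ι) (v : ι → X)
    (f g : (Fin 3 → X) → ℝ) : prodW (TI hμ hst) (partOf P v) f g =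
      pair μ (hs (P.W fun a b c => f ![v a, v b, v c]))
        (hs (P.W fun a b c => g ![v a, v b, v c])) := by
  rw [P.pair_W_left hμ _ (P.smooth_W _), prodW]
  refine Finset.sum_congr rfl fun a0 _ => Finset.sum_congr rfl fun a1 _ =>
    Finset.sum_congr rfl fun a2 _ => ?_
  rw [pair_comm, P.pair_W_left hμ _ (P.smooth_tm _ _ _), Finset.mul_sum]
  refine Finset.sum_congr rfl fun b0 _ => ?_
  rw [Finset.mul_sum]
  refine Finset.sum_congr rfl fun b1 _ => ?_
  rw [Finset.mul_sum]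
  refine Finset.sum_congr rfl fun b2 _ => ?_
  rw [pair_comm, TI_J, pair_eq]
  congr 3
  funext x
  show (P.ψ a0 x * P.ψ b0 x) • w22 _ _ = w22 (P.ψ a0 x • _) (P.ψ b0 x • _)
  rw [w22_smul_left, w22_smul_right, smul_smul]
  rfl

end pt

section fine

variable {X : Type} [MetricSpace X] [CompactSpace X] [ChartedSpace E4 X] [IsManifold (𝓡 4) ∞ X]

theorem exists_fine {η : ℝ} (hη : 0 < η) :
    ∃ (n : ℕ) (P : Pt X (Fin n)) (v : Fin n → X), (partOf P v).Fine η := by
  obtain ⟨t, ht⟩ := isCompact_univ.elim_finite_subcover (fun x : X => Metric.ball x η)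
    (fun _ => Metric.isOpen_ball) fun x _ => mem_iUnion.2 ⟨x, Metric.mem_ball_self hη⟩
  let v : Fin t.card → X := fun i => (t.equivFin.symm i : t)
  obtain ⟨P, hP⟩ := exists_pt (fun a => Metric.ball (v a) η) (fun _ => Metric.isOpen_ball)
    fun x => by
      obtain ⟨y, hy, hxy⟩ := mem_iUnion₂.1 (ht (mem_univ x))
      exact ⟨t.equivFin ⟨y, hy⟩, by simpa [v] using hxy⟩
  refine ⟨t.card, P, v, fun a x hx => ?_⟩
  have h := P.supp a hx
  rw [hP] at h
  exact h

theorem exists_fineSeq : ∃ (N : ℕ → ℕ) (P : ∀ k, Pt X (Fin (N k))) (v : ∀ k, Fin (N k) → X),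
    ∀ η > 0, ∀ᶠ k in atTop, (partOf (P k) (v k)).Fine η := by
  have h : ∀ k : ℕ, ∃ (n : ℕ) (P : Pt X (Fin n)) (v : Fin n → X),
      (partOf P v).Fine (1 / ((k : ℝ) + 1)) := fun k => exists_fine (by positivity)
  choose N P v h using h
  refine ⟨N, P, v, fun η hη => ?_⟩
  filter_upwards [tendsto_one_div_add_atTop_nhds_zero_nat.eventually (gt_mem_nhds hη)]
    with k hk a x hx
  exact (h k a x hx).trans hk

end fine

/-! ### uniform fineness -/

section unif

variable {X : Type*} [PseudoMetricSpace X] {A : Subalgebra ℝ (X → ℝ)} {N : ℕ → ℕ}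
  {P : ∀ k, Part A (Fin (N k))}

theorem eventually_ASFine (hP : ∀ η > 0, ∀ᶠ k in atTop, (P k).Fine η) {V : Set (X × X)}
    (hV : V ∈ 𝓤 X) : ∀ᶠ k in atTop, AS.Fine V (P k) := by
  obtain ⟨ε, hε, h⟩ := Metric.mem_uniformity_dist.1 hV
  filter_upwards [hP ε hε] with k hk a x hx
  exact h (hk a x hx)

theorem good_lam {T : TopInt A} (hP : ∀ η > 0, ∀ᶠ k in atTop, (P k).Fine η) {U : Set X}
    (h : AS.Good T U) : ∃ c : Fin 4 → X → ℝ, AS.ChartPiece U c ∧
      ∀ᶠ l in atTop, lam T (P l) (H994.toR (AS.rhoU U c)) = 1 := by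
  obtain ⟨c, χ, t, δ, h1, h2, h3⟩ := h
  refine ⟨c, h1, ?_⟩
  obtain ⟨V, hV, h4⟩ := h1.lam_rhoU T h2
  filter_upwards [eventually_ASFine hP hV] with l hl
  exact (h4 _ (P l) hl).trans h3

theorem good_cls {T : TopInt A} (hP : ∀ η > 0, ∀ᶠ k in atTop, (P k).Fine η) {U : Set X}
    (h : AS.Good T U) : ∃ ρ : H994.Co X 4, H994.Closed ρ ∧ H994.CS U ρ ∧
      ∀ᶠ l in atTop, lam T (P l) (H994.toR ρ) = 1 := by
  obtain ⟨c, h1, h2⟩ := good_lam hP h
  exact ⟨AS.rhoU U c, h1.closed_rhoU, h1.cs_rhoU, h2⟩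

theorem good_B3 {T : TopInt A} {U : Set X} (h : AS.Good T U) (S : H994.Co X 3)
    (hS : H994.Closed S) (hs : H994.CS U S) :
    ∃ τ : H994.Co X 2, H994.CS U τ ∧ H994.Eqv (H994.d τ) S := by
  obtain ⟨c, χ, t, δ, h1, -⟩ := h
  exact h1.B3 S hS hs

theorem good_B4 {T : TopInt A} (hP : ∀ η > 0, ∀ᶠ k in atTop, (P k).Fine η) {U : Set X}
    (h : AS.Good T U) (F : H994.Co X 4) (hF : H994.Closed F) (hs : H994.CS U F)
    (h0 : ∀ᶠ l in atTop, lam T (P l) (H994.toR F) = 0) :
    ∃ σ : H994.Co X 3, H994.CS U σ ∧ H994.Eqv (H994.d σ) F := by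
  obtain ⟨c, h1, h2⟩ := good_lam hP h
  refine h1.B4 (H994.lamGZ T P) (H994.lamGZ_eqv T P hP) (H994.lamGZ_d T P) ?_ F hF hs ?_
  · intro k hk
    have h3 : H994.lamGZ T P (AS.rhoU U c) = (((1 : ℝ) : ℝ) : (atTop : Filter ℕ).Germ ℝ) :=
      (H994.lamG_eq_const T P).2 h2
    rw [h3] at hk
    exact H994.germ_one_torsion_free k hk
  · exact (H994.lamG_eq_const T P (r := 0)).2 h0

end unif

/-! ### the good cover -/

section cover

variable {X : Type} [TopologicalSpace X] [ChartedSpace E4 X] {A : E4 ≃L[ℝ] E4}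
  (G : H368.GoodCover X A)

/-- the compact chart ball around a member -/
def bK (i : Fin G.n) : Set X := (G.e i).symm '' {w | ‖A w - A (G.c i)‖ ≤ G.r}

theorem isCompact_bK (i : Fin G.n) : IsCompact (bK G i) :=
  (H368.isCompact_closed_aball A (G.c i) G.r).image_of_continuousOn
    ((G.e i).continuousOn_symm.mono (G.closed_sub i))

theorem bK_sub (i : Fin G.n) : bK G i ⊆ (G.e i).source := by
  rintro _ ⟨w, hw, rfl⟩
  exact (G.e i).map_target (G.closed_sub i hw)

theorem U_sub_bK (i : Fin G.n) : G.U i ⊆ bK G i := by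
  rintro _ ⟨w, hw, rfl⟩
  exact ⟨w, le_of_lt (H368.mem_aball.1 hw), rfl⟩

theorem conv3 (i j k : Fin G.n) : Convex ℝ (G.e i '' (G.U i ∩ G.U j ∩ G.U k)) := by
  rcases (G.U i ∩ G.U j ∩ G.U k).eq_empty_or_nonempty with h0 | hne
  · rw [h0, image_empty]
    exact convex_empty
  have e : (⋂ l ∈ ({i, j, k} : Finset (Fin G.n)), G.U l) = G.U i ∩ G.U j ∩ G.U k := by
    ext x
    simp [and_assoc]
  have h := (G.inter_convex (s := {i, j, k}) (i := i) (by simp) (by rwa [e])).2.1
  rwa [e] at h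

theorem conv2 (i j : Fin G.n) : Convex ℝ (G.e i '' (G.U i ∩ G.U j)) := by
  have h := conv3 G i j j
  rwa [inter_assoc, inter_self] at h

theorem conv1 (i : Fin G.n) : Convex ℝ (G.e i '' G.U i) := by
  have h := conv2 G i i
  rwa [inter_self] at h

/-- the members as open sets -/
def cov (i : Fin G.n) : Opens X := ⟨G.U i, G.isOpen_U i⟩

theorem cov_cover : (⋃ i, (cov G i : Set X)) = univ := by
  rw [eq_univ_iff_forall]
  intro x
  obtain ⟨i, hi⟩ := G.exists_mem_U x
  exact mem_iUnion.2 ⟨i, hi⟩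

end cover

section main

variable {X : Type} [MetricSpace X] [CompactSpace X] [ChartedSpace E4 X] [IsManifold (𝓡 4) ∞ X]
  [MeasurableSpace X] [BorelSpace X] {μ : Form X 4} (hμ : Volume μ) (hst : St μ)
  {A : E4 ≃L[ℝ] E4} (G : H368.GoodCover X A)

theorem good_inter {i : Fin G.n} {W : Set X} (hW : W ⊆ G.U i) (hWo : IsOpen W)
    (hc : Convex ℝ (G.e i '' W)) (hne : W.Nonempty) : AS.Good (TI hμ hst) W := by
  have h1 : closure W ⊆ bK G i :=
    closure_minimal (hW.trans (U_sub_bK G i)) (isCompact_bK G i).isClosed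
  exact good_TI hμ hst (G.e_mem i) hWo hne (h1.trans (bK_sub G i)) hc

/-- **the input of the duality theorem** -/
theorem pdIn {N : ℕ → ℕ} {P : ∀ k, Part (AX X) (Fin (N k))}
    (hP : ∀ η > 0, ∀ᶠ k in atTop, (P k).Fine η) : H994.PDIn (TI hμ hst) P (cov G) := by
  refine ⟨hP, ?_, ?_, ?_, ?_, ?_, ?_⟩
  · intro i hne
    exact H994.SmallContr.of_chart (G.e i) (U_sub_bK G i) (isCompact_bK G i) (bK_sub G i) hne
      (conv1 G i)
  · intro i j hne
    exact H994.SmallContr.of_chart (G.e i) (inter_subset_left.trans (U_sub_bK G i))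
      (isCompact_bK G i) (bK_sub G i) hne (conv2 G i j)
  · intro i j k hne
    exact H994.SmallContr.of_chart (G.e i)
      ((inter_subset_left.trans inter_subset_left).trans (U_sub_bK G i))
      (isCompact_bK G i) (bK_sub G i) hne (conv3 G i j k)
  · intro i j k hne
    exact good_cls hP (good_inter hμ hst G (inter_subset_left.trans inter_subset_left)
      (((G.isOpen_U i).inter (G.isOpen_U j)).inter (G.isOpen_U k)) (conv3 G i j k) hne)
  · intro j k hne F hF hs h0
    exact good_B4 hP (good_inter hμ hst G inter_subset_left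
      ((G.isOpen_U j).inter (G.isOpen_U k)) (conv2 G j k) hne) F hF hs h0
  · intro k hne S hS hs
    exact good_B3 (good_inter hμ hst G subset_rfl (G.isOpen_U k) (conv1 G k) hne) S hS hs

end main

end Vale.Agent.P247M
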