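import Vale.Agent.P247M.PB
import Vale.Agent.P267.H533.Lam

/-!
# P247, block L: the functional `∫ f dg₀ ∧ dg₁ ∧ dg₂ ∧ dg₃`
-/

set_option linter.unusedSectionVars false

open scoped Manifold ContDiff Topology
open Set Filter MeasureTheory

noncomputable section

namespace Vale.Agent.P247M

open Vale.Agent.P247.SCY Vale.Agent.P247.SCY.HS
open Vale.Agent.P267.H175 (SmAt dF)
open Vale.Agent.P267
open Vale.Agent.P247X (SC)

variable {X : Type} [TopologicalSpace X] [ChartedSpace E4 X]

/-- the algebra of smooth functions -/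
def AX (X : Type) [TopologicalSpace X] [ChartedSpace E4 X] : Subalgebra ℝ (X → ℝ) where
  carrier := {f | ∀ x, SmF f x}
  mul_mem' hf hg x := (hf x).mul (hg x)
  add_mem' hf hg x := (hf x).add (hg x)
  algebraMap_mem' _ _ := contMDiffAt_const

theorem AX_sm (f : AX X) (x : X) : SmF (f : X → ℝ) x := f.2 x

/-- `dg ∧ dh` -/
def dd (g h : X → ℝ) : RF X 2 := fun x => wd (Df g x) (d0 h x)

theorem dd_of_left {g h : X → ℝ} {x : X} (h0 : Df g x = 0) : dd g h x = 0 := by
  rw [dd, h0, wd_zero_left]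

theorem dd_of_right {g h : X → ℝ} {x : X} (h0 : Df h x = 0) : dd g h x = 0 := by
  rw [dd, d0, h0, map_zero, wd_zero_right]

/-- the row of the differential -/
def rowD (x : X) : AX X →ₗ[ℝ] (Fin 4 → ℝ) where
  toFun g j := Df (g : X → ℝ) x (bas j)
  map_add' g h := by
    funext j
    exact congrArg (fun L : E4 →L[ℝ] ℝ => L (bas j)) (Df_add (AX_sm g x) (AX_sm h x))
  map_smul' c g := by
    funext j
    exact congrArg (fun L : E4 →L[ℝ] ℝ => L (bas j)) (Df_const_mul c (AX_sm g x))

theorem rowD_mul (x : X) (g h : AX X) :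
    rowD x (g * h) = (g : X → ℝ) x • rowD x h + (h : X → ℝ) x • rowD x g := by
  funext j
  exact congrArg (fun L : E4 →L[ℝ] ℝ => L (bas j)) (Df_mul (AX_sm g x) (AX_sm h x))

/-- the determinant of four differentials -/
def detA (x : X) : AX X [⋀^Fin 4]→ₗ[ℝ] ℝ :=
  (Matrix.detRowAlternating (n := Fin 4) (R := ℝ)).compLinearMap (rowD x)

theorem detA_eq (x : X) (w : Fin 4 → AX X) :
    detA x w = W22 (dd (w 0) (w 1)) (dd (w 2) (w 3)) x bas := by
  have h := w22_wd (Df (w 0 : X → ℝ) x) (Df (w 1 : X → ℝ) x) (Df (w 2 : X → ℝ) x)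
    (Df (w 3 : X → ℝ) x)
  refine Eq.trans ?_ h.symm
  show Matrix.det (fun i => rowD x (w i)) = _
  congr 1
  funext i
  fin_cases i <;> rfl

theorem detA_leib (x : X) (g h : AX X) (w : Fin 4 → AX X) :
    detA x (Function.update w 0 (g * h)) = (g : X → ℝ) x * detA x (Function.update w 0 h) +
      (h : X → ℝ) x * detA x (Function.update w 0 g) := by
  have e : ∀ u : AX X, detA x (Function.update w 0 u) =
      Matrix.detRowAlternating (Function.update (fun i => rowD x (w i)) 0 (rowD x u)) := by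
    intro u
    rw [detA, AlternatingMap.compLinearMap_apply]
    congr 1
    funext i
    exact Function.apply_update (fun _ => rowD x) w 0 u i
  rw [e, e, e, rowD_mul, AlternatingMap.map_update_add, AlternatingMap.map_update_smul,
    AlternatingMap.map_update_smul]
  rfl

theorem detA_zero {x : X} {w : Fin 4 → AX X} {k : Fin 4} (h : Df (w k : X → ℝ) x = 0) :
    detA x w = 0 := by
  rw [detA, AlternatingMap.compLinearMap_apply]
  refine AlternatingMap.map_coord_zero _ k ?_
  funext j
  exact congrArg (fun L : E4 →L[ℝ] ℝ => L (bas j)) h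

/-- the top form `f dw₀ ∧ dw₁ ∧ dw₂ ∧ dw₃` -/
def topF (f : AX X) (w : Fin 4 → AX X) : RF X 4 :=
  fun x => (f : X → ℝ) x • W22 (dd (w 0) (w 1)) (dd (w 2) (w 3)) x

theorem q4_topF (μ : Form X 4) (f : AX X) (w : Fin 4 → AX X) (x : X) :
    q4 μ (topF f w) x = (f : X → ℝ) x * detA x w / rf μ x bas := by
  rw [detA_eq]
  rfl

variable [IsManifold (𝓡 4) ∞ X]

theorem dF_fd0 {g h : X → ℝ} {V : Set X} (hV : IsOpen V) (hh : ∀ y ∈ V, SmF h y) {x : X}
    (hx : x ∈ V) (hg : SmF g x) : dF (fun y => g y • d0 h y) x = dd g h x := by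
  rw [dF_fsmul hg (smAt_d0 hV hh hx), dF_d0 hV hh hx, smul_zero, add_zero]
  rfl

theorem dd_eq {g h : X → ℝ} (hg : ∀ x, SmF g x) (hh : ∀ x, SmF h x) :
    dd g h = dF fun y => g y • d0 h y :=
  funext fun x => (dF_fd0 isOpen_univ (fun y _ => hh y) (mem_univ x) (hg x)).symm

theorem smAt_d0' {h : X → ℝ} (hh : ∀ x, SmF h x) (x : X) : SmAt (d0 h) x :=
  smAt_d0 isOpen_univ (fun y _ => hh y) (mem_univ x)

theorem smAt_dd {g h : X → ℝ} (hg : ∀ x, SmF g x) (hh : ∀ x, SmF h x) (x : X) :
    SmAt (dd g h) x := by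
  rw [dd_eq hg hh]
  exact smAt_dF' (fun y => smAt_fsmul (hg y) (smAt_d0' hh y)) x

theorem dF_dd {g h : X → ℝ} (hg : ∀ x, SmF g x) (hh : ∀ x, SmF h x) (x : X) :
    dF (dd g h) x = 0 := by
  rw [dd_eq hg hh]
  exact dF_dF' (fun y => smAt_fsmul (hg y) (smAt_d0' hh y)) x

theorem smAt_topF (f : AX X) (w : Fin 4 → AX X) (x : X) : SmAt (topF f w) x :=
  smAt_fsmul (AX_sm f x) (smAt_W22 (smAt_dd (AX_sm _) (AX_sm _) x) (smAt_dd (AX_sm _) (AX_sm _) x))

variable [MeasurableSpace X] [BorelSpace X] [CompactSpace X] {μ : Form X 4}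

/-- the theorem of Stokes for the pairing -/
def St (μ : Form X 4) : Prop := ∀ α β : Form X 2, HS.Exact α → SC β → pair μ α β = 0

theorem integrable_detA (hμ : Volume μ) (f : AX X) (w : Fin 4 → AX X) :
    Integrable (fun x => (f : X → ℝ) x * detA x w / rf μ x bas) (vol μ) := by
  have h := integrable_q4 hμ (smAt_topF f w)
  have e : q4 μ (topF f w) = fun x => (f : X → ℝ) x * detA x w / rf μ x bas :=
    funext (q4_topF μ f w)
  rwa [e] at h

/-- the integral as an alternating map -/
def intA (hμ : Volume μ) (f : AX X) : AX X [⋀^Fin 4]→ₗ[ℝ] ℝ where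
  toFun w := ∫ x, (f : X → ℝ) x * detA x w / rf μ x bas ∂(vol μ)
  map_update_add' w i a b := by
    rw [← integral_add (integrable_detA hμ f _) (integrable_detA hμ f _)]
    congr 1
    funext x
    rw [AlternatingMap.map_update_add]
    ring
  map_update_smul' w i c a := by
    rw [smul_eq_mul, ← integral_const_mul]
    congr 1
    funext x
    rw [AlternatingMap.map_update_smul, smul_eq_mul]
    ring
  map_eq_zero_of_eq' w i j h hij := by
    have h1 : ∀ x, detA x w = 0 := fun x => (detA x).map_eq_zero_of_eq w h hij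
    simp [h1]

theorem intA_apply (hμ : Volume μ) (f : AX X) (w : Fin 4 → AX X) :
    intA hμ f w = ∫ x, (f : X → ℝ) x * detA x w / rf μ x bas ∂(vol μ) := rfl

theorem intA_eq (hμ : Volume μ) (f : AX X) (w : Fin 4 → AX X) :
    intA hμ f w = I4 μ (topF f w) := by
  rw [intA_apply, I4]
  simp only [q4_topF]

/-- the functional `∫ f dw₀ ∧ dw₁ ∧ dw₂ ∧ dw₃` -/
def TI (hμ : Volume μ) (hst : St μ) : H533.TopInt (AX X) where
  I :=
    { toFun := intA hμ
      map_add' := fun f g => by
        ext w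
        rw [AlternatingMap.add_apply, intA_apply, intA_apply, intA_apply,
          ← integral_add (integrable_detA hμ f _) (integrable_detA hμ g _)]
        congr 1
        funext x
        show ((f : X → ℝ) x + (g : X → ℝ) x) * _ / _ = _
        ring
      map_smul' := fun c f => by
        ext w
        rw [AlternatingMap.smul_apply, intA_apply, intA_apply, RingHom.id_apply, smul_eq_mul,
          ← integral_const_mul]
        congr 1
        funext x
        show (c * (f : X → ℝ) x) * _ / _ = _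
        ring }
  leibniz f g h w := by
    show intA hμ _ _ = intA hμ _ _ + intA hμ _ _
    rw [intA_apply, intA_apply, intA_apply,
      ← integral_add (integrable_detA hμ _ _) (integrable_detA hμ _ _)]
    congr 1
    funext x
    rw [detA_leib]
    show _ = ((f : X → ℝ) x * (g : X → ℝ) x) * _ / _ + ((f : X → ℝ) x * (h : X → ℝ) x) * _ / _
    ring
  loc f w h := by
    show intA hμ _ _ = 0
    rw [intA_apply]
    have h1 : ∀ x, (f : X → ℝ) x * detA x w / rf μ x bas = 0 := by
      intro x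
      rcases h x with h | ⟨k, c, h⟩
      · rw [h.self_of_nhds, zero_mul, zero_div]
      · rw [detA_zero (Df_of_const h), mul_zero, zero_div]
    simp [h1]
  stokes w := by
    show intA hμ _ _ = 0
    have h1 : topF 1 w = W22 (rf (hs (dd (w 0) (w 1)))) (rf (hs (dd (w 2) (w 3)))) := by
      funext x
      exact one_smul ℝ _
    rw [intA_eq, h1, ← pair_eq]
    refine hst _ _ (exact_iff.2 ⟨_, fun y => smAt_fsmul (AX_sm (w 0) y) (smAt_d0' (AX_sm (w 1)) y),
      (dd_eq (AX_sm _) (AX_sm _)).symm⟩)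
      (sc_iff.2 ⟨smAt_dd (AX_sm _) (AX_sm _), dF_dd (AX_sm _) (AX_sm _)⟩)

theorem TI_J (hμ : Volume μ) (hst : St μ) (f a b c d : AX X) :
    (TI hμ hst).J f a b c d =
      I4 μ fun x => (f : X → ℝ) x • W22 (dd (a : X → ℝ) b) (dd (c : X → ℝ) d) x :=
  intA_eq hμ f ![a, b, c, d]

end Vale.Agent.P247M
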